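import Vale.Agent.Lib.P089.AM.Defs

/-!
# P089 AM: matrix entries of operators on `ℓ²(I)`
-/

open Filter Topology

namespace P089.AM

open scoped Classical

noncomputable section

variable {I : Type}

theorem single_eq_smul (z : I) (c : ℂ) :
    (lp.single 2 z c : L2 I) = c • lp.single 2 z (1 : ℂ) := by
  rw [← lp.single_smul, smul_eq_mul, mul_one]

theorem single_self (i : I) : (lp.single 2 i (1 : ℂ) : L2 I) i = 1 := by
  rw [lp.single_apply_self]

theorem single_ne {i j : I} (h : j ≠ i) : (lp.single 2 i (1 : ℂ) : L2 I) j = 0 := by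
  rw [lp.single_apply_ne _ _ _ h]

theorem apply_single (S : L2 I →L[ℂ] L2 I) (y z : I) (c : ℂ) :
    S (lp.single 2 z c) y = ent S y z * c := by
  rw [single_eq_smul, map_smul, lp.coeFn_smul, Pi.smul_apply, smul_eq_mul, mul_comm]
  rfl

theorem apply_hasSum (S : L2 I →L[ℂ] L2 I) (ξ : L2 I) (y : I) :
    HasSum (fun z => ent S y z * ξ z) (S ξ y) := by
  have h1 := lp.hasSum_single (E := fun _ : I => ℂ) (p := 2) ENNReal.ofNat_ne_top ξ
  have h2 := ((lp.evalCLM ℂ (fun _ : I => ℂ) 2 y).comp S).hasSum h1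
  have h3 : (fun z => ent S y z * ξ z) =
      fun z => ((lp.evalCLM ℂ (fun _ : I => ℂ) 2 y).comp S) (lp.single 2 z (ξ z)) :=
    funext fun z => (apply_single S y z (ξ z)).symm
  rw [h3]
  exact h2

/-- entries of a product -/
theorem ent_mul_hasSum (S T : L2 I →L[ℂ] L2 I) (y y' : I) :
    HasSum (fun z => ent S y z * ent T z y') (ent (S * T) y y') :=
  apply_hasSum S (T (lp.single 2 y' 1)) y

/-- entries depend continuously on the operator -/
theorem ent_continuous (y y' : I) : Continuous fun S : L2 I →L[ℂ] L2 I => ent S y y' := by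
  have h1 : Continuous fun S : L2 I →L[ℂ] L2 I => S (lp.single 2 y' (1 : ℂ)) :=
    continuous_eval_const _
  exact (lp.evalCLM ℂ (fun _ : I => ℂ) 2 y).continuous.comp h1

theorem ent_one (y y' : I) : ent (1 : L2 I →L[ℂ] L2 I) y y' = if y = y' then 1 else 0 := by
  unfold ent
  change (lp.single 2 y' (1 : ℂ) : L2 I) y = _
  by_cases h : y = y'
  · subst h
    rw [lp.single_apply_self, if_pos rfl]
  · rw [lp.single_apply_ne _ _ _ h, if_neg h]

theorem ent_ext {S T : L2 I →L[ℂ] L2 I} (h : ∀ y y', ent S y y' = ent T y y') : S = T := by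
  ext ξ y
  have h1 := apply_hasSum S ξ y
  have h2 := apply_hasSum T ξ y
  simp only [h] at h1
  exact h1.unique h2

theorem ent_cut_mul (s : Set I) (T : L2 I →L[ℂ] L2 I) (y y' : I) :
    ent (cut s * T) y y' = if y ∈ s then ent T y y' else 0 := rfl

theorem ent_cut (s : Set I) (y y' : I) :
    ent (cut s) y y' = if y ∈ s ∧ y = y' then 1 else 0 := by
  have h := ent_cut_mul s 1 y y'
  rw [mul_one, ent_one] at h
  rw [h]
  by_cases h1 : y ∈ s
  · by_cases h2 : y = y'
    · rw [if_pos h1, if_pos h2, if_pos ⟨h1, h2⟩]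
    · rw [if_pos h1, if_neg h2, if_neg fun h => h2 h.2]
  · rw [if_neg h1, if_neg fun h => h1 h.1]

theorem ent_mul_cut (s : Set I) (T : L2 I →L[ℂ] L2 I) (y y' : I) :
    ent (T * cut s) y y' = if y' ∈ s then ent T y y' else 0 := by
  have h1 := ent_mul_hasSum T (cut s) y y'
  have h2 : HasSum (fun z => ent T y z * ent (cut s) z y')
      (ent T y y' * ent (cut s) y' y') := by
    refine hasSum_single y' fun z hz => ?_
    rw [ent_cut, if_neg (fun h => hz h.2), mul_zero]
  rw [h1.unique h2, ent_cut]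
  by_cases h : y' ∈ s <;> simp [h]

theorem ent_add (S T : L2 I →L[ℂ] L2 I) (y y' : I) : ent (S + T) y y' = ent S y y' + ent T y y' :=
  rfl

theorem ent_sub (S T : L2 I →L[ℂ] L2 I) (y y' : I) : ent (S - T) y y' = ent S y y' - ent T y y' :=
  rfl

theorem ent_smul (c : ℂ) (T : L2 I →L[ℂ] L2 I) (y y' : I) : ent (c • T) y y' = c * ent T y y' :=
  rfl

theorem norm_cut_le (s : Set I) : ‖(cut s : L2 I →L[ℂ] L2 I)‖ ≤ 1 :=
  LinearMap.mkContinuous_norm_le _ zero_le_one _

theorem cut_idem (s : Set I) : (cut s : L2 I →L[ℂ] L2 I) * cut s = cut s := by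
  refine ent_ext fun y y' => ?_
  rw [ent_cut_mul, ent_cut]
  by_cases h : y ∈ s <;> simp [h]

theorem shift_inj {Γ W : Type} [Group Γ] {g : Γ} {y y' : Γ × W}
    (h : (g * y.1, y.2) = (g * y'.1, y'.2)) : y = y' :=
  Prod.ext (mul_left_cancel (Prod.ext_iff.1 h).1) (Prod.ext_iff.1 h).2

end

end P089.AM
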