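import Vale.Agent.Lib.P089.AM.Bridge1
import Vale.Agent.Lib.P089.AM.Ent

/-!
# P089 AM: the two forms of the assembly map
-/

namespace P089.Asm

open scoped Classical NNReal

noncomputable section

variable {G : Type} [Group G]

theorem ite_aux {P : Prop} {d d' : Decidable P} (a : ℂ) :
    @ite ℂ P d a 0 = @ite ℂ P d' a 0 := by
  by_cases h : P
  · rw [if_pos h, if_pos h]
  · rw [if_neg h, if_neg h]

theorem locComp_iff (T : Op (Bas G)) : LocComp T ↔ AM.LocComp (G := G) T := by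
  constructor
  · intro h g
    obtain ⟨⟨S, hS, h1⟩, ⟨S', hS', h2⟩⟩ := h g
    constructor
    · have h3 : AM.cut {y | (AM.pos y).1 g ≠ 0} * (show AM.HX G →L[ℂ] AM.HX G from T) =
          (show AM.HX G →L[ℂ] AM.HX G from S) := by
        refine AM.ent_ext fun y y' => ?_
        rw [AM.ent_cut_mul]
        exact (ite_aux (P := (pos y).1 g ≠ 0) (ent T y y')).trans (h1 y y').symm
      rw [h3]
      exact hS
    · have h3 : (show AM.HX G →L[ℂ] AM.HX G from T) * AM.cut {y | (AM.pos y).1 g ≠ 0} =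
          (show AM.HX G →L[ℂ] AM.HX G from S') := by
        refine AM.ent_ext fun y y' => ?_
        rw [AM.ent_mul_cut]
        exact (ite_aux (P := (pos y').1 g ≠ 0) (ent T y y')).trans (h2 y y').symm
      rw [h3]
      exact hS'
  · intro h g
    obtain ⟨h1, h2⟩ := h g
    refine ⟨⟨(AM.cut {y | (AM.pos y).1 g ≠ 0} * (show AM.HX G →L[ℂ] AM.HX G from T) :
      AM.HX G →L[ℂ] AM.HX G), h1, fun y y' => ?_⟩,
      ⟨((show AM.HX G →L[ℂ] AM.HX G from T) * AM.cut {y | (AM.pos y).1 g ≠ 0} :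
      AM.HX G →L[ℂ] AM.HX G), h2, fun y y' => ?_⟩⟩
    · exact (AM.ent_cut_mul {y | (AM.pos y).1 g ≠ 0} T y y').trans
        (ite_aux (P := (pos y).1 g ≠ 0) (ent T y y'))
    · exact (AM.ent_mul_cut {y | (AM.pos y).1 g ≠ 0} T y y').trans
        (ite_aux (P := (pos y').1 g ≠ 0) (ent T y y'))

theorem roeSet_iff (F : Finset G) (T : Op (Bas G)) : T ∈ RoeSet F ↔ T ∈ AM.RoeSet G F :=
  ⟨fun h => ⟨h.1, h.2.1, h.2.2.1, (locComp_iff T).1 h.2.2.2⟩,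
    fun h => ⟨h.1, h.2.1, h.2.2.1, (locComp_iff T).2 h.2.2.2⟩⟩

theorem roeSet_eq (F : Finset G) : RoeSet F = (AM.RoeSet G F : Set (AM.HX G →L[ℂ] AM.HX G)) :=
  Set.ext (roeSet_iff F)

theorem roe_eq (F : Finset G) : Roe F = ((AM.Roe G F : Set (AM.HX G →L[ℂ] AM.HX G))) := by
  unfold Roe
  rw [roeSet_eq]
  rfl

theorem roeG_eq : RoeG G = ((AM.RoeG G : Set (AM.HX G →L[ℂ] AM.HX G))) := by
  have h1 : {T : Op (Bas G) | ∃ F : Finset G, T ∈ RoeSet F} =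
      (⋃ F, AM.RoeSet G F : Set (AM.HX G →L[ℂ] AM.HX G)) := by
    refine Set.ext fun T => ?_
    constructor
    · rintro ⟨F, hF⟩
      exact Set.mem_iUnion.2 ⟨F, (roeSet_iff F T).1 hF⟩
    · intro h
      obtain ⟨F, hF⟩ := Set.mem_iUnion.1 h
      exact ⟨F, (roeSet_iff F T).2 hF⟩
  unfold RoeG
  rw [h1]
  rfl

theorem locSet_eq (F : Finset G) :
    LocSet F = (AM.LocSet G F : Set (ℝ≥0 → (AM.HX G →L[ℂ] AM.HX G))) := by
  unfold LocSet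
  rw [roe_eq]
  rfl

theorem loc_eq (F : Finset G) :
    Loc F = (AM.Loc G F : Set (ℝ≥0 → (AM.HX G →L[ℂ] AM.HX G))) := by
  unfold Loc
  rw [locSet_eq]
  rfl

theorem mem_loc (F : Finset G) (b : ℝ≥0 → Op (Bas G)) (hb : b ∈ Loc F) : b ∈ AM.Loc G F := by
  rw [loc_eq] at hb
  exact hb

theorem mem_roeG (b : Op (Bas G)) (hb : b ∈ RoeG G) : b ∈ AM.RoeG G := by
  rw [roeG_eq] at hb
  exact hb

theorem mem_roeG' (b : Op (Bas G)) (hb : b ∈ AM.RoeG G) : b ∈ RoeG G := by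
  rw [roeG_eq]
  exact hb

/-- the identity -/
def fw (G : Type) [Group G] : Op (Bas G) →ₐ[ℂ] (AM.HX G →L[ℂ] AM.HX G) where
  toFun T := T
  map_one' := rfl
  map_mul' _ _ := rfl
  map_zero' := rfl
  map_add' _ _ := rfl
  commutes' _ := rfl

/-- the identity -/
def bw (G : Type) [Group G] : (AM.HX G →L[ℂ] AM.HX G) →ₐ[ℂ] Op (Bas G) where
  toFun T := T
  map_one' := rfl
  map_mul' _ _ := rfl
  map_zero' := rfl
  map_add' _ _ := rfl
  commutes' _ := rfl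

/-- the identity on paths -/
def fp (G : Type) [Group G] : (ℝ≥0 → Op (Bas G)) →ₐ[ℂ] (ℝ≥0 → (AM.HX G →L[ℂ] AM.HX G)) where
  toFun b t := fw G (b t)
  map_one' := funext fun _ => map_one (fw G)
  map_mul' a b := funext fun t => map_mul (fw G) (a t) (b t)
  map_zero' := funext fun _ => map_zero (fw G)
  map_add' a b := funext fun t => map_add (fw G) (a t) (b t)
  commutes' c := funext fun _ => (fw G).commutes c

theorem bridge (G : Type) [Group G] (h : Function.Surjective (assembly G)) :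
    Function.Surjective (AM.assembly G) := by
  have i1 : ∀ a ∈ RoeG G, fw G a ∈ (AM.RoeG G : Set (AM.HX G →L[ℂ] AM.HX G)) := fun a ha =>
    mem_roeG a ha
  have i2 : ∀ a ∈ (AM.RoeG G : Set (AM.HX G →L[ℂ] AM.HX G)), bw G a ∈ RoeG G := fun a ha =>
    mem_roeG' a ha
  have i3 : ∀ F, ∀ a ∈ Loc F, fp G a ∈ (AM.Loc G F : Set (ℝ≥0 → (AM.HX G →L[ℂ] AM.HX G))) :=
    fun F a ha => mem_loc F a ha
  intro y
  obtain ⟨y', rfl⟩ := Quot.exists_rep y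
  obtain ⟨y'', hy⟩ := conv_surj (S := (AM.RoeG G : Set (AM.HX G →L[ℂ] AM.HX G)))
    (A := AM.RoeG G) (fun _ h => h) (fun _ h => h) y'
  obtain ⟨⟨F, x⟩, hx⟩ := h (K0map (bw G) i2 (Quot.mk _ y''))
  have e1 : ∀ a ∈ (AM.Loc G F : Set (ℝ≥0 → (AM.HX G →L[ℂ] AM.HX G))),
      Pi.evalAlgHom ℂ (fun _ : ℝ≥0 => (AM.HX G →L[ℂ] AM.HX G)) 0 a ∈
        (AM.RoeG G : Set (AM.HX G →L[ℂ] AM.HX G)) := fun a ha => (AM.ev G F ⟨a, ha⟩).2
  refine ⟨⟨F, Phi (S := (AM.Loc G F : Set (ℝ≥0 → (AM.HX G →L[ℂ] AM.HX G)))) (A := AM.Loc G F)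
    (fun _ h => h) (zero_mem (AM.Loc G F)) (K0map (fp G) (i3 F) x)⟩, ?_⟩
  have h1 := Phi_map (S := (AM.Loc G F : Set (ℝ≥0 → (AM.HX G →L[ℂ] AM.HX G))))
    (A := AM.Loc G F) (fun _ h => h) (S' := (AM.RoeG G : Set (AM.HX G →L[ℂ] AM.HX G)))
    (A' := AM.RoeG G) (fun _ h => h)
    (Pi.evalAlgHom ℂ (fun _ : ℝ≥0 => (AM.HX G →L[ℂ] AM.HX G)) 0)
    e1 (AM.ev G F) (fun _ => rfl) (zero_mem (AM.Loc G F)) (zero_mem (AM.RoeG G))
    (K0map (fp G) (i3 F) x)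
  refine Eq.trans h1 ?_
  have h2 : K0map (Pi.evalAlgHom ℂ (fun _ : ℝ≥0 => Op (Bas G)) 0) (ev_mem F) x =
      K0map (bw G) i2 (Quot.mk _ y'') := hx
  have i4 : ∀ a ∈ Loc F, ((fw G).comp (Pi.evalAlgHom ℂ (fun _ : ℝ≥0 => Op (Bas G)) 0)) a ∈
      (AM.RoeG G : Set (AM.HX G →L[ℂ] AM.HX G)) := fun a ha => i1 _ (ev_mem F a ha)
  have h3 : K0map (Pi.evalAlgHom ℂ (fun _ : ℝ≥0 => (AM.HX G →L[ℂ] AM.HX G)) 0) e1
      (K0map (fp G) (i3 F) x) =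
      K0map ((fw G).comp (Pi.evalAlgHom ℂ (fun _ : ℝ≥0 => Op (Bas G)) 0)) i4 x :=
    K0map_comp _ _ _ _ _ _ (fun _ => rfl) x
  have h4 : K0map (fw G) i1 (K0map (Pi.evalAlgHom ℂ (fun _ : ℝ≥0 => Op (Bas G)) 0) (ev_mem F) x) =
      K0map ((fw G).comp (Pi.evalAlgHom ℂ (fun _ : ℝ≥0 => Op (Bas G)) 0)) i4 x :=
    K0map_comp _ _ _ _ _ _ (fun _ => rfl) x
  have i5 : ∀ a ∈ (AM.RoeG G : Set (AM.HX G →L[ℂ] AM.HX G)), ((fw G).comp (bw G)) a ∈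
      (AM.RoeG G : Set (AM.HX G →L[ℂ] AM.HX G)) := fun a ha => ha
  have h5 : K0map (fw G) i1 (K0map (bw G) i2 (Quot.mk _ y'')) =
      K0map ((fw G).comp (bw G)) i5 (Quot.mk _ y'') :=
    K0map_comp _ _ _ _ _ _ (fun _ => rfl) _
  have h6 : K0map ((fw G).comp (bw G)) i5 (Quot.mk _ y'') = Quot.mk _ y'' :=
    K0map_id _ _ (fun _ => rfl) _
  rw [h3, ← h4, h2, h5, h6, ← hy]
  rfl

end

end P089.Asm
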