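import Mathlib

/-!
# The Baum-Connes assembly map of a discrete group, in the localization algebra form

* `K0 B`: the group `K_0` (as a set) of a (non-unital) Banach algebra `B`;
* `Pt G`: rational points of the full simplex with vertex set `G`; `InP F`: the Rips complex
  `P_F(G)` (simplices: finite sets `s` with `g⁻¹ h ∈ F` for `g, h ∈ s`);
* `HX G`: the module `ℓ²(G) ⊗ ℓ²(Pt G) ⊗ ℓ²(ℕ)`, the basis vector `(g, a, i)` sits at `g • a`;
* `Roe G F`: the equivariant Roe algebra `C*(P_F(G))^G`;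
* `Loc G F`: the equivariant localization algebra `C*_L(P_F(G))^G`;
* `assembly G`: evaluation at `0`, from `lim_F K_0(C*_L(P_F(G))^G)` to
  `K_0(C*(EG)^G) = K_0(C*_r(G))`.
-/

namespace P089.AM

open scoped Classical NNReal

noncomputable section

/-! ### `K_0` -/

/-- (Murray-von Neumann) equivalence of idempotent matrices -/
def MvN {R : Type} [Ring R] {ι κ : Type} [Fintype ι] [Fintype κ] (p : Matrix ι ι R)
    (q : Matrix κ κ R) : Prop :=
  ∃ (a : Matrix ι κ R) (b : Matrix κ ι R), a * b = p ∧ b * a = q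

/-- block sum of matrices -/
def bs {R : Type} [Ring R] {ι κ : Type} (p : Matrix ι ι R) (q : Matrix κ κ R) :
    Matrix (ι ⊕ κ) (ι ⊕ κ) R := Matrix.fromBlocks p 0 0 q

section K0

variable (B : Type) [NonUnitalRing B] [Module ℂ B] [IsScalarTower ℂ B B] [SMulCommClass ℂ B B]

/-- formal difference `[p] - [q]` of idempotent matrices over the unitization of `B` with the
same scalar part -/
structure KCyc where
  n : ℕ
  p : Matrix (Fin n) (Fin n) (Unitization ℂ B)
  q : Matrix (Fin n) (Fin n) (Unitization ℂ B)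
  hp : p * p = p
  hq : q * q = q
  hs : ∀ i j, (p i j).fst = (q i j).fst

variable {B}

/-- `[p] - [q] = [p'] - [q']` in `K_0` of the unitization -/
def KRel (x y : KCyc B) : Prop :=
  ∃ (m : ℕ) (r : Matrix (Fin m) (Fin m) (Unitization ℂ B)), r * r = r ∧
    MvN (bs (bs x.p y.q) r) (bs (bs y.p x.q) r)

variable (B)

/-- `K_0 B`, the kernel of `K_0` of the unitization of `B` to `K_0 ℂ` -/
def K0 : Type := Quot (KRel (B := B))

end K0

section Map

variable {B C : Type} [NonUnitalRing B] [Module ℂ B] [IsScalarTower ℂ B B] [SMulCommClass ℂ B B]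
  [NonUnitalRing C] [Module ℂ C] [IsScalarTower ℂ C C] [SMulCommClass ℂ C C]

/-- the unital extension of a homomorphism -/
def umap (f : B →ₙₐ[ℂ] C) : Unitization ℂ B →ₐ[ℂ] Unitization ℂ C :=
  Unitization.lift ((Unitization.inrNonUnitalAlgHom ℂ C).comp f)

theorem umap_fst (f : B →ₙₐ[ℂ] C) (x : Unitization ℂ B) : (umap f x).fst = x.fst := by
  change (algebraMap ℂ (Unitization ℂ C) x.fst +
    (Unitization.inr (f x.snd) : Unitization ℂ C)).fst = x.fst
  rw [Unitization.fst_add, Unitization.fst_inr, add_zero]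
  rfl

theorem MvN.map {R S : Type} [Ring R] [Ring S] (f : R →+* S) {ι κ : Type} [Fintype ι] [Fintype κ]
    {p : Matrix ι ι R} {q : Matrix κ κ R} (h : MvN p q) : MvN (p.map f) (q.map f) := by
  obtain ⟨a, b, rfl, rfl⟩ := h
  exact ⟨a.map f, b.map f, (Matrix.map_mul (f := f)).symm, (Matrix.map_mul (f := f)).symm⟩

theorem bs_map {R S : Type} [Ring R] [Ring S] (f : R →+* S) {ι κ : Type}
    (p : Matrix ι ι R) (q : Matrix κ κ R) : (bs p q).map f = bs (p.map f) (q.map f) := by
  unfold bs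
  rw [Matrix.fromBlocks_map, Matrix.map_zero _ (map_zero f), Matrix.map_zero _ (map_zero f)]

/-- the cycle `[f p] - [f q]` -/
def KCyc.map (f : B →ₙₐ[ℂ] C) (x : KCyc B) : KCyc C where
  n := x.n
  p := x.p.map (umap f)
  q := x.q.map (umap f)
  hp := by
    have h := congrArg (fun M => Matrix.map M (umap f)) x.hp
    simpa only [Matrix.map_mul] using h
  hq := by
    have h := congrArg (fun M => Matrix.map M (umap f)) x.hq
    simpa only [Matrix.map_mul] using h
  hs i j := by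
    rw [Matrix.map_apply, Matrix.map_apply, umap_fst, umap_fst]
    exact x.hs i j

theorem KRel.map (f : B →ₙₐ[ℂ] C) {x y : KCyc B} (h : KRel x y) : KRel (x.map f) (y.map f) := by
  obtain ⟨m, r, hr, h⟩ := h
  refine ⟨m, r.map (umap f), ?_, ?_⟩
  · have h := congrArg (fun M => Matrix.map M (umap f)) hr
    simpa only [Matrix.map_mul] using h
  · have h2 := h.map (umap f : Unitization ℂ B →+* Unitization ℂ C)
    rw [bs_map, bs_map, bs_map, bs_map] at h2
    exact h2

/-- functoriality of `K_0` -/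
def K0map (f : B →ₙₐ[ℂ] C) : K0 B → K0 C := Quot.map (KCyc.map f) fun _ _ h => h.map f

end Map

/-! ### operators on `ℓ²` of a set -/

section Ops

/-- the Hilbert space `ℓ²(I)` -/
abbrev L2 (I : Type) : Type := lp (fun _ : I => ℂ) 2

variable {I : Type}

/-- matrix entry of an operator -/
def ent (T : L2 I →L[ℂ] L2 I) (i j : I) : ℂ := T (lp.single 2 j (1 : ℂ)) i

theorem memcut (s : Set I) (ξ : L2 I) : Memℓp (fun i => if i ∈ s then ξ i else 0) 2 := by
  have hp : 0 < (2 : ENNReal).toReal := by norm_num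
  have h1 : Summable fun i => ‖ξ i‖ ^ (2 : ENNReal).toReal := (lp.memℓp ξ).summable hp
  refine memℓp_gen (h1.of_nonneg_of_le (fun i => by positivity) fun i => ?_)
  by_cases h : i ∈ s
  · rw [if_pos h]
  · rw [if_neg h, norm_zero, Real.zero_rpow hp.ne']
    positivity

/-- coordinate projection onto `ℓ²(s)` -/
def cut (s : Set I) : L2 I →L[ℂ] L2 I :=
  LinearMap.mkContinuous
    { toFun := fun ξ => ⟨fun i => if i ∈ s then ξ i else 0, memcut s ξ⟩
      map_add' := fun ξ η => by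
        ext i
        change (if i ∈ s then ξ i + η i else 0) = (if i ∈ s then ξ i else 0) + if i ∈ s then η i else 0
        split_ifs <;> simp
      map_smul' := fun c ξ => by
        ext i
        change (if i ∈ s then c • ξ i else 0) = c • (if i ∈ s then ξ i else 0)
        split_ifs <;> simp } 1
    (fun ξ => by
      rw [one_mul]
      refine lp.norm_mono (by norm_num) fun i => ?_
      change ‖if i ∈ s then ξ i else 0‖ ≤ ‖ξ i‖
      split_ifs
      · exact le_rfl
      · rw [norm_zero]; exact norm_nonneg _)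

theorem cut_apply (s : Set I) (ξ : L2 I) (i : I) : cut s ξ i = if i ∈ s then ξ i else 0 := rfl

end Ops

/-! ### closed algebras of paths -/

section Paths

variable {E : Type} [NormedRing E] [NormedAlgebra ℂ E]

theorem adjoin_bdd {X : Set (ℝ≥0 → E)} (hX : ∀ b ∈ X, ∃ C : ℝ, ∀ t, ‖b t‖ ≤ C) {b : ℝ≥0 → E}
    (hb : b ∈ NonUnitalAlgebra.adjoin ℂ X) : ∃ C : ℝ, ∀ t, ‖b t‖ ≤ C := by
  induction hb using NonUnitalAlgebra.adjoin_induction with
  | mem b hb => exact hX b hb
  | zero => exact ⟨0, fun t => by simp⟩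
  | add b c _ _ hb hc =>
    obtain ⟨C, hC⟩ := hb
    obtain ⟨D, hD⟩ := hc
    exact ⟨C + D, fun t => (norm_add_le _ _).trans (add_le_add (hC t) (hD t))⟩
  | mul b c _ _ hb hc =>
    obtain ⟨C, hC⟩ := hb
    obtain ⟨D, hD⟩ := hc
    exact ⟨C * D, fun t => (norm_mul_le _ _).trans
      (mul_le_mul (hC t) (hD t) (norm_nonneg _) ((norm_nonneg _).trans (hC t)))⟩
  | smul r b _ hb =>
    obtain ⟨C, hC⟩ := hb
    exact ⟨‖r‖ * C, fun t => (norm_smul_le r (b t)).trans
      (mul_le_mul_of_nonneg_left (hC t) (norm_nonneg _))⟩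

/-- the closure, for the norm `sup_t ‖b t‖`, of the algebra generated by a set `X` of bounded
paths -/
def pathAlg (X : Set (ℝ≥0 → E)) (hX : ∀ b ∈ X, ∃ C : ℝ, ∀ t, ‖b t‖ ≤ C) :
    NonUnitalSubalgebra ℂ (ℝ≥0 → E) where
  carrier := {b | ∀ ε : ℝ, 0 < ε → ∃ c ∈ NonUnitalAlgebra.adjoin ℂ X, ∀ t, ‖b t - c t‖ ≤ ε}
  zero_mem' := fun ε hε => ⟨0, zero_mem _, fun t => by simpa using hε.le⟩
  add_mem' := by
    intro a b ha hb ε hε
    obtain ⟨a', ha', h1⟩ := ha (ε / 2) (by positivity)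
    obtain ⟨b', hb', h2⟩ := hb (ε / 2) (by positivity)
    refine ⟨a' + b', add_mem ha' hb', fun t => ?_⟩
    change ‖(a t + b t) - (a' t + b' t)‖ ≤ ε
    calc ‖(a t + b t) - (a' t + b' t)‖ = ‖(a t - a' t) + (b t - b' t)‖ := by congr 1; abel
      _ ≤ ε / 2 + ε / 2 := (norm_add_le _ _).trans (add_le_add (h1 t) (h2 t))
      _ = ε := by ring
  smul_mem' := by
    intro r b hb ε hε
    obtain ⟨b', hb', h2⟩ := hb (ε / (‖r‖ + 1)) (by positivity)
    refine ⟨r • b', SMulMemClass.smul_mem r hb', fun t => ?_⟩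
    change ‖r • b t - r • b' t‖ ≤ ε
    rw [← smul_sub]
    refine (norm_smul_le _ _).trans ((mul_le_mul_of_nonneg_left (h2 t) (norm_nonneg _)).trans ?_)
    rw [mul_div_assoc', div_le_iff₀ (by positivity)]
    nlinarith [norm_nonneg r]
  mul_mem' := by
    intro a b ha hb ε hε
    obtain ⟨a', ha', h1⟩ := ha 1 one_pos
    obtain ⟨A, hA⟩ := adjoin_bdd hX ha'
    have hA2 : ∀ t, ‖a t‖ ≤ A + 1 := fun t => by
      have := norm_add_le (a t - a' t) (a' t)
      rw [sub_add_cancel] at this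
      linarith [h1 t, hA t]
    have hA0 : 0 ≤ A := (norm_nonneg _).trans (hA 0)
    obtain ⟨b', hb', h2⟩ := hb (ε / (2 * (A + 2))) (by positivity)
    obtain ⟨B, hB⟩ := adjoin_bdd hX hb'
    have hB0 : 0 ≤ B := (norm_nonneg _).trans (hB 0)
    obtain ⟨a'', ha'', h3⟩ := ha (ε / (2 * (B + 1))) (by positivity)
    refine ⟨a'' * b', mul_mem ha'' hb', fun t => ?_⟩
    change ‖a t * b t - a'' t * b' t‖ ≤ ε
    have h4 : ‖a t * (b t - b' t)‖ ≤ (A + 1) * (ε / (2 * (A + 2))) :=
      (norm_mul_le _ _).trans (mul_le_mul (hA2 t) (h2 t) (norm_nonneg _) (by positivity))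
    have h5 : ‖(a t - a'' t) * b' t‖ ≤ (ε / (2 * (B + 1))) * B :=
      (norm_mul_le _ _).trans (mul_le_mul (h3 t) (hB t) (norm_nonneg _) (by positivity))
    have h6 : (A + 1) * (ε / (2 * (A + 2))) ≤ ε / 2 := by
      rw [mul_div_assoc', div_le_div_iff₀ (by positivity) (by positivity)]
      nlinarith
    have h7 : (ε / (2 * (B + 1))) * B ≤ ε / 2 := by
      rw [div_mul_eq_mul_div, div_le_div_iff₀ (by positivity) (by positivity)]
      nlinarith
    calc ‖a t * b t - a'' t * b' t‖ = ‖a t * (b t - b' t) + (a t - a'' t) * b' t‖ := by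
          congr 1; noncomm_ring
      _ ≤ ε / 2 + ε / 2 := (norm_add_le _ _).trans (add_le_add (h4.trans h6) (h5.trans h7))
      _ = ε := by ring

theorem pathAlg_mem {X : Set (ℝ≥0 → E)} {hX : ∀ b ∈ X, ∃ C : ℝ, ∀ t, ‖b t‖ ≤ C}
    {K : NonUnitalSubalgebra ℂ E} (hK : IsClosed (K : Set E)) {t : ℝ≥0} (h : ∀ b ∈ X, b t ∈ K)
    {b : ℝ≥0 → E} (hb : b ∈ pathAlg X hX) : b t ∈ K := by
  have h1 : ∀ c ∈ NonUnitalAlgebra.adjoin ℂ X, c t ∈ K := by
    intro c hc
    induction hc using NonUnitalAlgebra.adjoin_induction with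
    | mem b hb => exact h b hb
    | zero => exact zero_mem _
    | add b c _ _ hb hc => exact add_mem hb hc
    | mul b c _ _ hb hc => exact mul_mem hb hc
    | smul r b _ hb => exact SMulMemClass.smul_mem r hb
  refine hK.closure_subset_iff.2 (subset_refl _) (Metric.mem_closure_iff.2 fun ε hε => ?_)
  obtain ⟨c, hc, h3⟩ := hb (ε / 2) (by positivity)
  refine ⟨c t, h1 c hc, ?_⟩
  rw [dist_eq_norm]
  linarith [h3 t]

/-- norm closure of the algebra generated by a set -/
def clAlg (X : Set E) : NonUnitalSubalgebra ℂ E :=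
  (NonUnitalAlgebra.adjoin ℂ X).topologicalClosure

theorem clAlg_mono {X Y : Set E} (h : X ⊆ Y) : clAlg X ≤ clAlg Y := by
  have h1 : NonUnitalAlgebra.adjoin ℂ X ≤ NonUnitalAlgebra.adjoin ℂ Y :=
    NonUnitalAlgebra.adjoin_mono h
  exact NonUnitalSubalgebra.topologicalClosure_mono h1

theorem clAlg_closed (X : Set E) : IsClosed (clAlg X : Set E) :=
  NonUnitalSubalgebra.isClosed_topologicalClosure _

/-- evaluation at `t` -/
def evalAt (P : NonUnitalSubalgebra ℂ (ℝ≥0 → E)) (K : NonUnitalSubalgebra ℂ E) (t : ℝ≥0)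
    (h : ∀ b ∈ P, b t ∈ K) : P →ₙₐ[ℂ] K where
  toFun b := ⟨b.1 t, h b.1 b.2⟩
  map_smul' _ _ := rfl
  map_zero' := rfl
  map_add' _ _ := rfl
  map_mul' _ _ := rfl

end Paths

/-! ### Rips complexes, Roe algebras, localization algebras -/

section Rips

variable (G : Type) [Group G]

/-- rational points of the full simplex with vertex set `G`: finitely supported probability
measures on `G` with rational values -/
def Pt : Type := {x : G →₀ ℚ // (∀ g, 0 ≤ x g) ∧ ∑ g ∈ x.support, x g = 1}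

variable {G}

/-- left translation of points -/
def tr (g : G) (x : Pt G) : Pt G :=
  ⟨Finsupp.equivMapDomain (Equiv.mulLeft g) x.1, fun h => by
    rw [Finsupp.equivMapDomain_apply]; exact x.2.1 _, by
    refine Eq.trans ?_ x.2.2
    refine Finset.sum_bij' (fun h _ => g⁻¹ * h) (fun h _ => g * h) ?_ ?_ ?_ ?_ ?_
    · intro h hh
      rw [Finsupp.mem_support_iff, Finsupp.equivMapDomain_apply] at hh
      rw [Finsupp.mem_support_iff]
      exact hh
    · intro h hh
      rw [Finsupp.mem_support_iff, Finsupp.equivMapDomain_apply]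
      rw [Finsupp.mem_support_iff] at hh
      simpa using hh
    · intro h _; exact mul_inv_cancel_left g h
    · intro h _; exact inv_mul_cancel_left g h
    · intro h _
      rw [Finsupp.equivMapDomain_apply]
      rfl⟩

theorem tr_apply (g : G) (x : Pt G) (h : G) : (tr g x).1 h = x.1 (g⁻¹ * h) := rfl

/-- `x` lies in the Rips complex `P_F(G)` -/
def InP (F : Finset G) (x : Pt G) : Prop := ∀ g h, x.1 g ≠ 0 → x.1 h ≠ 0 → g⁻¹ * h ∈ F

/-- `ℓ¹`-distance of points (barycentric coordinates) -/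
def dist1 (x y : Pt G) : ℝ := ∑ g ∈ x.1.support ∪ y.1.support, |((x.1 g : ℚ) : ℝ) - (y.1 g : ℚ)|

variable (G)

/-- the Hilbert space `ℓ²(G) ⊗ ℓ²(Pt G) ⊗ ℓ²(ℕ)` -/
abbrev HX : Type := L2 (G × (Pt G × ℕ))

variable {G}

/-- position of the basis vector `(g, a, i)` -/
def pos (y : G × (Pt G × ℕ)) : Pt G := tr y.1 y.2.1

/-- `T` commutes with the action of `G` -/
def Equi (T : HX G →L[ℂ] HX G) : Prop :=
  ∀ (g : G) (y y' : G × (Pt G × ℕ)), ent T (g * y.1, y.2) (g * y'.1, y'.2) = ent T y y'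

/-- `T` lives on the Rips complex `P_F(G)` -/
def SuppIn (F : Finset G) (T : HX G →L[ℂ] HX G) : Prop :=
  ∀ y y', ent T y y' ≠ 0 → InP F (pos y) ∧ InP F (pos y')

/-- `T` has finite propagation -/
def FinProp (T : HX G →L[ℂ] HX G) : Prop :=
  ∃ K : Finset G, ∀ y y', ent T y y' ≠ 0 → ∃ g h, (pos y).1 g ≠ 0 ∧ (pos y').1 h ≠ 0 ∧ g⁻¹ * h ∈ K

/-- `T` is locally compact: compact when restricted to the star of any vertex -/
def LocComp (T : HX G →L[ℂ] HX G) : Prop :=
  ∀ g : G, IsCompactOperator (cut {y | (pos y).1 g ≠ 0} * T) ∧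
    IsCompactOperator (T * cut {y | (pos y).1 g ≠ 0})

/-- `T` has propagation less than `ε` -/
def PropLt (ε : ℝ) (T : HX G →L[ℂ] HX G) : Prop :=
  ∀ y y', ent T y y' ≠ 0 → dist1 (pos y) (pos y') < ε

variable (G)

/-- the equivariant, locally compact operators of finite propagation on `P_F(G)` -/
def RoeSet (F : Finset G) : Set (HX G →L[ℂ] HX G) :=
  {T | Equi T ∧ SuppIn F T ∧ FinProp T ∧ LocComp T}

/-- the equivariant Roe algebra `C*(P_F(G))^G` -/
def Roe (F : Finset G) : NonUnitalSubalgebra ℂ (HX G →L[ℂ] HX G) :=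
  clAlg (RoeSet G F)

/-- the equivariant Roe algebra of the union of the `P_F(G)`, isomorphic to `C*_r(G) ⊗ K` -/
def RoeG : NonUnitalSubalgebra ℂ (HX G →L[ℂ] HX G) :=
  clAlg (⋃ F, RoeSet G F)

/-- bounded uniformly continuous paths in the Roe algebra with propagation tending to `0` -/
def LocSet (F : Finset G) : Set (ℝ≥0 → (HX G →L[ℂ] HX G)) :=
  {b | (∃ C : ℝ, ∀ t, ‖b t‖ ≤ C) ∧ UniformContinuous b ∧ (∀ t, b t ∈ Roe G F) ∧
    ∀ ε : ℝ, 0 < ε → ∃ t0 : ℝ≥0, ∀ t, t0 ≤ t → PropLt ε (b t)}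

/-- the equivariant localization algebra `C*_L(P_F(G))^G`: closure of the algebra generated by
`LocSet G F` for the norm `sup_t ‖b t‖` -/
def Loc (F : Finset G) : NonUnitalSubalgebra ℂ (ℝ≥0 → (HX G →L[ℂ] HX G)) :=
  pathAlg (LocSet G F) fun _ hb => hb.1

/-- evaluation at `0` -/
def ev (F : Finset G) : Loc G F →ₙₐ[ℂ] RoeG G :=
  evalAt (Loc G F) (RoeG G) 0 fun _ hb =>
    pathAlg_mem (clAlg_closed _) (fun _ h => clAlg_mono (Set.subset_iUnion _ F) (h.2.2.1 0)) hb

/-- the assembly map, on the levels of the direct limit over the finite sets `F` -/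
def assembly : (Σ F : Finset G, K0 (Loc G F)) → K0 (RoeG G) := fun x => K0map (ev G x.1) x.2

end Rips

end

end P089.AM
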