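import Vale.Agent.Lib.P089.AM.Stmt
import Vale.Agent.Lib.P089.AM.Defs

/-!
# P089 AM: the two forms of `K_0`
-/

namespace P089.Asm

open scoped Classical NNReal

noncomputable section

variable {R : Type} [Ring R] [Algebra ℂ R]

/-- entry over `ℂ ⊕ S` as an element of the unitization of `A` -/
def ce {S : Set R} {A : NonUnitalSubalgebra ℂ R} (hS : ∀ a, a ∈ S → a ∈ A)
    (u : Unitization ℂ R) (hu : u.snd ∈ S) : Unitization ℂ A :=
  Unitization.inl u.fst + Unitization.inr ⟨u.snd, hS _ hu⟩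

theorem ce_fst {S : Set R} {A : NonUnitalSubalgebra ℂ R} (hS : ∀ a, a ∈ S → a ∈ A)
    (u : Unitization ℂ R) (hu : u.snd ∈ S) : (ce hS u hu).fst = u.fst := by
  unfold ce
  rw [Unitization.fst_add, Unitization.fst_inl, Unitization.fst_inr, add_zero]

theorem ce_snd {S : Set R} {A : NonUnitalSubalgebra ℂ R} (hS : ∀ a, a ∈ S → a ∈ A)
    (u : Unitization ℂ R) (hu : u.snd ∈ S) : ((ce hS u hu).snd : R) = u.snd := by
  unfold ce
  rw [Unitization.snd_add, Unitization.snd_inl, Unitization.snd_inr, zero_add]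

/-- inclusion -/
def inc {A : NonUnitalSubalgebra ℂ R} (u : Unitization ℂ A) : Unitization ℂ R :=
  Unitization.inl u.fst + Unitization.inr (u.snd : R)

theorem inc_fst {A : NonUnitalSubalgebra ℂ R} (u : Unitization ℂ A) : (inc u).fst = u.fst := by
  unfold inc
  rw [Unitization.fst_add, Unitization.fst_inl, Unitization.fst_inr, add_zero]

theorem inc_snd {A : NonUnitalSubalgebra ℂ R} (u : Unitization ℂ A) :
    (inc u).snd = (u.snd : R) := by
  unfold inc
  rw [Unitization.snd_add, Unitization.snd_inl, Unitization.snd_inr, zero_add]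

theorem inc_inj {A : NonUnitalSubalgebra ℂ R} {u v : Unitization ℂ A} (h : inc u = inc v) :
    u = v := by
  refine Unitization.ext ?_ (Subtype.ext ?_)
  · rw [← inc_fst u, h, inc_fst]
  · rw [← inc_snd u, h, inc_snd]

theorem inc_ce {S : Set R} {A : NonUnitalSubalgebra ℂ R} (hS : ∀ a, a ∈ S → a ∈ A)
    (u : Unitization ℂ R) (hu : u.snd ∈ S) : inc (ce hS u hu) = u := by
  refine Unitization.ext ?_ ?_
  · rw [inc_fst, ce_fst]
  · rw [inc_snd, ce_snd]

theorem inc_zero {A : NonUnitalSubalgebra ℂ R} : inc (0 : Unitization ℂ A) = 0 := by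
  refine Unitization.ext ?_ ?_
  · rw [inc_fst]; rfl
  · rw [inc_snd]; rfl

theorem inc_add {A : NonUnitalSubalgebra ℂ R} (u v : Unitization ℂ A) :
    inc (u + v) = inc u + inc v := by
  refine Unitization.ext ?_ ?_
  · rw [inc_fst, Unitization.fst_add, Unitization.fst_add, inc_fst, inc_fst]
  · rw [inc_snd, Unitization.snd_add, Unitization.snd_add, inc_snd, inc_snd]; rfl

theorem inc_mul {A : NonUnitalSubalgebra ℂ R} (u v : Unitization ℂ A) :
    inc (u * v) = inc u * inc v := by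
  refine Unitization.ext ?_ ?_
  · rw [inc_fst, Unitization.fst_mul, Unitization.fst_mul, inc_fst, inc_fst]
  · rw [inc_snd, Unitization.snd_mul, Unitization.snd_mul, inc_snd, inc_snd, inc_fst, inc_fst]; rfl

theorem map_inc_mul {A : NonUnitalSubalgebra ℂ R} {ι κ μ : Type} [Fintype κ]
    (a : Matrix ι κ (Unitization ℂ A)) (b : Matrix κ μ (Unitization ℂ A)) :
    (a * b).map inc = a.map inc * b.map inc := by
  refine Matrix.ext fun i j => ?_
  have hsum : ∀ (s : Finset κ) (g : κ → Unitization ℂ A),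
      inc (∑ k ∈ s, g k) = ∑ k ∈ s, inc (g k) := by
    intro s g
    induction s using Finset.induction_on with
    | empty => rw [Finset.sum_empty, Finset.sum_empty, inc_zero]
    | insert k s hk ih => rw [Finset.sum_insert hk, Finset.sum_insert hk, inc_add, ih]
  rw [Matrix.map_apply, Matrix.mul_apply, Matrix.mul_apply, hsum]
  refine Finset.sum_congr rfl fun k _ => ?_
  rw [inc_mul]
  rfl

theorem map_inc_inj {A : NonUnitalSubalgebra ℂ R} {ι κ : Type}
    {a b : Matrix ι κ (Unitization ℂ A)} (h : a.map inc = b.map inc) : a = b := by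
  refine Matrix.ext fun i j => inc_inj ?_
  exact congrFun (congrFun h i) j

/-- matrix over `ℂ ⊕ S` as a matrix over the unitization of `A` -/
def cm {S : Set R} {A : NonUnitalSubalgebra ℂ R} (hS : ∀ a, a ∈ S → a ∈ A) {ι κ : Type}
    (a : Matrix ι κ (Unitization ℂ R)) (ha : Over S a) : Matrix ι κ (Unitization ℂ A) :=
  Matrix.of fun i j => ce hS (a i j) (ha i j)

theorem inc_cm {S : Set R} {A : NonUnitalSubalgebra ℂ R} (hS : ∀ a, a ∈ S → a ∈ A) {ι κ : Type}
    (a : Matrix ι κ (Unitization ℂ R)) (ha : Over S a) : (cm hS a ha).map inc = a := by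
  refine Matrix.ext fun i j => ?_
  exact inc_ce hS (a i j) (ha i j)

theorem map_inc_bs {A : NonUnitalSubalgebra ℂ R} {ι κ : Type}
    (p : Matrix ι ι (Unitization ℂ A)) (q : Matrix κ κ (Unitization ℂ A)) :
    (AM.bs p q).map inc = bs (p.map inc) (q.map inc) := by
  unfold AM.bs bs
  rw [Matrix.fromBlocks_map, Matrix.map_zero _ inc_zero, Matrix.map_zero _ inc_zero]

/-- conversion of cycles -/
def conv {S : Set R} {A : NonUnitalSubalgebra ℂ R} (hS : ∀ a, a ∈ S → a ∈ A) (x : KCyc S) :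
    AM.KCyc A where
  n := x.n
  p := cm hS x.p x.hpS
  q := cm hS x.q x.hqS
  hp := map_inc_inj (by rw [map_inc_mul, inc_cm, x.hp])
  hq := map_inc_inj (by rw [map_inc_mul, inc_cm, x.hq])
  hs i j := by
    change (ce hS (x.p i j) (x.hpS i j)).fst = (ce hS (x.q i j) (x.hqS i j)).fst
    rw [ce_fst, ce_fst]
    exact x.hs i j

omit [Algebra ℂ R] in
theorem over_bs {S : Set R} (h0 : (0 : R) ∈ S) {ι κ : Type} {p : Matrix ι ι (Unitization ℂ R)}
    {q : Matrix κ κ (Unitization ℂ R)} (hp : Over S p) (hq : Over S q) : Over S (bs p q) := by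
  rintro (i | i) (j | j)
  · exact hp i j
  · exact h0
  · exact h0
  · exact hq i j

theorem cm_bs {S : Set R} {A : NonUnitalSubalgebra ℂ R} (hS : ∀ a, a ∈ S → a ∈ A) {ι κ : Type}
    {p : Matrix ι ι (Unitization ℂ R)} {q : Matrix κ κ (Unitization ℂ R)} (hp : Over S p)
    (hq : Over S q) (hb : Over S (bs p q)) :
    cm hS (bs p q) hb = AM.bs (cm hS p hp) (cm hS q hq) := by
  refine map_inc_inj ?_
  rw [map_inc_bs, inc_cm, inc_cm, inc_cm]

theorem conv_mvn {S : Set R} {A : NonUnitalSubalgebra ℂ R} (hS : ∀ a, a ∈ S → a ∈ A)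
    {ι κ : Type} [Fintype ι] [Fintype κ] {p : Matrix ι ι (Unitization ℂ R)}
    {q : Matrix κ κ (Unitization ℂ R)} (hp : Over S p) (hq : Over S q) (h : MvN S p q) :
    AM.MvN (cm hS p hp) (cm hS q hq) := by
  obtain ⟨a, b, ha, hb, hab, hba⟩ := h
  refine ⟨cm hS a ha, cm hS b hb, map_inc_inj ?_, map_inc_inj ?_⟩
  · rw [map_inc_mul, inc_cm, inc_cm, inc_cm, hab]
  · rw [map_inc_mul, inc_cm, inc_cm, inc_cm, hba]

theorem conv_rel {S : Set R} {A : NonUnitalSubalgebra ℂ R} (hS : ∀ a, a ∈ S → a ∈ A)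
    (h0 : (0 : R) ∈ S) {x y : KCyc S} (h : KRel x y) : AM.KRel (conv hS x) (conv hS y) := by
  obtain ⟨m, r, hr, hrS, hab⟩ := h
  refine ⟨m, cm hS r hrS, map_inc_inj ?_, ?_⟩
  · rw [map_inc_mul, inc_cm, hr]
  · have o1 : Over S (bs x.p y.q) := over_bs h0 x.hpS y.hqS
    have o2 : Over S (bs y.p x.q) := over_bs h0 y.hpS x.hqS
    have h1 := conv_mvn hS (over_bs h0 o1 hrS) (over_bs h0 o2 hrS) hab
    rw [cm_bs hS o1 hrS, cm_bs hS o2 hrS, cm_bs hS x.hpS y.hqS, cm_bs hS y.hpS x.hqS] at h1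
    exact h1

/-- conversion of classes -/
def Phi {S : Set R} {A : NonUnitalSubalgebra ℂ R} (hS : ∀ a, a ∈ S → a ∈ A)
    (h0 : (0 : R) ∈ S) : K0 S → AM.K0 A :=
  Quot.map (conv hS) fun _ _ => conv_rel hS h0

theorem conv_surj {S : Set R} {A : NonUnitalSubalgebra ℂ R} (hS : ∀ a, a ∈ S → a ∈ A)
    (hA : ∀ a, a ∈ A → a ∈ S) (y : AM.KCyc A) : ∃ x : KCyc S, conv hS x = y := by
  have ho : ∀ {ι κ : Type} (a : Matrix ι κ (Unitization ℂ A)), Over S (a.map inc) := by
    intro ι κ a i j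
    rw [Matrix.map_apply, inc_snd]
    exact hA _ (a i j).snd.2
  refine ⟨⟨y.n, y.p.map inc, y.q.map inc, ?_, ?_, ho _, ho _, ?_⟩, ?_⟩
  · rw [← map_inc_mul, y.hp]
  · rw [← map_inc_mul, y.hq]
  · intro i j
    rw [Matrix.map_apply, Matrix.map_apply, inc_fst, inc_fst]
    exact y.hs i j
  · obtain ⟨n, p, q, hp, hq, hs⟩ := y
    have h1 : cm hS (p.map inc) (ho p) = p := map_inc_inj (by rw [inc_cm])
    have h2 : cm hS (q.map inc) (ho q) = q := map_inc_inj (by rw [inc_cm])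
    unfold conv
    simp only [h1, h2]

section Map

variable {R' : Type} [Ring R'] [Algebra ℂ R']

theorem conv_map {S : Set R} {A : NonUnitalSubalgebra ℂ R} (hS : ∀ a, a ∈ S → a ∈ A)
    {S' : Set R'} {A' : NonUnitalSubalgebra ℂ R'} (hS' : ∀ a, a ∈ S' → a ∈ A')
    (f : R →ₐ[ℂ] R') (hf : ∀ a ∈ S, f a ∈ S') (φ : A →ₙₐ[ℂ] A')
    (hφ : ∀ a : A, (φ a : R') = f a) (x : KCyc S) :
    AM.KCyc.map φ (conv hS x) = conv hS' (x.map f hf) := by
  have key : ∀ {ι κ : Type} (a : Matrix ι κ (Unitization ℂ R)) (ha : Over S a),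
      (cm hS a ha).map (AM.umap φ) = cm hS' (a.map (um f)) (over_um hf ha) := by
    intro ι κ a ha
    refine map_inc_inj ?_
    rw [inc_cm]
    refine Matrix.ext fun i j => ?_
    change inc (AM.umap φ (ce hS (a i j) (ha i j))) = um f (a i j)
    refine Unitization.ext ?_ ?_
    · rw [inc_fst, AM.umap_fst, ce_fst, um_fst]
    · rw [inc_snd, um_snd]
      have h2 : (AM.umap φ (ce hS (a i j) (ha i j))).snd = φ (ce hS (a i j) (ha i j)).snd := by
        change (algebraMap ℂ (Unitization ℂ A') (ce hS (a i j) (ha i j)).fst +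
          (Unitization.inr (φ (ce hS (a i j) (ha i j)).snd) : Unitization ℂ A')).snd = _
        rw [Unitization.snd_add, Unitization.snd_inr]
        change (0 : A') + _ = _
        rw [zero_add]
      rw [h2, hφ, ce_snd]
  have h1 := key x.p x.hpS
  have h2 := key x.q x.hqS
  unfold AM.KCyc.map conv KCyc.map
  simp only [h1, h2]

theorem Phi_map {S : Set R} {A : NonUnitalSubalgebra ℂ R} (hS : ∀ a, a ∈ S → a ∈ A)
    {S' : Set R'} {A' : NonUnitalSubalgebra ℂ R'} (hS' : ∀ a, a ∈ S' → a ∈ A')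
    (f : R →ₐ[ℂ] R') (hf : ∀ a ∈ S, f a ∈ S') (φ : A →ₙₐ[ℂ] A')
    (hφ : ∀ a : A, (φ a : R') = f a) (h0 : (0 : R) ∈ S) (h0' : (0 : R') ∈ S') (x : K0 S) :
    AM.K0map φ (Phi hS h0 x) = Phi hS' h0' (K0map f hf x) := by
  obtain ⟨x, rfl⟩ := Quot.exists_rep x
  exact congrArg (Quot.mk _) (conv_map hS hS' f hf φ hφ x)

end Map

section Comp

variable {R' : Type} [Ring R'] [Algebra ℂ R'] {R₂ : Type} [Ring R₂] [Algebra ℂ R₂]

theorem um_comp (f : R' →ₐ[ℂ] R₂) (g : R →ₐ[ℂ] R') (f' : R →ₐ[ℂ] R₂)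
    (h : ∀ a, f' a = f (g a)) (u : Unitization ℂ R) : um f (um g u) = um f' u := by
  refine Unitization.ext ?_ ?_
  · rw [um_fst, um_fst, um_fst]
  · rw [um_snd, um_snd, um_snd, h]

theorem map_um_comp (f : R' →ₐ[ℂ] R₂) (g : R →ₐ[ℂ] R') (f' : R →ₐ[ℂ] R₂)
    (h : ∀ a, f' a = f (g a)) {ι κ : Type} (a : Matrix ι κ (Unitization ℂ R)) :
    (a.map (um g)).map (um f) = a.map (um f') :=
  Matrix.ext fun i j => um_comp f g f' h (a i j)

theorem kcyc_map_comp {S : Set R} {S' : Set R'} {S₂ : Set R₂} (f : R' →ₐ[ℂ] R₂)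
    (hf : ∀ a ∈ S', f a ∈ S₂) (g : R →ₐ[ℂ] R') (hg : ∀ a ∈ S, g a ∈ S') (f' : R →ₐ[ℂ] R₂)
    (hf' : ∀ a ∈ S, f' a ∈ S₂) (h : ∀ a, f' a = f (g a)) (x : KCyc S) :
    (x.map g hg).map f hf = x.map f' hf' := by
  have h1 := map_um_comp f g f' h x.p
  have h2 := map_um_comp f g f' h x.q
  unfold KCyc.map
  simp only [h1, h2]

theorem K0map_comp {S : Set R} {S' : Set R'} {S₂ : Set R₂} (f : R' →ₐ[ℂ] R₂)
    (hf : ∀ a ∈ S', f a ∈ S₂) (g : R →ₐ[ℂ] R') (hg : ∀ a ∈ S, g a ∈ S') (f' : R →ₐ[ℂ] R₂)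
    (hf' : ∀ a ∈ S, f' a ∈ S₂) (h : ∀ a, f' a = f (g a)) (x : K0 S) :
    K0map f hf (K0map g hg x) = K0map f' hf' x := by
  obtain ⟨x, rfl⟩ := Quot.exists_rep x
  exact congrArg (Quot.mk _) (kcyc_map_comp f hf g hg f' hf' h x)

theorem K0map_id {S : Set R} (f : R →ₐ[ℂ] R) (hf : ∀ a ∈ S, f a ∈ S) (h : ∀ a, f a = a)
    (x : K0 S) : K0map f hf x = x := by
  obtain ⟨x, rfl⟩ := Quot.exists_rep x
  refine congrArg (Quot.mk _) ?_
  have h0 : ∀ {ι κ : Type} (a : Matrix ι κ (Unitization ℂ R)), a.map (um f) = a := by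
    intro ι κ a
    refine Matrix.ext fun i j => ?_
    change um f (a i j) = a i j
    refine Unitization.ext ?_ ?_
    · rw [um_fst]
    · rw [um_snd, h]
  have h1 := h0 x.p
  have h2 := h0 x.q
  unfold KCyc.map
  simp only [h1, h2]

end Comp

end

end P089.Asm
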