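import Vale.Agent.Lib.P089.AM.Iface
import Vale.Agent.Lib.P089.AM.Core.Ch2
import Vale.Agent.Lib.P089.AM.Core.Ops2
import Vale.Agent.Lib.P089.AM.Core.Comm
import Vale.Agent.Lib.P089.AM.Core.CliffRep

/-!
# P089 AM: the Clifford operator, `partCl : PartCl`

Configuration (`AMC.Cfg`): `I = G × WG G`, positions `clx F y` = `pos y` if it lies in `P_F(G)` and the
vertex `y.1` otherwise.  The operators of `AMC` live on `Cl × (G × W)`; they are transported to
`(Cl ⋊ G) × W`.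
-/

namespace P089.AM

open scoped Classical NNReal

noncomputable section

namespace ClP

/-! ### transport along a bijection of index sets -/

section Tp

variable {I I' : Type}

theorem Cl_mem (e : I ≃ I') (ξ : L2 I') : Memℓp (fun i => ξ (e i)) 2 := by
  have hp : 0 < (2 : ENNReal).toReal := by norm_num
  have h1 : Summable fun i => ‖ξ i‖ ^ (2 : ENNReal).toReal := (lp.memℓp ξ).summable hp
  exact memℓp_gen (h1.comp_injective e.injective)

theorem Cl_norm (e : I ≃ I') (ξ : L2 I') : ‖(⟨fun h => ξ (e h), Cl_mem e ξ⟩ : L2 I)‖ = ‖ξ‖ := by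
  have hp : 0 < (2 : ENNReal).toReal := by norm_num
  rw [lp.norm_eq_tsum_rpow hp, lp.norm_eq_tsum_rpow hp]
  congr 1
  exact Equiv.tsum_eq e fun i => ‖ξ i‖ ^ (2 : ENNReal).toReal

/-- reindexing of vectors -/
def reI (e : I ≃ I') : L2 I' →L[ℂ] L2 I :=
  LinearMap.mkContinuous
    { toFun := fun ξ => ⟨fun i => ξ (e i), Cl_mem e ξ⟩
      map_add' := fun _ _ => rfl
      map_smul' := fun _ _ => rfl } 1
    (fun ξ => by rw [one_mul]; exact (Cl_norm e ξ).le)

theorem reI_apply (e : I ≃ I') (ξ : L2 I') (i : I) : reI e ξ i = ξ (e i) := rfl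

theorem norm_reI_le (e : I ≃ I') : ‖reI e‖ ≤ 1 :=
  LinearMap.mkContinuous_norm_le _ zero_le_one _

theorem reI_reI (e : I ≃ I') : (reI e.symm).comp (reI e) = ContinuousLinearMap.id ℂ (L2 I') := by
  refine ContinuousLinearMap.ext fun ξ => lp.ext (funext fun i => ?_)
  change ξ (e (e.symm i)) = ξ i
  rw [e.apply_symm_apply]

theorem reI_reI' (e : I ≃ I') : (reI e).comp (reI e.symm) = ContinuousLinearMap.id ℂ (L2 I) := by
  refine ContinuousLinearMap.ext fun ξ => lp.ext (funext fun i => ?_)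
  change ξ (e.symm (e i)) = ξ i
  rw [e.symm_apply_apply]

/-- transport of operators -/
def tp (e : I ≃ I') : (L2 I' →L[ℂ] L2 I') →ₐ[ℂ] (L2 I →L[ℂ] L2 I) where
  toFun T := (reI e).comp (T.comp (reI e.symm))
  map_one' := by
    change (reI e).comp ((ContinuousLinearMap.id ℂ (L2 I')).comp (reI e.symm)) = _
    rw [ContinuousLinearMap.id_comp, reI_reI']
    rfl
  map_mul' S T := by
    have h : ∀ ξ, reI e.symm (reI e ξ) = ξ := fun ξ => DFunLike.congr_fun (reI_reI e) ξ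
    refine ContinuousLinearMap.ext fun ξ => ?_
    change reI e (S (T (reI e.symm ξ))) = reI e (S (reI e.symm (reI e (T (reI e.symm ξ)))))
    rw [h]
  map_zero' := by
    refine ContinuousLinearMap.ext fun ξ => ?_
    change reI e 0 = 0
    exact map_zero _
  map_add' S T := by
    refine ContinuousLinearMap.ext fun ξ => ?_
    change reI e (S _ + T _) = reI e (S _) + reI e (T _)
    exact map_add _ _ _
  commutes' c := by
    refine ContinuousLinearMap.ext fun ξ => lp.ext (funext fun i => ?_)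
    rw [Algebra.algebraMap_eq_smul_one, Algebra.algebraMap_eq_smul_one]
    change c • ξ (e.symm (e i)) = c • ξ i
    rw [e.symm_apply_apply]

theorem ent_tp (e : I ≃ I') (T : L2 I' →L[ℂ] L2 I') (i j : I) :
    ent (tp e T) i j = ent T (e i) (e j) := by
  have h : reI e.symm (lp.single 2 j (1 : ℂ) : L2 I) = lp.single 2 (e j) (1 : ℂ) := by
    refine lp.ext (funext fun k => ?_)
    rw [reI_apply, lp.single_apply, lp.single_apply]
    by_cases hk : k = e j
    · rw [hk, e.symm_apply_apply, Pi.single_eq_same, Pi.single_eq_same]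
    · rw [Pi.single_eq_of_ne hk, Pi.single_eq_of_ne]
      intro h1
      apply hk
      rw [← h1, e.apply_symm_apply]
  change T (reI e.symm (lp.single 2 j (1 : ℂ) : L2 I)) (e i) = _
  rw [h]
  rfl

theorem norm_tp_le (e : I ≃ I') (T : L2 I' →L[ℂ] L2 I') : ‖tp e T‖ ≤ ‖T‖ := by
  change ‖(reI e).comp (T.comp (reI e.symm))‖ ≤ ‖T‖
  refine (ContinuousLinearMap.opNorm_comp_le _ _).trans ?_
  refine (mul_le_mul (norm_reI_le e) (ContinuousLinearMap.opNorm_comp_le _ _) (norm_nonneg _)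
    zero_le_one).trans ?_
  rw [one_mul]
  calc ‖T‖ * ‖reI e.symm‖ ≤ ‖T‖ * 1 :=
        mul_le_mul_of_nonneg_left (norm_reI_le e.symm) (norm_nonneg _)
    _ = ‖T‖ := mul_one _

theorem Cl_ext {S T : L2 I →L[ℂ] L2 I} (h : ∀ i j, ent S i j = ent T i j) : S = T :=
  AMC.op_ext h

theorem Cl_cut_mul (s : Set I) (T : L2 I →L[ℂ] L2 I) (i j : I) :
    ent (cut s * T) i j = if i ∈ s then ent T i j else 0 := rfl

theorem Cl_mul_cut (s : Set I) (T : L2 I →L[ℂ] L2 I) (i j : I) :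
    ent (T * cut s) i j = if j ∈ s then ent T i j else 0 := by
  have h : cut s (lp.single 2 j (1 : ℂ) : L2 I) = if j ∈ s then lp.single 2 j (1 : ℂ) else 0 := by
    refine lp.ext (funext fun k => ?_)
    rw [cut_apply]
    by_cases hk : k = j
    · subst hk
      split_ifs
      · rfl
      · rfl
    · rw [lp.single_apply, Pi.single_eq_of_ne hk, ite_self]
      split_ifs
      · rw [lp.single_apply, Pi.single_eq_of_ne hk]
      · rfl
  change T (cut s (lp.single 2 j (1 : ℂ) : L2 I)) i = _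
  rw [h]
  split_ifs
  · rfl
  · rw [map_zero]
    rfl

end Tp

variable {G : Type} [Group G]

/-! ### the configuration -/

theorem InP_tr (F : Finset G) (g : G) (x : Pt G) : InP F (tr g x) ↔ InP F x := by
  unfold InP
  constructor
  · intro h a b ha hb
    have := h (g * a) (g * b) (by rwa [tr_apply, inv_mul_cancel_left])
      (by rwa [tr_apply, inv_mul_cancel_left])
    rwa [mul_inv_rev, mul_assoc, inv_mul_cancel_left] at this
  · intro h a b ha hb
    rw [tr_apply] at ha hb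
    have := h _ _ ha hb
    rwa [mul_inv_rev, inv_inv, mul_assoc, mul_inv_cancel_left] at this

/-- real coordinates -/
def toR (x : Pt G) : G →₀ ℝ := x.1.mapRange (fun q : ℚ => (q : ℝ)) Rat.cast_zero

omit [Group G] in
theorem toR_apply (x : Pt G) (g : G) : toR x g = ((x.1 g : ℚ) : ℝ) := rfl

omit [Group G] in
theorem toR_sum (x : Pt G) : ∑ g ∈ x.1.support, ((x.1 g : ℚ) : ℝ) = 1 := by
  have h := x.2.2
  exact_mod_cast h

/-- position, cut to `P_F(G)` -/
def clx (F : Finset G) (y : G × WG G) : G →₀ ℝ :=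
  if InP F (pos y) then toR (pos y) else Finsupp.single y.1 1

theorem pos_smul (g : G) (y : G × WG G) : pos (g * y.1, y.2) = tr g (pos y) := by
  refine Subtype.ext (Finsupp.ext fun h => ?_)
  unfold pos
  rw [tr_apply, tr_apply, tr_apply, mul_inv_rev, mul_assoc]

/-- the configuration -/
def clCfg (z : G) (hz : ∀ g, z * g = g * z) (hz2 : z * z = 1) (hz1 : z ≠ 1) (F : Finset G)
    (hF : z ∉ F) : AMC.Cfg G where
  z := z
  z_central := hz
  z_sq := hz2
  Es := insert 1 F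
  z_notMem := by
    rw [Finset.mem_insert, not_or]
    exact ⟨hz1, hF⟩
  I := G × WG G
  act :=
    { smul := fun g y => (g * y.1, y.2)
      one_smul := fun y => by
        change (1 * y.1, y.2) = y
        rw [one_mul]
      mul_smul := fun g h y => by
        change (g * h * y.1, y.2) = (g * (h * y.1), y.2)
        rw [mul_assoc] }
  free := fun g y h => by
    have h1 : g * y.1 = y.1 := congrArg Prod.fst h
    exact mul_eq_right.1 h1
  x := clx F
  x_nonneg := fun y v => by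
    unfold clx
    split_ifs
    · rw [toR_apply]
      exact_mod_cast (pos y).2.1 v
    · by_cases h : v = y.1
      · rw [h, Finsupp.single_eq_same]
        exact zero_le_one
      · rw [Finsupp.single_eq_of_ne h]
  x_supp := fun y v w hv hw => by
    unfold clx at hv hw
    split_ifs at hv hw with h
    · rw [toR_apply] at hv hw
      refine Finset.mem_insert_of_mem (h v w ?_ ?_)
      · exact_mod_cast hv
      · exact_mod_cast hw
    · have h1 : v = y.1 := by
        by_contra h2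
        exact hv (Finsupp.single_eq_of_ne h2)
      have h3 : w = y.1 := by
        by_contra h2
        exact hw (Finsupp.single_eq_of_ne h2)
      rw [h1, h3, inv_mul_cancel]
      exact Finset.mem_insert_self _ _
  x_sum := fun y => by
    unfold clx
    split_ifs
    · unfold toR
      rw [Finsupp.sum_mapRange_index fun _ => rfl]
      exact toR_sum (pos y)
    · rw [Finsupp.sum_single_index rfl]
  x_equiv := fun g y v => by
    change clx F (g * y.1, y.2) (g * v) = clx F y v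
    unfold clx
    rw [pos_smul]
    by_cases h : InP F (pos y)
    · rw [if_pos h, if_pos ((InP_tr F g _).2 h), toR_apply, toR_apply, tr_apply,
        inv_mul_cancel_left]
    · rw [if_neg h, if_neg (fun h' => h ((InP_tr F g _).1 h'))]
      by_cases hv : v = y.1
      · rw [hv, Finsupp.single_eq_same, Finsupp.single_eq_same]
      · rw [Finsupp.single_eq_of_ne hv, Finsupp.single_eq_of_ne fun h' => hv (mul_left_cancel h')]

theorem l1_clx {F : Finset G} {y y' : G × WG G} (hy : InP F (pos y)) (hy' : InP F (pos y')) :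
    AMC.l1 (clx F y) (clx F y') = dist1 (pos y) (pos y') := by
  unfold clx AMC.l1 dist1
  rw [if_pos hy, if_pos hy']
  rw [Finsupp.sum_of_support_subset _ (s := (pos y).1.support ∪ (pos y').1.support) ?_ _
    fun _ _ => abs_zero]
  · refine Finset.sum_congr rfl fun g _ => ?_
    rw [Finsupp.sub_apply, toR_apply, toR_apply]
  · intro g hg
    rw [Finsupp.mem_support_iff, Finsupp.sub_apply, toR_apply, toR_apply] at hg
    rw [Finset.mem_union, Finsupp.mem_support_iff, Finsupp.mem_support_iff]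
    by_contra hcon
    push Not at hcon
    rw [hcon.1, hcon.2, sub_self] at hg
    exact hg rfl

/-! ### the operators -/

section Op

variable (z : G) (hz : ∀ g, z * g = g * z) (hz2 : z * z = 1) (hz1 : z ≠ 1) (F : Finset G)
  (hF : z ∉ F)

/-- the group `Cl ⋊ G` -/
abbrev KG : Type := AMC.Cl z ⋊[AMC.cact z hz] G

/-- the bijection of index sets -/
def phI : (KG z hz × WG G) ≃ (clCfg z hz hz2 hz1 F hF).EI where
  toFun p := (p.1.left, (p.1.right, p.2))
  invFun q := (⟨q.1, q.2.1⟩, q.2.2)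
  left_inv _ := rfl
  right_inv _ := rfl

theorem phI_smul (k : KG z hz) (p : KG z hz × WG G) :
    phI z hz hz2 hz1 F hF (k * p.1, p.2) =
      (show (clCfg z hz hz2 hz1 F hF).KK from k) • phI z hz hz2 hz1 F hF p := rfl

/-- the amplification -/
def Lam0 : (L2 (G × WG G) →L[ℂ] L2 (G × WG G)) →ₐ[ℂ]
    (L2 (clCfg z hz hz2 hz1 F hF).EI →L[ℂ] L2 (clCfg z hz hz2 hz1 F hF).EI) where
  toFun T := (clCfg z hz hz2 hz1 F hF).am T
  map_one' := AMC.amp_one
  map_mul' S T := AMC.amp_mul S T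
  map_zero' := by
    refine ContinuousLinearMap.ext fun ξ => lp.ext (funext fun p => rfl)
  map_add' S T := AMC.amp_add S T
  commutes' c := by
    rw [Algebra.algebraMap_eq_smul_one, Algebra.algebraMap_eq_smul_one]
    exact (AMC.amp_smul c _).trans (congrArg _ AMC.amp_one)

/-- the amplification on `ℓ²(Γ × W)` -/
def LamH : (L2 (G × WG G) →L[ℂ] L2 (G × WG G)) →ₐ[ℂ]
    (L2 (KG z hz × WG G) →L[ℂ] L2 (KG z hz × WG G)) :=
  (tp (phI z hz hz2 hz1 F hF)).comp (Lam0 z hz hz2 hz1 F hF)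

theorem LamH_eq (T : L2 (G × WG G) →L[ℂ] L2 (G × WG G)) : LamH z hz hz2 hz1 F hF T =
    tp (phI z hz hz2 hz1 F hF) ((clCfg z hz hz2 hz1 F hF).am T) := rfl

theorem ent_LamH (T : L2 (G × WG G) →L[ℂ] L2 (G × WG G)) (p q : KG z hz × WG G) :
    ent (LamH z hz hz2 hz1 F hF T) p q =
      if p.1.left = q.1.left then ent T (p.1.right, p.2) (q.1.right, q.2) else 0 := by
  rw [LamH_eq, ent_tp]
  exact AMC.ent_amp T _ _

theorem norm_LamH_le (T : L2 (G × WG G) →L[ℂ] L2 (G × WG G)) :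
    ‖LamH z hz hz2 hz1 F hF T‖ ≤ ‖T‖ := by
  rw [LamH_eq]
  exact (norm_tp_le _ _).trans (AMC.norm_amp_le T)

theorem ent_EZ {Γ W : Type} [Group Γ] (Z : Finset W) (p q : Γ × W) :
    ent (EZ Z : L2 (Γ × W) →L[ℂ] L2 (Γ × W)) p q = if p = q ∧ q.2 ∈ Z then 1 else 0 := by
  have h : (EZ Z : L2 (Γ × W) →L[ℂ] L2 (Γ × W)) = 1 * cut {y | y.2 ∈ Z} := (one_mul _).symm
  rw [h, Cl_mul_cut]
  have h1 : ent (1 : L2 (Γ × W) →L[ℂ] L2 (Γ × W)) p q = if p = q then 1 else 0 := by
    refine (AMC.ent_one p q).trans ?_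
    congr
  rw [h1]
  by_cases h2 : p = q
  · by_cases h3 : q.2 ∈ Z
    · rw [if_pos (show q ∈ {y : Γ × W | y.2 ∈ Z} from h3), if_pos h2, if_pos ⟨h2, h3⟩]
    · rw [if_neg (show q ∉ {y : Γ × W | y.2 ∈ Z} from h3), if_neg fun h4 => h3 h4.2]
  · rw [if_neg h2, ite_self, if_neg fun h4 => h2 h4.1]

theorem LamH_EZ (Z : Finset (WG G)) : LamH z hz hz2 hz1 F hF (EZ Z) = EZ Z := by
  refine Cl_ext fun p q => ?_
  rw [ent_LamH, ent_EZ, ent_EZ]
  by_cases h : p = q
  · subst h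
    rw [if_pos rfl]
    by_cases h2 : p.2 ∈ Z
    · rw [if_pos ⟨rfl, h2⟩, if_pos ⟨rfl, h2⟩]
    · rw [if_neg fun h3 => h2 h3.2, if_neg fun h3 => h2 h3.2]
  · rw [if_neg fun h3 : p = q ∧ q.2 ∈ Z => h h3.1]
    split_ifs with h1 h2
    · exfalso
      apply h
      obtain ⟨h3, -⟩ := h2
      have h4 : p.1.right = q.1.right := (Prod.mk.inj h3).1
      have h5 : p.2 = q.2 := (Prod.mk.inj h3).2
      exact Prod.ext (SemidirectProduct.ext h1 h4) h5
    · rfl
    · rfl

theorem LamH_equi {T : L2 (G × WG G) →L[ℂ] L2 (G × WG G)} (hT : EquiG T) :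
    EquiG (LamH z hz hz2 hz1 F hF T) := by
  intro k p q
  rw [ent_LamH, ent_LamH]
  change (if k.left * AMC.cact z hz k.right p.1.left = k.left * AMC.cact z hz k.right q.1.left then
    ent T (k.right * p.1.right, p.2) (k.right * q.1.right, q.2) else 0) = _
  rw [hT k.right (p.1.right, p.2) (q.1.right, q.2)]
  by_cases h : p.1.left = q.1.left
  · rw [if_pos h, if_pos (by rw [h])]
  · rw [if_neg h, if_neg]
    intro h1
    exact h ((AMC.cact z hz k.right).injective (mul_left_cancel h1))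

theorem LamH_inU {T : L2 (G × WG G) →L[ℂ] L2 (G × WG G)} (hT : InU T) :
    InU (LamH z hz hz2 hz1 F hF T) := by
  refine ⟨LamH_equi z hz hz2 hz1 F hF hT.1, fun ε hε => ?_⟩
  obtain ⟨Z0, hZ0⟩ := hT.2 ε hε
  refine ⟨Z0, fun Z hZ => ?_⟩
  have h := LamH_EZ z hz hz2 hz1 F hF Z
  have h1 : EZ Z * LamH z hz hz2 hz1 F hF T - LamH z hz hz2 hz1 F hF T * EZ Z =
      LamH z hz hz2 hz1 F hF (EZ Z * T - T * EZ Z) := by
    rw [map_sub, map_mul, map_mul, h]
  rw [h1]
  exact (norm_LamH_le z hz hz2 hz1 F hF _).trans (hZ0 Z hZ)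

/-- transported operators which are invariant and do not move the points of `I` -/
theorem tp_comm {S : L2 (clCfg z hz hz2 hz1 F hF).EI →L[ℂ] L2 (clCfg z hz hz2 hz1 F hF).EI}
    (h : ∀ p q : (clCfg z hz hz2 hz1 F hF).EI, AMC.ent S p q ≠ 0 → p.2 = q.2)
    (Z : Finset (WG G)) : EZ Z * tp (phI z hz hz2 hz1 F hF) S =
      tp (phI z hz hz2 hz1 F hF) S * EZ Z := by
  refine Cl_ext fun p q => ?_
  unfold EZ
  rw [Cl_cut_mul, Cl_mul_cut, ent_tp]
  by_cases h1 : ent S (phI z hz hz2 hz1 F hF p) (phI z hz hz2 hz1 F hF q) = 0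
  · rw [h1, ite_self, ite_self]
  · have h2 : (phI z hz hz2 hz1 F hF p).2 = (phI z hz hz2 hz1 F hF q).2 := h _ _ h1
    have h3 : p.2 = q.2 := congrArg (fun y : G × WG G => y.2) h2
    have h4 : (p ∈ {y : KG z hz × WG G | y.2 ∈ Z}) ↔ (q ∈ {y : KG z hz × WG G | y.2 ∈ Z}) := by
      change p.2 ∈ Z ↔ q.2 ∈ Z
      rw [h3]
    by_cases h5 : q ∈ {y : KG z hz × WG G | y.2 ∈ Z}
    · rw [if_pos h5, if_pos (h4.2 h5)]
    · rw [if_neg h5, if_neg fun h6 => h5 (h4.1 h6)]

theorem tp_inU {S : L2 (clCfg z hz hz2 hz1 F hF).EI →L[ℂ] L2 (clCfg z hz hz2 hz1 F hF).EI}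
    (hS : AMC.Invt (clCfg z hz hz2 hz1 F hF).KK S)
    (h : ∀ p q : (clCfg z hz hz2 hz1 F hF).EI, AMC.ent S p q ≠ 0 → p.2 = q.2) :
    InU (tp (phI z hz hz2 hz1 F hF) S) := by
  refine ⟨fun k p q => ?_, fun ε hε => ⟨∅, fun Z _ => ?_⟩⟩
  · rw [ent_tp, ent_tp, phI_smul, phI_smul]
    exact hS k _ _
  · rw [tp_comm z hz hz2 hz1 F hF h, sub_self, norm_zero]
    exact hε.le

theorem am_lz : (clCfg z hz hz2 hz1 F hF).am (lz z : L2 (G × WG G) →L[ℂ] L2 (G × WG G)) =
    (clCfg z hz hz2 hz1 F hF).Zp := by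
  refine ContinuousLinearMap.ext fun ξ => lp.ext (funext fun p => ?_)
  have hinv : z⁻¹ = z := inv_eq_of_mul_eq_one_right hz2
  change ξ (p.1, (z⁻¹ * p.2.1, p.2.2)) = ξ (p.1, (z * p.2.1, p.2.2))
  rw [hinv]

theorem trZ_q (T : L2 (G × WG G) →L[ℂ] L2 (G × WG G)) (Z : Finset (WG G)) :
    trZ Z (tp (phI z hz hz2 hz1 F hF) (clCfg z hz hz2 hz1 F hF).em * LamH z hz hz2 hz1 F hF T) =
      (1 / 2 : ℂ) * trZ Z T := by
  unfold trZ
  rw [Finset.mul_sum]
  refine Finset.sum_congr rfl fun w _ => ?_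
  rw [LamH_eq, ← map_mul, ent_tp]
  have h1 : (clCfg z hz hz2 hz1 F hF).em * (clCfg z hz hz2 hz1 F hF).am T =
      (1 / 2 : ℂ) • ((clCfg z hz hz2 hz1 F hF).am T -
        (clCfg z hz hz2 hz1 F hF).RJ * (clCfg z hz hz2 hz1 F hF).am T) := by
    unfold AMC.Cfg.em
    rw [smul_mul_assoc, sub_mul, one_mul]
  rw [h1]
  have hJ := AMC.cJ_ne_one z hz1 hz2
  have h2 : AMC.ent ((clCfg z hz hz2 hz1 F hF).am T) (1, (1, w)) (1, (1, w)) =
      ent T (1, w) (1, w) := by
    refine (AMC.ent_amp T _ _).trans ?_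
    rw [if_pos rfl]
    rfl
  have h3 : AMC.ent ((clCfg z hz hz2 hz1 F hF).RJ * (clCfg z hz hz2 hz1 F hF).am T)
      (1, (1, w)) (1, (1, w)) = 0 := by
    have h4 : AMC.ent ((clCfg z hz hz2 hz1 F hF).RJ * (clCfg z hz hz2 hz1 F hF).am T)
      (1, (1, w)) (1, (1, w)) = AMC.ent ((clCfg z hz hz2 hz1 F hF).am T)
        (show (clCfg z hz hz2 hz1 F hF).EI from ((1 : AMC.Cl z) * AMC.cJ z, ((1 : G), w)))
        (1, (1, w)) := rfl
    rw [h4]
    refine (AMC.ent_amp T _ _).trans ?_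
    rw [if_neg]
    intro h5
    exact hJ ((one_mul _).symm.trans h5)
  have h4 : ent ((1 / 2 : ℂ) • ((clCfg z hz hz2 hz1 F hF).am T -
        (clCfg z hz hz2 hz1 F hF).RJ * (clCfg z hz hz2 hz1 F hF).am T))
        (phI z hz hz2 hz1 F hF (1, w)) (phI z hz hz2 hz1 F hF (1, w)) =
      (1 / 2 : ℂ) * (AMC.ent ((clCfg z hz hz2 hz1 F hF).am T) (1, (1, w)) (1, (1, w)) -
        AMC.ent ((clCfg z hz hz2 hz1 F hF).RJ * (clCfg z hz hz2 hz1 F hF).am T)
      (1, (1, w)) (1, (1, w))) := rfl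
  rw [h4, h2, h3, sub_zero]

end Op

end ClP

open ClP in
theorem partCl : PartCl := by
  intro G _ z hz hz2 hz1 F hF
  refine ⟨KG z hz, inferInstance, LamH z hz hz2 hz1 F hF,
    tp (phI z hz hz2 hz1 F hF) (clCfg z hz hz2 hz1 F hF).Ch,
    tp (phI z hz hz2 hz1 F hF) (clCfg z hz hz2 hz1 F hF).em,
    norm_LamH_le z hz hz2 hz1 F hF, fun T hT => LamH_inU z hz hz2 hz1 F hF hT,
    tp_inU z hz hz2 hz1 F hF (AMC.Cfg.invt_Ch _) fun p q h => AMC.Cfg.ent_Ch_ne _ h,
    tp_inU z hz hz2 hz1 F hF (AMC.Cfg.invt_em _) fun p q h => AMC.Cfg.ent_em_ne _ h,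
    fun Z => tp_comm z hz hz2 hz1 F hF (fun p q h => AMC.Cfg.ent_Ch_ne _ h) Z,
    fun Z => tp_comm z hz hz2 hz1 F hF (fun p q h => AMC.Cfg.ent_em_ne _ h) Z,
    LamH_EZ z hz hz2 hz1 F hF, ?_, ?_, ?_, ?_, ?_, ?_, trZ_q z hz hz2 hz1 F hF⟩
  · rw [← map_mul, AMC.Cfg.em_em]
  · rw [← map_mul, ← map_mul, AMC.Cfg.em_Ch]
  · intro T
    rw [LamH_eq, ← map_mul, ← map_mul]
    exact congrArg _ (AMC.Cfg.em_am (clCfg z hz hz2 hz1 F hF) T)
  · rw [← map_mul, ← map_mul]
    congr 1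
    rw [← mul_assoc, AMC.Cfg.em_Ch, mul_assoc, AMC.Cfg.em_Ch]
    exact AMC.Cfg.Ch_Ch_em _
  · rw [LamH_eq, am_lz, ← map_mul, ← map_mul, ← map_mul, ← map_mul, ← map_neg]
    congr 1
    rw [AMC.Cfg.Ch_Zp, ← mul_assoc, AMC.Cfg.em_RJ, neg_mul]
  · refine ⟨‖tp (phI z hz hz2 hz1 F hF) (clCfg z hz hz2 hz1 F hF).em‖ *
      (((clCfg z hz hz2 hz1 F hF).Es.card ^ 2 : ℕ) * 4), fun ε hε hε1 T hT1 hT2 => ?_⟩
    refine (norm_mul_le _ _).trans ?_
    have h1 : (clCfg z hz hz2 hz1 F hF).PropLE ε T := by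
      intro y y' h
      obtain ⟨h2, h3⟩ := hT1 y y' h
      have h4 := (hT2 y y' h).le
      rw [← l1_clx h2 h3] at h4
      exact h4
    have h2 := (clCfg z hz hz2 hz1 F hF).norm_comm_Ch hε hε1 h1
    have h3 : tp (phI z hz hz2 hz1 F hF) (clCfg z hz hz2 hz1 F hF).Ch * LamH z hz hz2 hz1 F hF T -
        LamH z hz hz2 hz1 F hF T * tp (phI z hz hz2 hz1 F hF) (clCfg z hz hz2 hz1 F hF).Ch =
        tp (phI z hz hz2 hz1 F hF) ((clCfg z hz hz2 hz1 F hF).Ch *
          (clCfg z hz hz2 hz1 F hF).am T - (clCfg z hz hz2 hz1 F hF).am T *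
            (clCfg z hz hz2 hz1 F hF).Ch) := by
      rw [LamH_eq, map_sub, map_mul, map_mul]
    rw [h3]
    have h4 : ‖tp (phI z hz hz2 hz1 F hF) ((clCfg z hz hz2 hz1 F hF).Ch *
          (clCfg z hz hz2 hz1 F hF).am T - (clCfg z hz hz2 hz1 F hF).am T *
            (clCfg z hz hz2 hz1 F hF).Ch)‖ ≤
        (((clCfg z hz hz2 hz1 F hF).Es.card ^ 2 : ℕ) : ℝ) * (4 * Real.sqrt ε * ‖T‖) :=
      (norm_tp_le (phI z hz hz2 hz1 F hF) _).trans h2
    refine (mul_le_mul_of_nonneg_left h4 (norm_nonneg _)).trans (le_of_eq ?_)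
    ring

end

end P089.AM
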