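import Mathlib

/-!
# P089, part AM: the Clifford group of `G` and a central involution `z`
-/

namespace P089.AM

noncomputable section

namespace Cliff

variable (G : Type) [Group G]

/-- half of the standard inner product on finitely supported functions -/
def B : (G →₀ ℝ) →ₗ[ℝ] (G →₀ ℝ) →ₗ[ℝ] ℝ :=
  Finsupp.linearCombination ℝ fun v => (1 / 2 : ℝ) • (Finsupp.lapply v : (G →₀ ℝ) →ₗ[ℝ] ℝ)

/-- the quadratic form `(1/2) ∑ f(v)²` -/
def Q : QuadraticForm ℝ (G →₀ ℝ) := LinearMap.BilinMap.toQuadraticMap (B G)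

variable {G}

omit [Group G] in
theorem B_single (v : G) (a : ℝ) (f : G →₀ ℝ) : B G (Finsupp.single v a) f = a * (1 / 2 * f v) := by
  unfold B
  rw [Finsupp.linearCombination_single]
  rfl

/-- translation of functions -/
def trl (g : G) : (G →₀ ℝ) →ₗ[ℝ] (G →₀ ℝ) := Finsupp.lmapDomain ℝ ℝ (fun v => g * v)

theorem trl_single (g v : G) (a : ℝ) :
    trl g (Finsupp.single v a) = Finsupp.single (g * v) a := by
  unfold trl
  rw [Finsupp.lmapDomain_apply, Finsupp.mapDomain_single]

theorem trl_apply (g v : G) (f : G →₀ ℝ) : trl g f (g * v) = f v := by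
  unfold trl
  rw [Finsupp.lmapDomain_apply]
  exact Finsupp.mapDomain_apply (mul_right_injective g) f v

theorem B_trl (g : G) (f f' : G →₀ ℝ) : B G (trl g f) (trl g f') = B G f f' := by
  induction f using Finsupp.induction_linear with
  | zero => simp
  | add f1 f2 h1 h2 => rw [map_add, map_add, map_add, LinearMap.add_apply, LinearMap.add_apply,
      h1, h2]
  | single v a => rw [trl_single, B_single, B_single, trl_apply]

/-- translation as an isometry -/
def trI (g : G) : Q G →qᵢ Q G where
  toLinearMap := trl g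
  map_app' f := B_trl g f f

/-- translation on the Clifford algebra -/
def trC (g : G) : CliffordAlgebra (Q G) →ₐ[ℝ] CliffordAlgebra (Q G) := CliffordAlgebra.map (trI g)

theorem trC_ι (g : G) (f : G →₀ ℝ) :
    trC g (CliffordAlgebra.ι (Q G) f) = CliffordAlgebra.ι (Q G) (trl g f) :=
  CliffordAlgebra.map_apply_ι _ f

theorem trC_mul (g h : G) (x : CliffordAlgebra (Q G)) : trC (g * h) x = trC g (trC h x) := by
  have h1 : trC (g * h) = (trC g).comp (trC h) := by
    refine CliffordAlgebra.hom_ext (LinearMap.ext fun f => ?_)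
    change trC (g * h) (CliffordAlgebra.ι (Q G) f) = trC g (trC h (CliffordAlgebra.ι (Q G) f))
    rw [trC_ι, trC_ι, trC_ι]
    congr 1
    induction f using Finsupp.induction_linear with
    | zero => simp
    | add f1 f2 h1 h2 => rw [map_add, h1, h2, map_add, map_add]
    | single v a => rw [trl_single, trl_single, trl_single, mul_assoc]
  rw [h1]
  rfl

theorem trC_one (x : CliffordAlgebra (Q G)) : trC (1 : G) x = x := by
  have h1 : trC (1 : G) = AlgHom.id ℝ _ := by
    refine CliffordAlgebra.hom_ext (LinearMap.ext fun f => ?_)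
    change trC (1 : G) (CliffordAlgebra.ι (Q G) f) = CliffordAlgebra.ι (Q G) f
    rw [trC_ι]
    congr 1
    induction f using Finsupp.induction_linear with
    | zero => simp
    | add f1 f2 h1 h2 => rw [map_add, h1, h2]
    | single v a => rw [trl_single, one_mul]
  rw [h1]
  rfl

/-- the action on the group of units -/
def al : G →* MulAut (CliffordAlgebra (Q G))ˣ where
  toFun g :=
    { toFun := Units.map (trC g : CliffordAlgebra (Q G) →* CliffordAlgebra (Q G))
      invFun := Units.map (trC g⁻¹ : CliffordAlgebra (Q G) →* CliffordAlgebra (Q G))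
      left_inv := fun u => Units.ext (by
        change trC g⁻¹ (trC g (u : CliffordAlgebra (Q G))) = u
        rw [← trC_mul, inv_mul_cancel, trC_one])
      right_inv := fun u => Units.ext (by
        change trC g (trC g⁻¹ (u : CliffordAlgebra (Q G))) = u
        rw [← trC_mul, mul_inv_cancel, trC_one])
      map_mul' := fun u v => map_mul _ u v }
  map_one' := by
    refine MulEquiv.ext fun u => Units.ext ?_
    exact trC_one _
  map_mul' g h := by
    refine MulEquiv.ext fun u => Units.ext ?_
    exact trC_mul g h _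

/-- the vector `δ_v - δ_{z v}` -/
def ev (z v : G) : G →₀ ℝ := Finsupp.single v 1 - Finsupp.single (z * v) 1

theorem ne_mul {z : G} (hz : z ≠ 1) (v : G) : z * v ≠ v := fun h => hz (mul_eq_right.1 h)

theorem B_ev {z : G} (hz : z ≠ 1) (v : G) : B G (ev z v) (ev z v) = 1 := by
  unfold ev
  rw [LinearMap.map_sub₂, B_single, B_single, Finsupp.sub_apply, Finsupp.sub_apply,
    Finsupp.single_eq_same, Finsupp.single_eq_same, Finsupp.single_eq_of_ne (ne_mul hz v).symm,
    Finsupp.single_eq_of_ne (ne_mul hz v)]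
  norm_num

theorem B_ev_ne {z : G} (hz2 : z * z = 1) {v w : G} (h1 : w ≠ v) (h2 : w ≠ z * v) :
    B G (ev z v) (ev z w) = 0 := by
  have h3 : z * w ≠ v := by
    intro h
    apply h2
    rw [← h, ← mul_assoc, hz2, one_mul]
  have h4 : z * w ≠ z * v := fun h => h1 (mul_left_cancel h)
  unfold ev
  rw [LinearMap.map_sub₂, B_single, B_single, Finsupp.sub_apply, Finsupp.sub_apply,
    Finsupp.single_eq_of_ne h1.symm, Finsupp.single_eq_of_ne h3.symm,
    Finsupp.single_eq_of_ne h2.symm, Finsupp.single_eq_of_ne h4.symm]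
  norm_num

theorem ι_sq {z : G} (hz : z ≠ 1) (v : G) :
    CliffordAlgebra.ι (Q G) (ev z v) * CliffordAlgebra.ι (Q G) (ev z v) = 1 := by
  rw [CliffordAlgebra.ι_sq_scalar]
  have h : Q G (ev z v) = 1 := B_ev hz v
  rw [h, map_one]

/-- the generators -/
def c {z : G} (hz : z ≠ 1) (v : G) : (CliffordAlgebra (Q G))ˣ :=
  ⟨CliffordAlgebra.ι (Q G) (ev z v), CliffordAlgebra.ι (Q G) (ev z v), ι_sq hz v, ι_sq hz v⟩

theorem anti {z : G} (hz2 : z * z = 1) {v w : G} (h1 : w ≠ v) (h2 : w ≠ z * v) :
    CliffordAlgebra.ι (Q G) (ev z v) * CliffordAlgebra.ι (Q G) (ev z w) =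
      -(CliffordAlgebra.ι (Q G) (ev z w) * CliffordAlgebra.ι (Q G) (ev z v)) := by
  have h := CliffordAlgebra.ι_mul_ι_add_swap (Q := Q G) (ev z v) (ev z w)
  have hs : ∀ f f' : G →₀ ℝ, B G f f' = B G f' f := by
    intro f f'
    induction f using Finsupp.induction_linear with
    | zero => simp
    | add f1 f2 h1 h2 => rw [map_add, map_add, LinearMap.add_apply, h1, h2]
    | single v a =>
      induction f' using Finsupp.induction_linear with
      | zero => simp
      | add f1 f2 h1 h2 => rw [map_add, map_add, LinearMap.add_apply, h1, h2]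
      | single w b =>
        rw [B_single, B_single]
        by_cases hvw : v = w
        · subst hvw
          rw [Finsupp.single_eq_same, Finsupp.single_eq_same]
          ring
        · rw [Finsupp.single_eq_of_ne hvw, Finsupp.single_eq_of_ne (fun h => hvw h.symm)]
          ring
  have h3 : QuadraticMap.polar (Q G) (ev z v) (ev z w) = 0 := by
    have h4 : QuadraticMap.polar (Q G) (ev z v) (ev z w) =
        B G (ev z v) (ev z w) + B G (ev z w) (ev z v) :=
      LinearMap.BilinMap.polar_toQuadraticMap _ _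
    rw [h4, ← hs (ev z v) (ev z w), B_ev_ne hz2 h1 h2, add_zero]
  rw [h3, map_zero] at h
  exact eq_neg_of_add_eq_zero_left h

end Cliff

/-- the Clifford group -/
theorem exists_cliff (G : Type) [Group G] (z : G) (hz : z ≠ 1) (hz2 : z * z = 1)
    (hzc : ∀ g, z * g = g * z) :
    ∃ (E : Type) (_ : Group E) (c : G → E) (J : E) (al : G →* MulAut E), J ≠ 1 ∧ J * J = 1 ∧
      (∀ e, J * e = e * J) ∧ (∀ v, c v * c v = 1) ∧ (∀ v, c (z * v) = J * c v) ∧
      (∀ v w, w ≠ v → w ≠ z * v → c v * c w = J * (c w * c v)) ∧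
      (∀ g v, al g (c v) = c (g * v)) ∧ ∀ g, al g J = J := by
  refine ⟨(CliffordAlgebra (Cliff.Q G))ˣ, inferInstance, Cliff.c hz, -1, Cliff.al, ?_, ?_, ?_, ?_,
    ?_, ?_, ?_, ?_⟩
  · intro h
    have h1 : (-1 : CliffordAlgebra (Cliff.Q G)) = 1 := congrArg Units.val h
    have h2 : (2 : ℝ) • (1 : CliffordAlgebra (Cliff.Q G)) = 0 := by
      rw [two_smul]
      nth_rw 1 [← h1]
      exact neg_add_cancel 1
    have h3 := smul_eq_zero.1 h2
    rcases h3 with h3 | h3
    · norm_num at h3
    · exact one_ne_zero h3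
  · rw [neg_mul_neg, one_mul]
  · intro e
    rw [neg_one_mul, mul_neg_one]
  · intro v
    exact Units.ext (Cliff.ι_sq hz v)
  · intro v
    refine Units.ext ?_
    change CliffordAlgebra.ι (Cliff.Q G) (Cliff.ev z (z * v)) =
      (-1) * CliffordAlgebra.ι (Cliff.Q G) (Cliff.ev z v)
    rw [neg_one_mul, ← map_neg]
    congr 1
    unfold Cliff.ev
    rw [← mul_assoc, hz2, one_mul, neg_sub]
  · intro v w h1 h2
    refine Units.ext ?_
    change CliffordAlgebra.ι (Cliff.Q G) (Cliff.ev z v) * CliffordAlgebra.ι (Cliff.Q G) (Cliff.ev z w) =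
      (-1) * (CliffordAlgebra.ι (Cliff.Q G) (Cliff.ev z w) *
        CliffordAlgebra.ι (Cliff.Q G) (Cliff.ev z v))
    rw [neg_one_mul]
    exact Cliff.anti hz2 h1 h2
  · intro g v
    refine Units.ext ?_
    change Cliff.trC g (CliffordAlgebra.ι (Cliff.Q G) (Cliff.ev z v)) =
      CliffordAlgebra.ι (Cliff.Q G) (Cliff.ev z (g * v))
    rw [Cliff.trC_ι]
    congr 1
    unfold Cliff.ev
    rw [map_sub, Cliff.trl_single, Cliff.trl_single, ← mul_assoc, ← hzc g, mul_assoc]
  · intro g
    refine Units.ext ?_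
    change Cliff.trC g (-1) = -1
    rw [map_neg, map_one]

end

end P089.AM
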