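import Vale.Agent.Lib.P089.AM.Defs

/-!
# P089, part AM, module M4: the commutator estimate

`ℓ²(Y)` with basis `bv y`.  `C (bv y) = ∑_{w ∈ N y} f w y • bv (σ w y)`, `σ w` involutions preserving
`f` and `N` and the matrix of `T`.  If `T_{y z} ≠ 0` implies `|f w y - f w z| ≤ δ` for all `w`, and
`f w y ≠ 0 → w ∈ N z`, `f w z ≠ 0 → w ∈ N y`, then `‖C T - T C‖ ≤ 4 m δ ‖T‖`, `m` a bound for `|N y|`.
-/

namespace P089.AM

open scoped Classical

noncomputable section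

variable {Y W : Type}

/-- basis vector of `ℓ²(Y)` -/
def bv (y : Y) : L2 Y := lp.single 2 y (1 : ℂ)

/-- finitely supported vector -/
def fv (S : Finset Y) (a : Y → ℂ) : L2 Y := ∑ y ∈ S, a y • bv y

theorem inner_bv (y : Y) (ξ : L2 Y) : inner ℂ (bv y) ξ = ξ y := by
  unfold bv
  rw [lp.inner_single_left]
  simp

theorem ent_eq (T : L2 Y →L[ℂ] L2 Y) (y z : Y) :
    ent T y z = inner ℂ (bv y) (T (bv z)) := (inner_bv _ _).symm

theorem bv_apply (y z : Y) : (bv y : L2 Y) z = if z = y then 1 else 0 := by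
  unfold bv
  rw [lp.single_apply]
  by_cases h : z = y
  · subst h
    simp
  · rw [if_neg h, Pi.single_eq_of_ne h]

theorem inner_fv (S : Finset Y) (a : Y → ℂ) (ξ : L2 Y) :
    inner ℂ (fv S a) ξ = ∑ y ∈ S, (starRingEnd ℂ) (a y) * ξ y := by
  unfold fv
  rw [sum_inner]
  refine Finset.sum_congr rfl fun y _ => ?_
  rw [inner_smul_left, inner_bv]

theorem fv_apply (S : Finset Y) (a : Y → ℂ) {y : Y} (hy : y ∈ S) : fv S a y = a y := by
  rw [← inner_bv]
  unfold fv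
  rw [inner_sum, Finset.sum_eq_single y]
  · rw [inner_smul_right, inner_bv, bv_apply, if_pos rfl, mul_one]
  · intro z _ hz
    rw [inner_smul_right, inner_bv, bv_apply, if_neg (Ne.symm hz), mul_zero]
  · intro h
    exact absurd hy h

theorem norm_fv_sq (S : Finset Y) (a : Y → ℂ) : ‖fv S a‖ ^ 2 = ∑ y ∈ S, ‖a y‖ ^ 2 := by
  have h := inner_self_eq_norm_sq_to_K (𝕜 := ℂ) (fv S a)
  rw [inner_fv] at h
  have h2 : ((‖fv S a‖ ^ 2 : ℝ) : ℂ) = ((∑ y ∈ S, ‖a y‖ ^ 2 : ℝ) : ℂ) := by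
    rw [Complex.ofReal_pow]
    refine Eq.trans h.symm ?_
    rw [Complex.ofReal_sum]
    refine Finset.sum_congr rfl fun y hy => ?_
    rw [fv_apply S a hy, Complex.conj_mul']
    push_cast
    rfl
  exact_mod_cast h2

theorem inner_fv_fv (T : L2 Y →L[ℂ] L2 Y) (S S' : Finset Y)
    (a b : Y → ℂ) : inner ℂ (fv S a) (T (fv S' b)) =
      ∑ y ∈ S, ∑ z ∈ S', (starRingEnd ℂ) (a y) * b z * ent T y z := by
  rw [inner_fv]
  refine Finset.sum_congr rfl fun y _ => ?_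
  have h : T (fv S' b) = ∑ z ∈ S', b z • T (bv z) := by
    unfold fv
    rw [map_sum]
    refine Finset.sum_congr rfl fun z _ => ?_
    rw [map_smul]
  rw [h, ← inner_bv, inner_sum, Finset.mul_sum]
  refine Finset.sum_congr rfl fun z _ => ?_
  rw [inner_smul_right, ent_eq]
  ring

theorem fv_tendsto (ξ : L2 Y) :
    Filter.Tendsto (fun S : Finset Y => fv S fun y => ξ y) Filter.atTop (nhds ξ) := by
  have h1 : HasSum (fun i => lp.single 2 i (ξ i) : Y → L2 Y) ξ :=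
    lp.hasSum_single (by norm_num) ξ
  have h2 : (fun S : Finset Y => fv S fun y => ξ y) =
      fun S : Finset Y => ∑ i ∈ S, (lp.single 2 i (ξ i) : L2 Y) := by
    funext S
    unfold fv
    refine Finset.sum_congr rfl fun y _ => ?_
    unfold bv
    rw [← lp.single_smul]
    simp
  rw [h2]
  exact h1

theorem norm_inner_fv_le (T : L2 Y →L[ℂ] L2 Y)
    (S S' : Finset Y) (a b : Y → ℂ) :
    ‖∑ y ∈ S, ∑ z ∈ S', (starRingEnd ℂ) (a y) * b z * ent T y z‖ ≤
      ‖T‖ * ((∑ y ∈ S, ‖a y‖ ^ 2 + ∑ z ∈ S', ‖b z‖ ^ 2) / 2) := by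
  rw [← inner_fv_fv, ← norm_fv_sq, ← norm_fv_sq]
  refine (norm_inner_le_norm _ _).trans ?_
  have h1 := T.le_opNorm (fv S' b)
  have h2 := norm_nonneg (fv S a)
  have h3 := norm_nonneg (fv S' b)
  have h4 := norm_nonneg T
  calc ‖fv S a‖ * ‖T (fv S' b)‖ ≤ ‖fv S a‖ * (‖T‖ * ‖fv S' b‖) :=
        mul_le_mul_of_nonneg_left h1 h2
    _ = ‖T‖ * (‖fv S a‖ * ‖fv S' b‖) := by ring
    _ ≤ ‖T‖ * ((‖fv S a‖ ^ 2 + ‖fv S' b‖ ^ 2) / 2) := by
        refine mul_le_mul_of_nonneg_left ?_ h4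
        nlinarith [sq_nonneg (‖fv S a‖ - ‖fv S' b‖)]

/-- a bound for the quadratic form bounds the norm -/
theorem norm_le_of_fv (B : L2 Y →L[ℂ] L2 Y) {c : ℝ} (hc : 0 ≤ c)
    (h : ∀ (S : Finset Y) (a b : Y → ℂ),
      ‖∑ y ∈ S, ∑ z ∈ S, (starRingEnd ℂ) (a y) * b z * ent B y z‖ ≤
        c * ((∑ y ∈ S, ‖a y‖ ^ 2 + ∑ z ∈ S, ‖b z‖ ^ 2) / 2)) : ‖B‖ ≤ c := by
  have h1 : ∀ ξ η : L2 Y,
      ‖inner ℂ ξ (B η)‖ ≤ c * ((‖ξ‖ ^ 2 + ‖η‖ ^ 2) / 2) := by
    intro ξ η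
    have t1 := fv_tendsto ξ
    have t2 := fv_tendsto η
    have t3 : Filter.Tendsto (fun S : Finset Y => ‖inner ℂ (fv S fun y => ξ y)
        (B (fv S fun y => η y))‖) Filter.atTop (nhds ‖inner ℂ ξ (B η)‖) :=
      (t1.inner ((B.continuous.tendsto η).comp t2)).norm
    have t4 : Filter.Tendsto (fun S : Finset Y => c * ((‖fv S fun y => ξ y‖ ^ 2 +
        ‖fv S fun y => η y‖ ^ 2) / 2)) Filter.atTop (nhds (c * ((‖ξ‖ ^ 2 + ‖η‖ ^ 2) / 2))) :=
      (((t1.norm.pow 2).add (t2.norm.pow 2)).div_const 2).const_mul c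
    refine le_of_tendsto_of_tendsto' t3 t4 fun S => ?_
    rw [inner_fv_fv, norm_fv_sq, norm_fv_sq]
    exact h S _ _
  refine B.opNorm_le_bound hc fun η => ?_
  by_cases hB : B η = 0
  · rw [hB, norm_zero]
    positivity
  have hBp : 0 < ‖B η‖ := norm_pos_iff.mpr hB
  have hη : 0 < ‖η‖ := by
    rw [norm_pos_iff]
    rintro rfl
    exact hB (map_zero B)
  have h2 := h1 (((‖η‖ / ‖B η‖ : ℝ) : ℂ) • B η) η
  have h3 : ‖(((‖η‖ / ‖B η‖ : ℝ) : ℂ) • B η)‖ = ‖η‖ := by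
    rw [norm_smul, Complex.norm_real, Real.norm_eq_abs, abs_of_pos (div_pos hη hBp),
      div_mul_cancel₀ _ hBp.ne']
  have h4 : ‖inner ℂ (((‖η‖ / ‖B η‖ : ℝ) : ℂ) • B η) (B η)‖ = ‖η‖ * ‖B η‖ := by
    rw [inner_smul_left, Complex.conj_ofReal, norm_mul, inner_self_eq_norm_sq_to_K, Complex.norm_real,
      Real.norm_eq_abs, abs_of_pos (div_pos hη hBp), norm_pow]
    have : ‖((‖B η‖ : ℝ) : ℂ)‖ = ‖B η‖ := by
      rw [Complex.norm_real, norm_norm]
    refine Eq.trans (congrArg (fun t => ‖η‖ / ‖B η‖ * t ^ 2) this) ?_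
    field_simp
  rw [h3, h4] at h2
  have h5 : ‖η‖ * ‖B η‖ ≤ ‖η‖ * (c * ‖η‖) := by
    calc ‖η‖ * ‖B η‖ ≤ _ := h2
      _ = _ := by ring
  exact le_of_mul_le_mul_left h5 hη

/-- the part of a sum with `k y = k z + 1` -/
private theorem comm_band (T : L2 Y →L[ℂ] L2 Y)
    (k k' : Y → ℤ) (S S' : Finset Y) (a b : Y → ℂ) :
    ‖∑ y ∈ S, ∑ z ∈ S', (starRingEnd ℂ) (a y) * b z *
        ((if k y = k' z then (1 : ℂ) else 0) * ent T y z)‖ ≤
      ‖T‖ * ((∑ y ∈ S, ‖a y‖ ^ 2 + ∑ z ∈ S', ‖b z‖ ^ 2) / 2) := by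
  have h1 : ∑ y ∈ S, ∑ z ∈ S', (starRingEnd ℂ) (a y) * b z *
        ((if k y = k' z then (1 : ℂ) else 0) * ent T y z) =
      ∑ l ∈ S'.image k', ∑ y ∈ S, ∑ z ∈ S',
        (starRingEnd ℂ) (if k y = l then a y else 0) * (if k' z = l then b z else 0) *
          ent T y z := by
    symm
    rw [Finset.sum_comm]
    refine Finset.sum_congr rfl fun y _ => ?_
    rw [Finset.sum_comm]
    refine Finset.sum_congr rfl fun z hz => ?_
    symm
    rw [Finset.sum_eq_single (k' z)]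
    · by_cases h : k y = k' z
      · rw [if_pos h, if_pos h, if_pos rfl, one_mul]
      · rw [if_neg h, if_neg h, map_zero]
        ring
    · intro l _ hl
      rw [if_neg (Ne.symm hl)]
      ring
    · intro h
      exact absurd (Finset.mem_image_of_mem k' hz) h
  rw [h1]
  refine (norm_sum_le _ _).trans ?_
  have h2 : ∀ l ∈ S'.image k', ‖∑ y ∈ S, ∑ z ∈ S',
        (starRingEnd ℂ) (if k y = l then a y else 0) * (if k' z = l then b z else 0) *
          ent T y z‖ ≤ ‖T‖ * ((∑ y ∈ S, ‖if k y = l then a y else 0‖ ^ 2 +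
            ∑ z ∈ S', ‖if k' z = l then b z else 0‖ ^ 2) / 2) := fun l _ =>
    norm_inner_fv_le T S S' (fun y => if k y = l then a y else 0)
      (fun z => if k' z = l then b z else 0)
  refine (Finset.sum_le_sum h2).trans ?_
  rw [← Finset.mul_sum, ← Finset.sum_div, Finset.sum_add_distrib]
  refine mul_le_mul_of_nonneg_left ?_ (norm_nonneg T)
  refine div_le_div_of_nonneg_right ?_ (by norm_num)
  have h3 : ∀ (q : Y → ℤ) (Q : Finset Y) (c : Y → ℂ),
      ∑ l ∈ S'.image k', ∑ y ∈ Q, ‖if q y = l then c y else 0‖ ^ 2 ≤ ∑ y ∈ Q, ‖c y‖ ^ 2 := by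
    intro q Q c
    rw [Finset.sum_comm]
    refine Finset.sum_le_sum fun y _ => ?_
    have h4 : ∀ l, ‖if q y = l then c y else 0‖ ^ 2 = if q y = l then ‖c y‖ ^ 2 else 0 := by
      intro l
      split_ifs
      · rfl
      · rw [norm_zero]
        norm_num
    rw [Finset.sum_congr rfl fun l _ => h4 l, Finset.sum_ite_eq]
    split_ifs
    · exact le_rfl
    · positivity
  exact add_le_add (h3 k S a) (h3 k' S' b)

/-- one function -/
theorem comm_one (T : L2 Y →L[ℂ] L2 Y) (f : Y → ℝ) {δ : ℝ}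
    (hδ : 0 < δ) (hT : ∀ y z, ent T y z ≠ 0 → |f y - f z| ≤ δ) (S S' : Finset Y) (a b : Y → ℂ) :
    ‖∑ y ∈ S, ∑ z ∈ S', (starRingEnd ℂ) (a y) * b z * (((f y - f z : ℝ) : ℂ) * ent T y z)‖ ≤
      4 * δ * ‖T‖ * ((∑ y ∈ S, ‖a y‖ ^ 2 + ∑ z ∈ S', ‖b z‖ ^ 2) / 2) := by
  obtain ⟨k, hk⟩ : ∃ k : Y → ℤ, k = fun y => ⌊f y / δ⌋ := ⟨_, rfl⟩
  obtain ⟨r, hr⟩ : ∃ r : Y → ℝ, r = fun y => f y - k y * δ := ⟨_, rfl⟩
  have hr0 : ∀ y, |r y| ≤ δ := by
    intro y
    have h1 : (k y : ℝ) ≤ f y / δ := by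
      rw [hk]
      exact Int.floor_le _
    have h2 : f y / δ < k y + 1 := by
      rw [hk]
      exact Int.lt_floor_add_one _
    rw [le_div_iff₀ hδ] at h1
    rw [div_lt_iff₀ hδ] at h2
    rw [hr, abs_le]
    constructor
    · show -δ ≤ f y - k y * δ
      linarith
    · show f y - k y * δ ≤ δ
      linarith
  have hkk : ∀ y z, ent T y z ≠ 0 → ((k y : ℂ) - k z) =
      (if k y = k z + 1 then (1 : ℂ) else 0) - (if k y + 1 = k z then (1 : ℂ) else 0) := by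
    intro y z h
    have h1 := abs_le.1 (hT y z h)
    have h2 : |f y / δ - f z / δ| ≤ 1 := by
      rw [← sub_div, abs_div, abs_of_pos hδ, div_le_one hδ]
      exact hT y z h
    have h3 := abs_le.1 h2
    have a1 : (k y : ℝ) ≤ f y / δ := by
      rw [hk]
      exact Int.floor_le _
    have a2 : f y / δ < k y + 1 := by
      rw [hk]
      exact Int.lt_floor_add_one _
    have a3 : (k z : ℝ) ≤ f z / δ := by
      rw [hk]
      exact Int.floor_le _
    have a4 : f z / δ < k z + 1 := by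
      rw [hk]
      exact Int.lt_floor_add_one _
    have b1 : (k y : ℝ) < k z + 2 := by linarith [h3.2]
    have b2 : (k z : ℝ) < k y + 2 := by linarith [h3.1]
    have c1 : k y < k z + 2 := by exact_mod_cast b1
    have c2 : k z < k y + 2 := by exact_mod_cast b2
    have c3 : k y = k z + 1 ∨ k y = k z ∨ k y + 1 = k z := by omega
    rcases c3 with c | c | c
    · rw [if_pos c, if_neg (by omega), c]
      push_cast
      ring
    · rw [if_neg (by omega), if_neg (by omega), c]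
      ring
    · rw [if_neg (by omega), if_pos c, ← c]
      push_cast
      ring
  have hsplit : ∀ y z, (starRingEnd ℂ) (a y) * b z * (((f y - f z : ℝ) : ℂ) * ent T y z) =
      (starRingEnd ℂ) ((r y : ℂ) * a y) * b z * ent T y z
      - (starRingEnd ℂ) (a y) * ((r z : ℂ) * b z) * ent T y z
      + (δ : ℂ) * ((starRingEnd ℂ) (a y) * b z *
        ((if k y = k z + 1 then (1 : ℂ) else 0) * ent T y z))
      - (δ : ℂ) * ((starRingEnd ℂ) (a y) * b z *
        ((if k y + 1 = k z then (1 : ℂ) else 0) * ent T y z)) := by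
    intro y z
    have hfy : (f y : ℂ) = r y + k y * δ := by
      rw [hr]
      push_cast
      ring
    have hfz : (f z : ℂ) = r z + k z * δ := by
      rw [hr]
      push_cast
      ring
    by_cases h : ent T y z = 0
    · rw [h]
      ring
    · have h1 := hkk y z h
      rw [map_mul, Complex.conj_ofReal, Complex.ofReal_sub, hfy, hfz]
      have h2 : (r y : ℂ) + k y * δ - (r z + k z * δ) = r y - r z + δ * ((k y : ℂ) - k z) := by
        ring
      rw [h2, h1]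
      ring
  have hA : 0 ≤ ∑ y ∈ S, ‖a y‖ ^ 2 := Finset.sum_nonneg fun _ _ => by positivity
  have hB : 0 ≤ ∑ y ∈ S', ‖b y‖ ^ 2 := Finset.sum_nonneg fun _ _ => by positivity
  have hnr : ∀ (Q : Finset Y) (c : Y → ℂ),
      ∑ y ∈ Q, ‖((r y / δ : ℝ) : ℂ) * c y‖ ^ 2 ≤ ∑ y ∈ Q, ‖c y‖ ^ 2 := by
    intro Q c
    refine Finset.sum_le_sum fun y _ => ?_
    rw [norm_mul, mul_pow]
    have h1 : ‖((r y / δ : ℝ) : ℂ)‖ ≤ 1 := by
      rw [Complex.norm_real, Real.norm_eq_abs, abs_div, abs_of_pos hδ, div_le_one hδ]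
      exact hr0 y
    have h2 : ‖((r y / δ : ℝ) : ℂ)‖ ^ 2 ≤ 1 := pow_le_one₀ (norm_nonneg _) h1
    calc _ ≤ 1 * ‖c y‖ ^ 2 := mul_le_mul_of_nonneg_right h2 (by positivity)
      _ = _ := one_mul _
  have hrδ : ∀ y, (r y : ℂ) = δ * ((r y / δ : ℝ) : ℂ) := by
    intro y
    have : (δ : ℂ) ≠ 0 := by exact_mod_cast hδ.ne'
    push_cast
    field_simp
  -- the four parts
  have e1 : ‖∑ y ∈ S, ∑ z ∈ S', (starRingEnd ℂ) ((r y : ℂ) * a y) * b z * ent T y z‖ ≤
      δ * (‖T‖ * ((∑ y ∈ S, ‖a y‖ ^ 2 + ∑ z ∈ S', ‖b z‖ ^ 2) / 2)) := by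
    have h1 : ∑ y ∈ S, ∑ z ∈ S', (starRingEnd ℂ) ((r y : ℂ) * a y) * b z * ent T y z =
        (δ : ℂ) * ∑ y ∈ S, ∑ z ∈ S',
          (starRingEnd ℂ) (((r y / δ : ℝ) : ℂ) * a y) * b z * ent T y z := by
      rw [Finset.mul_sum]
      refine Finset.sum_congr rfl fun y _ => ?_
      rw [Finset.mul_sum]
      refine Finset.sum_congr rfl fun z _ => ?_
      rw [hrδ y, mul_assoc (δ : ℂ), map_mul (starRingEnd ℂ) (δ : ℂ), Complex.conj_ofReal]
      ring
    rw [h1, norm_mul, Complex.norm_real, Real.norm_eq_abs, abs_of_pos hδ]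
    refine mul_le_mul_of_nonneg_left ?_ hδ.le
    refine (norm_inner_fv_le T S S' (fun y => ((r y / δ : ℝ) : ℂ) * a y) b).trans ?_
    refine mul_le_mul_of_nonneg_left ?_ (norm_nonneg T)
    have := hnr S a
    linarith
  have e2 : ‖∑ y ∈ S, ∑ z ∈ S', (starRingEnd ℂ) (a y) * ((r z : ℂ) * b z) * ent T y z‖ ≤
      δ * (‖T‖ * ((∑ y ∈ S, ‖a y‖ ^ 2 + ∑ z ∈ S', ‖b z‖ ^ 2) / 2)) := by
    have h1 : ∑ y ∈ S, ∑ z ∈ S', (starRingEnd ℂ) (a y) * ((r z : ℂ) * b z) * ent T y z =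
        (δ : ℂ) * ∑ y ∈ S, ∑ z ∈ S',
          (starRingEnd ℂ) (a y) * (((r z / δ : ℝ) : ℂ) * b z) * ent T y z := by
      rw [Finset.mul_sum]
      refine Finset.sum_congr rfl fun y _ => ?_
      rw [Finset.mul_sum]
      refine Finset.sum_congr rfl fun z _ => ?_
      rw [hrδ z]
      ring
    rw [h1, norm_mul, Complex.norm_real, Real.norm_eq_abs, abs_of_pos hδ]
    refine mul_le_mul_of_nonneg_left ?_ hδ.le
    refine (norm_inner_fv_le T S S' a (fun z => ((r z / δ : ℝ) : ℂ) * b z)).trans ?_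
    refine mul_le_mul_of_nonneg_left ?_ (norm_nonneg T)
    have := hnr S' b
    linarith
  have e3 := comm_band T k (fun z => k z + 1) S S' a b
  have e4 := comm_band T (fun y => k y + 1) k S S' a b
  have hsum : ∑ y ∈ S, ∑ z ∈ S', (starRingEnd ℂ) (a y) * b z *
      (((f y - f z : ℝ) : ℂ) * ent T y z) =
      (∑ y ∈ S, ∑ z ∈ S', (starRingEnd ℂ) ((r y : ℂ) * a y) * b z * ent T y z)
      - (∑ y ∈ S, ∑ z ∈ S', (starRingEnd ℂ) (a y) * ((r z : ℂ) * b z) * ent T y z)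
      + (δ : ℂ) * (∑ y ∈ S, ∑ z ∈ S', (starRingEnd ℂ) (a y) * b z *
        ((if k y = k z + 1 then (1 : ℂ) else 0) * ent T y z))
      - (δ : ℂ) * (∑ y ∈ S, ∑ z ∈ S', (starRingEnd ℂ) (a y) * b z *
        ((if k y + 1 = k z then (1 : ℂ) else 0) * ent T y z)) := by
    simp only [Finset.mul_sum]
    rw [← Finset.sum_sub_distrib, ← Finset.sum_add_distrib, ← Finset.sum_sub_distrib]
    refine Finset.sum_congr rfl fun y _ => ?_
    rw [← Finset.sum_sub_distrib, ← Finset.sum_add_distrib, ← Finset.sum_sub_distrib]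
    exact Finset.sum_congr rfl fun z _ => hsplit y z
  rw [hsum]
  obtain ⟨M, hM⟩ : ∃ M, M = ‖T‖ * ((∑ y ∈ S, ‖a y‖ ^ 2 + ∑ z ∈ S', ‖b z‖ ^ 2) / 2) := ⟨_, rfl⟩
  rw [← hM] at e1 e2 e3 e4
  have e3' : ‖(δ : ℂ) * (∑ y ∈ S, ∑ z ∈ S', (starRingEnd ℂ) (a y) * b z *
        ((if k y = k z + 1 then (1 : ℂ) else 0) * ent T y z))‖ ≤ δ * M := by
    rw [norm_mul, Complex.norm_real, Real.norm_eq_abs, abs_of_pos hδ]
    exact mul_le_mul_of_nonneg_left e3 hδ.le
  have e4' : ‖(δ : ℂ) * (∑ y ∈ S, ∑ z ∈ S', (starRingEnd ℂ) (a y) * b z *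
        ((if k y + 1 = k z then (1 : ℂ) else 0) * ent T y z))‖ ≤ δ * M := by
    rw [norm_mul, Complex.norm_real, Real.norm_eq_abs, abs_of_pos hδ]
    exact mul_le_mul_of_nonneg_left e4 hδ.le
  have hfin : 4 * δ * ‖T‖ * ((∑ y ∈ S, ‖a y‖ ^ 2 + ∑ z ∈ S', ‖b z‖ ^ 2) / 2) = 4 * (δ * M) := by
    rw [hM]
    ring
  rw [hfin]
  refine (norm_sub_le _ _).trans ?_
  have s1 := norm_add_le ((∑ y ∈ S, ∑ z ∈ S', (starRingEnd ℂ) ((r y : ℂ) * a y) * b z * ent T y z)
      - (∑ y ∈ S, ∑ z ∈ S', (starRingEnd ℂ) (a y) * ((r z : ℂ) * b z) * ent T y z))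
      ((δ : ℂ) * (∑ y ∈ S, ∑ z ∈ S', (starRingEnd ℂ) (a y) * b z *
        ((if k y = k z + 1 then (1 : ℂ) else 0) * ent T y z)))
  have s2 := norm_sub_le (∑ y ∈ S, ∑ z ∈ S', (starRingEnd ℂ) ((r y : ℂ) * a y) * b z * ent T y z)
      (∑ y ∈ S, ∑ z ∈ S', (starRingEnd ℂ) (a y) * ((r z : ℂ) * b z) * ent T y z)
  linarith

/-- the matrix of `C` is symmetric -/
private theorem comm_symm (C : L2 Y →L[ℂ] L2 Y)
    (f : W → Y → ℝ) (N : Y → Finset W) (σ : W → Y → Y)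
    (hfN : ∀ w y, f w y ≠ 0 → w ∈ N y)
    (hσ : ∀ w y, σ w (σ w y) = y) (hσf : ∀ w v y, f v (σ w y) = f v y)
    (hC : ∀ y, C (bv y) = ∑ w ∈ N y, (f w y : ℂ) • bv (σ w y)) (y : Y)
    (ξ : L2 Y) :
    inner ℂ (bv y) (C ξ) = ∑ w ∈ N y, (f w y : ℂ) * ξ (σ w y) := by
  have h0 : ∀ z, inner ℂ (bv y) (C (bv z)) =
      ∑ w ∈ N y, (f w y : ℂ) * (bv z : L2 Y) (σ w y) := by
    intro z
    rw [hC, inner_sum]
    have h1 : ∑ w ∈ N z, inner ℂ (bv y) ((f w z : ℂ) • bv (σ w z)) =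
        ∑ w ∈ N y ∪ N z, (f w z : ℂ) * (if y = σ w z then (1 : ℂ) else 0) := by
      rw [← Finset.sum_subset (Finset.subset_union_right : N z ⊆ N y ∪ N z)]
      · refine Finset.sum_congr rfl fun w _ => ?_
        rw [inner_smul_right, inner_bv, bv_apply]
      · intro w _ hw
        have : f w z = 0 := by
          by_contra h
          exact hw (hfN w z h)
        rw [this]
        simp
    have h2 : ∑ w ∈ N y, (f w y : ℂ) * (bv z : L2 Y) (σ w y) =
        ∑ w ∈ N y ∪ N z, (f w y : ℂ) * (if σ w y = z then (1 : ℂ) else 0) := by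
      rw [← Finset.sum_subset (Finset.subset_union_left : N y ⊆ N y ∪ N z)]
      · refine Finset.sum_congr rfl fun w _ => ?_
        rw [bv_apply]
      · intro w _ hw
        have : f w y = 0 := by
          by_contra h
          exact hw (hfN w y h)
        rw [this]
        simp
    rw [h1, h2]
    refine Finset.sum_congr rfl fun w _ => ?_
    by_cases h : y = σ w z
    · have h3 : σ w y = z := by rw [h, hσ]
      rw [if_pos h, if_pos h3, h, hσf]
    · have h3 : σ w y ≠ z := by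
        intro h4
        apply h
        rw [← h4, hσ]
      rw [if_neg h, if_neg h3]
      ring
  have h1 : ∀ S : Finset Y, inner ℂ (bv y) (C (fv S fun z => ξ z)) =
      ∑ w ∈ N y, (f w y : ℂ) * (fv S (fun z => ξ z)) (σ w y) := by
    intro S
    have h2 : ∀ w, (fv S (fun z => ξ z)) (σ w y) =
        ∑ z ∈ S, ξ z * (bv z : L2 Y) (σ w y) := by
      intro w
      rw [← inner_bv]
      unfold fv
      rw [inner_sum]
      refine Finset.sum_congr rfl fun z _ => ?_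
      rw [inner_smul_right, inner_bv]
    have h3 : C (fv S fun z => ξ z) = ∑ z ∈ S, ξ z • C (bv z) := by
      unfold fv
      rw [map_sum]
      refine Finset.sum_congr rfl fun z _ => ?_
      rw [map_smul]
    rw [h3, inner_sum]
    have h4 : ∀ z ∈ S, inner ℂ (bv y) (ξ z • C (bv z)) =
        ∑ w ∈ N y, (f w y : ℂ) * (ξ z * (bv z : L2 Y) (σ w y)) := by
      intro z _
      rw [inner_smul_right, h0, Finset.mul_sum]
      refine Finset.sum_congr rfl fun w _ => ?_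
      ring
    rw [Finset.sum_congr rfl h4, Finset.sum_comm]
    refine Finset.sum_congr rfl fun w _ => ?_
    rw [h2, Finset.mul_sum]
  have t1 : Filter.Tendsto (fun S : Finset Y => inner ℂ (bv y) (C (fv S fun z => ξ z)))
      Filter.atTop (nhds (inner ℂ (bv y) (C ξ))) :=
    tendsto_const_nhds.inner ((C.continuous.tendsto ξ).comp (fv_tendsto ξ))
  have t2 : Filter.Tendsto (fun S : Finset Y => ∑ w ∈ N y, (f w y : ℂ) *
      (fv S (fun z => ξ z)) (σ w y)) Filter.atTop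
      (nhds (∑ w ∈ N y, (f w y : ℂ) * ξ (σ w y))) := by
    refine tendsto_finsetSum _ fun w _ => ?_
    refine Filter.Tendsto.const_mul _ ?_
    have h5 : (fun S : Finset Y => (fv S (fun z => ξ z)) (σ w y)) =
        fun S : Finset Y => inner ℂ (bv (σ w y)) (fv S fun z => ξ z) := by
      funext S
      rw [inner_bv]
    rw [h5, ← inner_bv]
    exact tendsto_const_nhds.inner (fv_tendsto ξ)
  refine tendsto_nhds_unique t1 ?_
  rw [funext h1]
  exact t2

theorem comm_le (T C : L2 Y →L[ℂ] L2 Y)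
    (f : W → Y → ℝ) (N : Y → Finset W) (σ : W → Y → Y) {m : ℕ} {δ : ℝ} (hδ : 0 < δ)
    (hN : ∀ y, (N y).card ≤ m) (hfN : ∀ w y, f w y ≠ 0 → w ∈ N y)
    (hσ : ∀ w y, σ w (σ w y) = y) (hσf : ∀ w v y, f v (σ w y) = f v y)
    (hσN : ∀ w y, N (σ w y) = N y)
    (hσT : ∀ w y z, ent T (σ w y) (σ w z) = ent T y z)
    (hC : ∀ y, C (bv y) = ∑ w ∈ N y, (f w y : ℂ) • bv (σ w y))
    (hT : ∀ y z, ent T y z ≠ 0 → ∀ w, |f w y - f w z| ≤ δ)
    (hTN : ∀ y z, ent T y z ≠ 0 → ∀ w, (f w y ≠ 0 → w ∈ N z) ∧ (f w z ≠ 0 → w ∈ N y)) :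
    ‖C.comp T - T.comp C‖ ≤ 4 * m * δ * ‖T‖ := by
  refine norm_le_of_fv _ (by positivity) fun S a b => ?_
  -- the matrix of the commutator
  have hent : ∀ y z, ent (C.comp T - T.comp C) y z =
      ∑ w ∈ N y ∩ N z, (((f w y - f w z : ℝ) : ℂ) * ent T (σ w y) z) := by
    intro y z
    have h1 : ent (C.comp T - T.comp C) y z =
        ∑ w ∈ N y, (f w y : ℂ) * ent T (σ w y) z - ∑ w ∈ N z, (f w z : ℂ) * ent T (σ w y) z := by
      rw [ent_eq]
      change inner ℂ (bv y) (C (T (bv z)) - T (C (bv z))) = _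
      rw [inner_sub_right, comm_symm C f N σ hfN hσ hσf hC]
      congr 1
      rw [hC, map_sum, inner_sum]
      refine Finset.sum_congr rfl fun w _ => ?_
      rw [map_smul, inner_smul_right, ← ent_eq, ← hσT w y, hσ]
    rw [h1]
    have h2 : ∑ w ∈ N y, (f w y : ℂ) * ent T (σ w y) z =
        ∑ w ∈ N y ∩ N z, (f w y : ℂ) * ent T (σ w y) z := by
      symm
      refine Finset.sum_subset Finset.inter_subset_left fun w hw hw2 => ?_
      by_contra h
      have h3 : ent T (σ w y) z ≠ 0 := right_ne_zero_of_mul h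
      have h4 : f w y ≠ 0 := by
        have := left_ne_zero_of_mul h
        exact_mod_cast this
      have h5 := (hTN _ _ h3 w).1 (by rwa [hσf])
      exact hw2 (Finset.mem_inter.2 ⟨hw, h5⟩)
    have h2' : ∑ w ∈ N z, (f w z : ℂ) * ent T (σ w y) z =
        ∑ w ∈ N y ∩ N z, (f w z : ℂ) * ent T (σ w y) z := by
      symm
      refine Finset.sum_subset Finset.inter_subset_right fun w hw hw2 => ?_
      by_contra h
      have h3 : ent T (σ w y) z ≠ 0 := right_ne_zero_of_mul h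
      have h4 : f w z ≠ 0 := by
        have := left_ne_zero_of_mul h
        exact_mod_cast this
      have h5 := (hTN _ _ h3 w).2 h4
      rw [hσN] at h5
      exact hw2 (Finset.mem_inter.2 ⟨h5, hw⟩)
    rw [h2, h2', ← Finset.sum_sub_distrib]
    refine Finset.sum_congr rfl fun w _ => ?_
    push_cast
    ring
  obtain ⟨W0, hW0⟩ : ∃ W0 : Finset W, W0 = S.biUnion N := ⟨_, rfl⟩
  have hW : ∀ y ∈ S, ∀ w ∈ N y, w ∈ W0 := fun y hy w hw => by
    rw [hW0]
    exact Finset.mem_biUnion.2 ⟨y, hy, hw⟩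
  -- functions cut to `w ∈ N y`
  let ca : W → (Y → ℂ) → Y → ℂ := fun w c y => if w ∈ N y then c y else 0
  have hsum : ∑ y ∈ S, ∑ z ∈ S, (starRingEnd ℂ) (a y) * b z * ent (C.comp T - T.comp C) y z =
      ∑ w ∈ W0, ∑ y ∈ S, ∑ z ∈ S, (starRingEnd ℂ) (ca w a y) * ca w b z *
        (((f w y - f w z : ℝ) : ℂ) * ent T (σ w y) z) := by
    have h2 : ∀ y ∈ S, ∀ z ∈ S, (starRingEnd ℂ) (a y) * b z * ent (C.comp T - T.comp C) y z =
        ∑ w ∈ W0, (starRingEnd ℂ) (ca w a y) * ca w b z *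
        (((f w y - f w z : ℝ) : ℂ) * ent T (σ w y) z) := by
      intro y hy z hz
      rw [hent, Finset.mul_sum]
      have h3 : N y ∩ N z ⊆ W0 := fun w hw => hW y hy w (Finset.mem_inter.1 hw).1
      rw [← Finset.sum_subset h3]
      · refine Finset.sum_congr rfl fun w hw => ?_
        have h4 := Finset.mem_inter.1 hw
        simp only [ca, if_pos h4.1, if_pos h4.2]
      · intro w _ hw
        by_cases h5 : w ∈ N y
        · have h6 : w ∉ N z := fun h7 => hw (Finset.mem_inter.2 ⟨h5, h7⟩)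
          simp only [ca, if_neg h6]
          ring
        · simp only [ca, if_neg h5, map_zero]
          ring
    symm
    rw [Finset.sum_comm]
    refine Finset.sum_congr rfl fun y hy => ?_
    rw [Finset.sum_comm]
    refine Finset.sum_congr rfl fun z hz => ?_
    exact (h2 y hy z hz).symm
  rw [hsum]
  have hterm : ∀ w ∈ W0, ‖∑ y ∈ S, ∑ z ∈ S, (starRingEnd ℂ) (ca w a y) * ca w b z *
        (((f w y - f w z : ℝ) : ℂ) * ent T (σ w y) z)‖ ≤
      4 * δ * ‖T‖ * ((∑ y ∈ S, ‖ca w a y‖ ^ 2 + ∑ z ∈ S, ‖ca w b z‖ ^ 2) / 2) := by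
    intro w _
    have hinj : Set.InjOn (σ w) S := fun y _ z _ h => by
      rw [← hσ w y, h, hσ]
    have h1 := comm_one T (f w) hδ (fun y z h => hT y z h w) (S.image (σ w)) S
      (fun y => ca w a (σ w y)) (ca w b)
    rw [Finset.sum_image hinj, Finset.sum_image hinj] at h1
    simp only [hσ, hσf] at h1
    exact h1
  refine (norm_sum_le _ _).trans ((Finset.sum_le_sum hterm).trans ?_)
  rw [← Finset.mul_sum, ← Finset.sum_div, Finset.sum_add_distrib]
  have hcut : ∀ c : Y → ℂ, ∑ w ∈ W0, ∑ y ∈ S, ‖ca w c y‖ ^ 2 ≤ m * ∑ y ∈ S, ‖c y‖ ^ 2 := by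
    intro c
    rw [Finset.sum_comm, Finset.mul_sum]
    refine Finset.sum_le_sum fun y _ => ?_
    have h4 : ∀ w, ‖ca w c y‖ ^ 2 = if w ∈ N y then ‖c y‖ ^ 2 else 0 := by
      intro w
      simp only [ca]
      split_ifs
      · rfl
      · rw [norm_zero]
        norm_num
    rw [Finset.sum_congr rfl fun w _ => h4 w, ← Finset.sum_filter, Finset.sum_const, nsmul_eq_mul]
    refine mul_le_mul_of_nonneg_right ?_ (by positivity)
    have h5 : (W0.filter fun w => w ∈ N y).card ≤ (N y).card :=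
      Finset.card_le_card fun w hw => (Finset.mem_filter.1 hw).2
    exact_mod_cast h5.trans (hN y)
  have g1 := hcut a
  have g2 := hcut b
  have g3 : (0 : ℝ) ≤ 4 * δ * ‖T‖ := by positivity
  calc 4 * δ * ‖T‖ * ((∑ w ∈ W0, ∑ y ∈ S, ‖ca w a y‖ ^ 2 +
          ∑ w ∈ W0, ∑ y ∈ S, ‖ca w b y‖ ^ 2) / 2)
      ≤ 4 * δ * ‖T‖ * ((m * ∑ y ∈ S, ‖a y‖ ^ 2 + m * ∑ y ∈ S, ‖b y‖ ^ 2) / 2) := by
        refine mul_le_mul_of_nonneg_left ?_ g3
        linarith
    _ = _ := by ring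

end

end P089.AM
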