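import Vale.Agent.Lib.P089.AM.Comm

/-!
# P089, part AM: the commutator estimate for the Rips complex `P_F(G)`

`Y = E × (G × (Pt G × ℕ))`, `C (bv (e, y)) = ∑_w √(x_w) bv (s w e, y)`, `x = pos y`, cut to the basis
vectors with position in `P_F(G)`.
-/

namespace P089.AM

open scoped Classical

noncomputable section

variable {G : Type} [Group G]

/-- coordinate `√x_w`, cut to `P_F(G)` -/
def rt (F : Finset G) (w : G) (x : Pt G) : ℝ := if InP F x then Real.sqrt ((x.1 w : ℚ) : ℝ) else 0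

omit [Group G] in
theorem Pt_support_nonempty (x : Pt G) : ∃ g, x.1 g ≠ 0 := by
  by_contra h
  push Not at h
  have h1 : x.1 = 0 := Finsupp.ext h
  have h2 := x.2.2
  rw [h1] at h2
  simp at h2

omit [Group G] in
theorem Pt_sum_real (x : Pt G) : ∑ g ∈ x.1.support, ((x.1 g : ℚ) : ℝ) = 1 := by
  have h := x.2.2
  exact_mod_cast h

omit [Group G] in
theorem coord_le_dist1 (x y : Pt G) (w : G) :
    |((x.1 w : ℚ) : ℝ) - ((y.1 w : ℚ) : ℝ)| ≤ dist1 x y := by
  by_cases h : w ∈ x.1.support ∪ y.1.support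
  · exact Finset.single_le_sum (f := fun g => |((x.1 g : ℚ) : ℝ) - ((y.1 g : ℚ) : ℝ)|)
      (fun _ _ => abs_nonneg _) h
  · rw [Finset.mem_union, not_or, Finsupp.notMem_support_iff, Finsupp.notMem_support_iff] at h
    rw [h.1, h.2]
    simp only [Rat.cast_zero, sub_self, abs_zero]
    exact Finset.sum_nonneg fun _ _ => abs_nonneg _

omit [Group G] in
/-- points at distance less than `1` have a common vertex -/
theorem exists_common (x y : Pt G) (h : dist1 x y < 1) : ∃ u, x.1 u ≠ 0 ∧ y.1 u ≠ 0 := by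
  by_contra hcon
  push Not at hcon
  have h1 : (1 : ℝ) ≤ dist1 x y := by
    rw [← Pt_sum_real x]
    unfold dist1
    refine (Finset.sum_le_sum fun g hg => ?_).trans
      (Finset.sum_le_sum_of_subset_of_nonneg Finset.subset_union_left
        (f := fun g => |((x.1 g : ℚ) : ℝ) - ((y.1 g : ℚ) : ℝ)|) fun _ _ _ => abs_nonneg _)
    have h2 := hcon g (Finsupp.mem_support_iff.1 hg)
    rw [h2]
    simp only [Rat.cast_zero, sub_zero]
    exact le_abs_self _
  linarith

theorem sqrt_sub_abs_le {a b : ℝ} (ha : 0 ≤ a) (hb : 0 ≤ b) :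
    |Real.sqrt a - Real.sqrt b| ≤ Real.sqrt |a - b| := by
  refine Real.le_sqrt_of_sq_le ?_
  have h1 : (Real.sqrt a - Real.sqrt b) * (Real.sqrt a + Real.sqrt b) = a - b := by
    ring_nf
    rw [Real.sq_sqrt ha, Real.sq_sqrt hb]
  have h2 := Real.sqrt_nonneg a
  have h3 := Real.sqrt_nonneg b
  rw [← h1, abs_mul, sq, abs_of_nonneg (add_nonneg h2 h3)]
  refine mul_le_mul_of_nonneg_left ?_ (abs_nonneg _)
  rw [abs_le]
  constructor <;> linarith

theorem rt_sub_le (F : Finset G) {x y : Pt G} (hx : InP F x) (hy : InP F y) {ε : ℝ}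
    (h : dist1 x y < ε) (w : G) : |rt F w x - rt F w y| ≤ Real.sqrt ε := by
  unfold rt
  rw [if_pos hx, if_pos hy]
  have hx0 : (0 : ℝ) ≤ ((x.1 w : ℚ) : ℝ) := by exact_mod_cast x.2.1 w
  have hy0 : (0 : ℝ) ≤ ((y.1 w : ℚ) : ℝ) := by exact_mod_cast y.2.1 w
  exact (sqrt_sub_abs_le hx0 hy0).trans
    (Real.sqrt_le_sqrt ((coord_le_dist1 x y w).trans h.le))

/-- vertices near a point of `P_F(G)` -/
def nb (F : Finset G) (x : Pt G) : Finset G :=
  if InP F x then x.1.support.biUnion fun v => F.image fun f => v * f else ∅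

theorem card_support_le (F : Finset G) {x : Pt G} (hx : InP F x) : x.1.support.card ≤ F.card := by
  obtain ⟨u, hu⟩ := Pt_support_nonempty x
  refine Finset.card_le_card_of_injOn (fun v => u⁻¹ * v) (fun v hv => ?_)
    (fun v _ v' _ h => mul_left_cancel h)
  exact hx u v hu (Finsupp.mem_support_iff.1 hv)

theorem card_nb_le (F : Finset G) (x : Pt G) : (nb F x).card ≤ F.card ^ 2 := by
  unfold nb
  split_ifs with h
  · refine Finset.card_biUnion_le.trans ?_
    refine (Finset.sum_le_card_nsmul _ _ F.card fun v _ => Finset.card_image_le).trans ?_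
    rw [smul_eq_mul, sq]
    exact Nat.mul_le_mul_right _ (card_support_le F h)
  · simp

theorem rt_mem_nb (F : Finset G) {w : G} {x : Pt G} (h : rt F w x ≠ 0) : w ∈ nb F x := by
  unfold rt at h
  unfold nb
  split_ifs at h ⊢ with hx
  · have hw : x.1 w ≠ 0 := by
      intro h0
      apply h
      rw [h0]
      simp
    refine Finset.mem_biUnion.2 ⟨w, Finsupp.mem_support_iff.2 hw, ?_⟩
    refine Finset.mem_image.2 ⟨1, ?_, mul_one w⟩
    have := hx w w hw hw
    rwa [inv_mul_cancel] at this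
  · exact absurd rfl h

theorem rt_mem_nb' (F : Finset G) {w : G} {x y : Pt G} (hx : InP F x) (hy : InP F y)
    (hd : dist1 x y < 1) (h : rt F w x ≠ 0) : w ∈ nb F y := by
  unfold rt at h
  rw [if_pos hx] at h
  have hw : x.1 w ≠ 0 := by
    intro h0
    apply h
    rw [h0]
    simp
  obtain ⟨u, hu, hu'⟩ := exists_common x y hd
  unfold nb
  rw [if_pos hy]
  refine Finset.mem_biUnion.2 ⟨u, Finsupp.mem_support_iff.2 hu', ?_⟩
  exact Finset.mem_image.2 ⟨u⁻¹ * w, hx u w hu hw, mul_inv_cancel_left u w⟩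

omit [Group G] in
theorem dist1_comm (x y : Pt G) : dist1 x y = dist1 y x := by
  unfold dist1
  rw [Finset.union_comm]
  exact Finset.sum_congr rfl fun g _ => abs_sub_comm _ _

/-- commutator estimate on `P_F(G)` -/
theorem comm_pos {E : Type} (F : Finset G) {ε : ℝ} (hε : 0 < ε) (hε1 : ε ≤ 1)
    (T C : L2 (E × (G × (Pt G × ℕ))) →L[ℂ] L2 (E × (G × (Pt G × ℕ)))) (s : G → E → E)
    (hs : ∀ w e, s w (s w e) = e)
    (hsT : ∀ w e e' y y', ent T (s w e, y) (s w e', y') = ent T (e, y) (e', y'))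
    (hT : ∀ y z, ent T y z ≠ 0 →
      InP F (pos y.2) ∧ InP F (pos z.2) ∧ dist1 (pos y.2) (pos z.2) < ε)
    (hC : ∀ e y, C (bv (e, y)) =
      ∑ w ∈ (pos y).1.support, (rt F w (pos y) : ℂ) • bv (s w e, y)) :
    ‖C.comp T - T.comp C‖ ≤ 4 * F.card ^ 2 * Real.sqrt ε * ‖T‖ := by
  have key := comm_le (W := G) T C (fun w y => rt F w (pos y.2)) (fun y => nb F (pos y.2))
    (fun w y => (s w y.1, y.2)) (m := F.card ^ 2) (Real.sqrt_pos.2 hε)
    (fun y => card_nb_le F _) (fun w y h => rt_mem_nb F h)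
    (fun w y => by simp only [hs]) (fun _ _ _ => rfl) (fun _ _ => rfl)
    (fun w y z => hsT w y.1 z.1 y.2 z.2) ?_ ?_ ?_
  · push_cast at key
    exact key
  · intro y
    rw [show y = (y.1, y.2) from rfl, hC]
    have h1 : (pos y.2).1.support.filter (fun w => rt F w (pos y.2) ≠ 0) =
        (nb F (pos y.2)).filter (fun w => rt F w (pos y.2) ≠ 0) := by
      ext w
      rw [Finset.mem_filter, Finset.mem_filter]
      refine and_congr_left fun h => ?_
      have h2 : (pos y.2).1 w ≠ 0 := by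
        intro h0
        apply h
        unfold rt
        rw [h0]
        simp
      exact ⟨fun _ => rt_mem_nb F h, fun _ => Finsupp.mem_support_iff.2 h2⟩
    have h3 : ∀ Q : Finset G, ∑ w ∈ Q, (rt F w (pos y.2) : ℂ) • (bv (s w y.1, y.2) :
        L2 (E × (G × (Pt G × ℕ)))) = ∑ w ∈ Q.filter (fun w => rt F w (pos y.2) ≠ 0),
          (rt F w (pos y.2) : ℂ) • bv (s w y.1, y.2) := by
      intro Q
      rw [Finset.sum_filter]
      refine Finset.sum_congr rfl fun w _ => ?_
      split_ifs with h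
      · rfl
      · push Not at h
        rw [h]
        simp
    rw [h3, h1, ← h3]
  · intro y z h w
    obtain ⟨h1, h2, h3⟩ := hT y z h
    exact rt_sub_le F h1 h2 h3 w
  · intro y z h w
    obtain ⟨h1, h2, h3⟩ := hT y z h
    refine ⟨fun h4 => rt_mem_nb' F h1 h2 (h3.trans_le hε1) h4, fun h4 => ?_⟩
    rw [dist1_comm] at h3
    exact rt_mem_nb' F h2 h1 (h3.trans_le hε1) h4

end

end P089.AM
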