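import Mathlib

/-!
# P089, part AM, [Tr]: the abstract corner lemma

`x = a b`, `y = b a` idempotents, `e` an idempotent commuting with `x` and `y` which almost commutes
with `a` and `b`.  Then `e x` and `e y` are equivalent through elements of the corner of `e`.
-/

namespace P089.AM

variable {R : Type*} [NormedRing R] [CompleteSpace R]

theorem corner_lift {x y a b e : R} (hx : x * x = x) (hy : y * y = y) (hab : a * b = x)
    (hba : b * a = y) (hxa : x * a = a) (hay : a * y = a) (hyb : y * b = b) (hbx : b * x = b)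
    (he : e * e = e) (hex : e * x = x * e) (hey : e * y = y * e)
    (h1 : ‖e * x - e * a * e * b * e‖ < 1) (h2 : ‖e * y - e * b * e * a * e‖ < 1) :
    ∃ a' b' : R, a' * b' = e * x ∧ b' * a' = e * y ∧ e * a' * e = a' ∧ e * b' * e = b' := by
  obtain ⟨p, hp⟩ : ∃ p : R, p = e * x := ⟨_, rfl⟩
  obtain ⟨q, hq⟩ : ∃ q : R, q = e * y := ⟨_, rfl⟩
  obtain ⟨a1, ha1⟩ : ∃ a1 : R, a1 = e * a * e := ⟨_, rfl⟩
  obtain ⟨b1, hb1⟩ : ∃ b1 : R, b1 = e * b * e := ⟨_, rfl⟩
  rw [← hp, ← hq]
  have hee : ∀ z : R, e * (e * z) = e * z := fun z => by rw [← mul_assoc, he]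
  have e1 : a1 * b1 = e * a * e * b * e := by
    rw [ha1, hb1]
    simp only [mul_assoc, hee]
  have e2 : b1 * a1 = e * b * e * a * e := by
    rw [ha1, hb1]
    simp only [mul_assoc, hee]
  rw [← e1, ← hp] at h1
  rw [← e2, ← hq] at h2
  -- `p`, `q` are units of the corners
  have hpe : p * e = p := by rw [hp, mul_assoc, ← hex, ← mul_assoc, he]
  have hqe : q * e = q := by rw [hq, mul_assoc, ← hey, ← mul_assoc, he]
  have hep : e * p = p := by rw [hp, ← mul_assoc, he]
  have heq : e * q = q := by rw [hq, ← mul_assoc, he]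
  have hpp : p * p = p := by
    calc p * p = p * e * x := by rw [hp]; simp only [mul_assoc]
      _ = p * x := by rw [hpe]
      _ = p := by rw [hp, mul_assoc, hx]
  have hqq : q * q = q := by
    calc q * q = q * e * y := by rw [hq]; simp only [mul_assoc]
      _ = q * y := by rw [hqe]
      _ = q := by rw [hq, mul_assoc, hy]
  have hpa : p * a1 = a1 := by
    calc p * a1 = p * e * (a * e) := by rw [ha1]; simp only [mul_assoc]
      _ = e * (x * a) * e := by rw [hpe, hp]; simp only [mul_assoc]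
      _ = a1 := by rw [hxa, ha1]
  have hbp : b1 * p = b1 := by
    calc b1 * p = e * b * (e * e * x) := by rw [hb1, hp]; simp only [mul_assoc]
      _ = e * (b * x) * e := by rw [he, hex]; simp only [mul_assoc]
      _ = b1 := by rw [hbx, hb1]
  have haq : a1 * q = a1 := by
    calc a1 * q = e * a * (e * e * y) := by rw [ha1, hq]; simp only [mul_assoc]
      _ = e * (a * y) * e := by rw [he, hey]; simp only [mul_assoc]
      _ = a1 := by rw [hay, ha1]
  have hqb : q * b1 = b1 := by
    calc q * b1 = q * e * (b * e) := by rw [hb1]; simp only [mul_assoc]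
      _ = e * (y * b) * e := by rw [hqe, hq]; simp only [mul_assoc]
      _ = b1 := by rw [hyb, hb1]
  -- the inverses
  obtain ⟨u, hu⟩ : IsUnit (1 - (p - a1 * b1)) := isUnit_one_sub_of_norm_lt_one h1
  obtain ⟨u', hu'⟩ : IsUnit (1 - (q - b1 * a1)) := isUnit_one_sub_of_norm_lt_one h2
  have hup : (u : R) * p = a1 * b1 := by
    rw [hu, sub_mul, one_mul, sub_mul, hpp, mul_assoc, hbp, sub_sub_cancel]
  have hpu : p * (u : R) = a1 * b1 := by
    rw [hu, mul_sub, mul_one, mul_sub, hpp, ← mul_assoc, hpa, sub_sub_cancel]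
  have hqu' : q * (u' : R) = b1 * a1 := by
    rw [hu', mul_sub, mul_one, mul_sub, hqq, ← mul_assoc, hqb, sub_sub_cancel]
  obtain ⟨v, hv⟩ : ∃ v : R, v = ((u⁻¹ : Rˣ) : R) := ⟨_, rfl⟩
  have hvu : v * u = 1 := by rw [hv]; exact Units.inv_mul u
  have huv : (u : R) * v = 1 := by rw [hv]; exact Units.mul_inv u
  have hvp : v * p = p * v := by
    calc v * p = v * (p * (u * v)) := by rw [huv, mul_one]
      _ = v * (p * u) * v := by simp only [mul_assoc]
      _ = v * (u * p) * v := by rw [hpu, hup]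
      _ = p * v := by rw [← mul_assoc, hvu, one_mul]
  have hue : (u : R) * e = e * u := by
    rw [hu, sub_mul, mul_sub, one_mul, mul_one, sub_mul, mul_sub, hpe, hep]
    congr 2
    rw [ha1, hb1]
    simp only [mul_assoc, he, hee]
  have hve : v * e = e * v := by
    calc v * e = v * (e * (u * v)) := by rw [huv, mul_one]
      _ = v * (e * u) * v := by simp only [mul_assoc]
      _ = v * (u * e) * v := by rw [hue]
      _ = e * v := by rw [← mul_assoc, hvu, one_mul]
  have hea1 : e * a1 * e = a1 := by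
    rw [ha1]
    simp only [mul_assoc, he, hee]
  have heb1 : e * b1 = b1 := by
    rw [hb1]
    simp only [mul_assoc, hee]
  have hb1e : b1 * e = b1 := by
    rw [hb1]
    simp only [mul_assoc, he]
  refine ⟨a1, b1 * v, ?_, ?_, hea1, ?_⟩
  · calc a1 * (b1 * v) = a1 * b1 * v := by rw [mul_assoc]
      _ = p * (u * v) := by rw [← hpu, mul_assoc]
      _ = p := by rw [huv, mul_one]
  · -- `f = b1 v a1`
    have h3 : b1 * v * a1 * (q * u') = q * u' := by
      calc b1 * v * a1 * (q * u') = b1 * v * (a1 * b1) * a1 := by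
            rw [hqu']; simp only [mul_assoc]
        _ = b1 * (v * u) * p * a1 := by rw [← hup]; simp only [mul_assoc]
        _ = b1 * a1 := by rw [hvu, mul_one, hbp]
        _ = q * u' := hqu'.symm
    have h4 : b1 * v * a1 * q = q := by
      calc b1 * v * a1 * q = b1 * v * a1 * (q * u') * ((u'⁻¹ : Rˣ) : R) := by
            simp only [mul_assoc]
            rw [Units.mul_inv, mul_one]
        _ = q * u' * ((u'⁻¹ : Rˣ) : R) := by rw [h3]
        _ = q := by rw [mul_assoc, Units.mul_inv, mul_one]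
    calc b1 * v * a1 = b1 * v * a1 * q := by rw [mul_assoc _ a1 q, haq]
      _ = q := h4
  · calc e * (b1 * v) * e = (e * b1) * (v * e) := by simp only [mul_assoc]
      _ = b1 * e * v := by rw [heb1, hve, mul_assoc]
      _ = b1 * v := by rw [hb1e]

omit [CompleteSpace R] in
/-- asymptotic version of the smallness hypotheses -/
theorem corner_small {a b x e : R} (hab : a * b = x) (he : e * e = e) :
    ‖e * x * e - e * a * e * b * e‖ ≤ ‖e‖ * ‖a‖ * ‖e * b - b * e‖ * ‖e‖ := by
  have h1 : e * x * e - e * a * e * b * e = -(e * a * (e * b - b * e) * e) := by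
    rw [← hab]
    have h2 : e * a * (e * b - b * e) * e = e * a * e * b * e - e * a * b * (e * e) := by
      noncomm_ring
    rw [h2, he]
    noncomm_ring
  rw [h1, norm_neg]
  refine (norm_mul_le _ _).trans (mul_le_mul_of_nonneg_right ?_ (norm_nonneg _))
  refine (norm_mul_le _ _).trans (mul_le_mul_of_nonneg_right ?_ (norm_nonneg _))
  exact norm_mul_le _ _

/-- the corner lemma with explicit smallness -/
theorem corner_final {x y p q e : R} (hxx : x * x = x) (hyy : y * y = y) (hpq : p * q = x)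
    (hqp : q * p = y) (hxp : x * p = p) (hpy : p * y = p) (hyq : y * q = q) (hqx : q * x = q)
    (hee : e * e = e) (hex : e * x = x * e) (hey : e * y = y * e) (hen : ‖e‖ ≤ 1)
    (hp1 : ‖e * p - p * e‖ ≤ 1 / (2 * (‖p‖ + ‖q‖ + 1)))
    (hq1 : ‖e * q - q * e‖ ≤ 1 / (2 * (‖p‖ + ‖q‖ + 1))) :
    ∃ a' b' : R, a' * b' = e * x ∧ b' * a' = e * y ∧ a' * e = a' ∧ b' * e = b' := by
  obtain ⟨δ, hδ⟩ : ∃ δ : ℝ, δ = 1 / (2 * (‖p‖ + ‖q‖ + 1)) := ⟨_, rfl⟩
  rw [← hδ] at hp1 hq1
  have hp0 := norm_nonneg p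
  have hq0 := norm_nonneg q
  have hδ0 : 0 < δ := by rw [hδ]; positivity
  have small : ∀ c : ℝ, 0 ≤ c → c ≤ ‖p‖ + ‖q‖ → ∀ d : ℝ, 0 ≤ d → d ≤ δ →
      ‖e‖ * c * d * ‖e‖ < 1 := fun c hc0 hc d hd0 hd => by
    have h1 : ‖e‖ * c ≤ ‖p‖ + ‖q‖ := by
      calc ‖e‖ * c ≤ 1 * (‖p‖ + ‖q‖) :=
            mul_le_mul hen hc hc0 zero_le_one
        _ = _ := one_mul _
    have h2 : ‖e‖ * c * d ≤ (‖p‖ + ‖q‖) * δ :=
      mul_le_mul h1 hd hd0 (by positivity)
    have h3 : ‖e‖ * c * d * ‖e‖ ≤ (‖p‖ + ‖q‖) * δ * 1 :=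
      mul_le_mul h2 hen (norm_nonneg _) (by positivity)
    refine h3.trans_lt ?_
    rw [mul_one, hδ, mul_one_div, div_lt_one (by positivity)]
    linarith
  have hs1 : ‖e * x - e * p * e * q * e‖ < 1 := by
    have h1 : e * x = e * x * e := by
      rw [mul_assoc, ← hex, ← mul_assoc, hee]
    rw [h1]
    refine (corner_small hpq hee).trans_lt ?_
    exact small _ (norm_nonneg _) (le_add_of_nonneg_right (norm_nonneg _)) _ (norm_nonneg _) hq1
  have hs2 : ‖e * y - e * q * e * p * e‖ < 1 := by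
    have h1 : e * y = e * y * e := by
      rw [mul_assoc, ← hey, ← mul_assoc, hee]
    rw [h1]
    refine (corner_small hqp hee).trans_lt ?_
    exact small _ (norm_nonneg _) (le_add_of_nonneg_left (norm_nonneg _)) _ (norm_nonneg _) hp1
  obtain ⟨a', b', h1, h2, h3, h4⟩ := corner_lift hxx hyy hpq hqp hxp hpy hyq hqx hee
    hex hey hs1 hs2
  exact ⟨a', b', h1, h2, by rw [← h3, mul_assoc, hee], by rw [← h4, mul_assoc, hee]⟩

end P089.AM
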