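import Vale.Agent.Lib.P089.AM.Iface

/-!
# P089 AM: the embedding of `C*_r(G)` into the Roe algebra (Part J)

`jop Q = V Q V*`, where `(V ξ)(g, w) = ξ (g⁻¹)` if `w = w0` and `0` otherwise.
-/

namespace P089.AM

open scoped Classical NNReal

noncomputable section

variable {G : Type} [Group G]

/-- extension by zero of `ξ ∘ inv` -/
def jV : HH G →L[ℂ] HX G :=
  LinearMap.mkContinuous
    { toFun := fun ξ => ⟨fun y => if y.2 = w0 G then ξ y.1⁻¹ else 0, by
        have hp : 0 < (2 : ENNReal).toReal := by norm_num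
        have h1 : Summable fun i => ‖ξ i‖ ^ (2 : ENNReal).toReal := (lp.memℓp ξ).summable hp
        have h2 : Summable fun g : G => ‖ξ g⁻¹‖ ^ (2 : ENNReal).toReal :=
          h1.comp_injective inv_injective
        refine memℓp_gen ?_
        have hinj : Function.Injective (fun g : G => ((g, w0 G) : G × (Pt G × ℕ))) :=
          fun a b h => (Prod.mk.inj h).1
        refine (Function.Injective.summable_iff hinj ?_).1 ?_
        · intro y hy
          have : y.2 ≠ w0 G := fun h => hy ⟨y.1, Prod.ext rfl h.symm⟩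
          rw [if_neg this, norm_zero, Real.zero_rpow hp.ne']
        · refine h2.congr fun g => ?_
          change _ = ‖if w0 G = w0 G then ξ g⁻¹ else 0‖ ^ _
          rw [if_pos rfl]⟩
      map_add' := fun ξ η => by
        ext y
        change (if y.2 = w0 G then ξ y.1⁻¹ + η y.1⁻¹ else 0) =
          (if y.2 = w0 G then ξ y.1⁻¹ else 0) + if y.2 = w0 G then η y.1⁻¹ else 0
        split_ifs <;> simp
      map_smul' := fun c ξ => by
        ext y
        change (if y.2 = w0 G then c • ξ y.1⁻¹ else 0) = c • (if y.2 = w0 G then ξ y.1⁻¹ else 0)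
        split_ifs <;> simp } 1
    (fun ξ => by
      rw [one_mul]
      have hp : 0 < (2 : ENNReal).toReal := by norm_num
      refine (lp.norm_le_of_tsum_le hp (norm_nonneg _) ?_)
      rw [lp.norm_rpow_eq_tsum hp]
      have hinj : Function.Injective (fun g : G => ((g, w0 G) : G × (Pt G × ℕ))) :=
        fun a b h => (Prod.mk.inj h).1
      rw [← hinj.tsum_eq]
      · rw [← (Equiv.inv G).tsum_eq (fun g => ‖ξ g‖ ^ (2 : ENNReal).toReal)]
        refine le_of_eq (tsum_congr fun g => ?_)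
        change ‖if w0 G = w0 G then ξ g⁻¹ else 0‖ ^ _ = _
        rw [if_pos rfl]
        rfl
      · intro y hy
        by_contra hcon
        apply hy
        have : y.2 ≠ w0 G := fun h => hcon ⟨y.1, Prod.ext rfl h.symm⟩
        change ‖if y.2 = w0 G then ξ y.1⁻¹ else 0‖ ^ _ = _
        rw [if_neg this, norm_zero, Real.zero_rpow hp.ne'])

theorem jV_apply (ξ : HH G) (y : G × (Pt G × ℕ)) :
    jV ξ y = if y.2 = w0 G then ξ y.1⁻¹ else 0 := rfl

/-- restriction to `G × {w0}` -/
def jW : HX G →L[ℂ] HH G :=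
  LinearMap.mkContinuous
    { toFun := fun η => ⟨fun g => η (g⁻¹, w0 G), by
        have hp : 0 < (2 : ENNReal).toReal := by norm_num
        have h1 : Summable fun i => ‖η i‖ ^ (2 : ENNReal).toReal := (lp.memℓp η).summable hp
        have hinj : Function.Injective (fun g : G => ((g⁻¹, w0 G) : G × (Pt G × ℕ))) :=
          fun a b h => inv_injective (Prod.mk.inj h).1
        exact memℓp_gen (h1.comp_injective hinj)⟩
      map_add' := fun _ _ => rfl
      map_smul' := fun _ _ => rfl } 1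
    (fun η => by
      rw [one_mul]
      have hp : 0 < (2 : ENNReal).toReal := by norm_num
      refine (lp.norm_le_of_tsum_le hp (norm_nonneg _) ?_)
      rw [lp.norm_rpow_eq_tsum hp]
      have h1 : Summable fun i => ‖η i‖ ^ (2 : ENNReal).toReal := (lp.memℓp η).summable hp
      have hinj : Function.Injective (fun g : G => ((g⁻¹, w0 G) : G × (Pt G × ℕ))) :=
          fun a b h => inv_injective (Prod.mk.inj h).1
      exact tsum_comp_le_tsum_of_inj h1 (fun i => by positivity) hinj)

theorem jW_apply (η : HX G) (g : G) : jW η g = η (g⁻¹, w0 G) := rfl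

theorem jW_jV (ξ : HH G) : jW (jV ξ) = ξ := by
  ext g
  rw [jW_apply, jV_apply, if_pos rfl, inv_inv]

/-- the embedding -/
def jop (Q : HH G →L[ℂ] HH G) : HX G →L[ℂ] HX G := (jV.comp Q).comp jW

theorem jop_apply (Q : HH G →L[ℂ] HH G) (η : HX G) : jop Q η = jV (Q (jW η)) := rfl

theorem jop_mul (Q R : HH G →L[ℂ] HH G) : jop (Q * R) = jop Q * jop R := by
  ext1 η
  change jV (Q (R (jW η))) = jV (Q (jW (jV (R (jW η)))))
  rw [jW_jV]

/-- linearity -/
def jL : (HH G →L[ℂ] HH G) →L[ℂ] (HX G →L[ℂ] HX G) :=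
  LinearMap.mkContinuous
    { toFun := jop
      map_add' := fun Q R => by
        ext1 η
        change jV (Q (jW η) + R (jW η)) = jV (Q (jW η)) + jV (R (jW η))
        rw [map_add]
      map_smul' := fun c Q => by
        ext1 η
        change jV (c • Q (jW η)) = c • jV (Q (jW η))
        rw [map_smul] } (‖(jV : HH G →L[ℂ] HX G)‖ * ‖(jW : HX G →L[ℂ] HH G)‖)
    (fun Q => by
      change ‖(jV.comp Q).comp jW‖ ≤ _
      refine (ContinuousLinearMap.opNorm_comp_le _ _).trans ?_
      have h1 := ContinuousLinearMap.opNorm_comp_le (jV : HH G →L[ℂ] HX G) Q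
      calc ‖jV.comp Q‖ * ‖(jW : HX G →L[ℂ] HH G)‖ ≤ (‖(jV : HH G →L[ℂ] HX G)‖ * ‖Q‖) *
            ‖(jW : HX G →L[ℂ] HH G)‖ := mul_le_mul_of_nonneg_right h1 (norm_nonneg _)
        _ = _ := by ring)

theorem jL_apply (Q : HH G →L[ℂ] HH G) : jL Q = jop Q := rfl

theorem ent_of {I : Type} (T : L2 I →L[ℂ] L2 I) (i j : I) {v : L2 I} (h1 : v j = 1)
    (h2 : ∀ k, k ≠ j → v k = 0) : ent T i j = T v i := by
  have h3 : lp.single 2 j (1 : ℂ) = v := by
    ext k
    rw [lp.single_apply]
    by_cases h : k = j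
    · rw [h, Pi.single_eq_same, h1]
    · rw [Pi.single_eq_of_ne h, h2 k h]
  unfold ent
  rw [h3]

omit [Group G] in
theorem ent_HX (T : HX G →L[ℂ] HX G) (y y' : G × (Pt G × ℕ)) :
    ent T y y' = T (lp.single 2 y' (1 : ℂ) : HX G) y := by
  refine ent_of T y y' ?_ ?_
  · rw [lp.single_apply, Pi.single_eq_same]
  · intro k hk
    rw [lp.single_apply, Pi.single_eq_of_ne hk]

theorem jW_single (h : G) : jW (lp.single 2 (h, w0 G) (1 : ℂ) : HX G) = dl h⁻¹ := by
  ext g
  rw [jW_apply]
  unfold dl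
  rw [lp.single_apply, lp.single_apply]
  by_cases hg : g = h⁻¹
  · subst hg
    rw [inv_inv, Pi.single_eq_same, Pi.single_eq_same]
  · rw [Pi.single_eq_of_ne hg, Pi.single_eq_of_ne]
    intro h2
    apply hg
    rw [← (Prod.mk.inj h2).1, inv_inv]

theorem jW_single_ne (h : G) {w : Pt G × ℕ} (hw : w ≠ w0 G) :
    jW (lp.single 2 (h, w) (1 : ℂ) : HX G) = 0 := by
  ext g
  rw [jW_apply, lp.single_apply, Pi.single_eq_of_ne]
  · rfl
  · intro h2
    exact hw (Prod.mk.inj h2).2.symm

theorem ent_jop (Q : HH G →L[ℂ] HH G) (g h : G) :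
    ent (jop Q) (g, w0 G) (h, w0 G) = Q (dl h⁻¹) g⁻¹ := by
  rw [ent_HX, jop_apply, jW_single, jV_apply, if_pos rfl]

theorem ent_jop_ne_left (Q : HH G →L[ℂ] HH G) {y y' : G × (Pt G × ℕ)} (hy : y.2 ≠ w0 G) :
    ent (jop Q) y y' = 0 := by
  unfold ent
  rw [jop_apply, jV_apply, if_neg hy]

theorem ent_jop_ne_right (Q : HH G →L[ℂ] HH G) {y y' : G × (Pt G × ℕ)} (hy : y'.2 ≠ w0 G) :
    ent (jop Q) y y' = 0 := by
  have h1 : jW (lp.single 2 y' (1 : ℂ) : HX G) = 0 := jW_single_ne y'.1 hy
  rw [ent_HX, jop_apply, h1, map_zero, map_zero]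
  rfl

theorem ent_jop_lam {s : G} {y y' : G × (Pt G × ℕ)} (h : ent (jop (lam s)) y y' ≠ 0) :
    y.2 = w0 G ∧ y'.2 = w0 G ∧ y.1⁻¹ * y'.1 = s := by
  have h1 : y.2 = w0 G := by
    by_contra hcon
    exact h (ent_jop_ne_left _ hcon)
  have h2 : y'.2 = w0 G := by
    by_contra hcon
    exact h (ent_jop_ne_right _ hcon)
  refine ⟨h1, h2, ?_⟩
  obtain ⟨g, w⟩ := y
  obtain ⟨g', w'⟩ := y'
  subst h1 h2
  rw [ent_jop, lam_dl] at h
  unfold dl at h
  rw [lp.single_apply] at h
  by_contra hcon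
  apply h
  rw [Pi.single_eq_of_ne]
  intro h3
  apply hcon
  change g⁻¹ * g' = s
  rw [h3, inv_mul_cancel_right]

theorem pos_w0 (g h : G) (hh : (pos ((g, w0 G) : G × (Pt G × ℕ))).1 h ≠ 0) : h = g := by
  have h1 : (pos ((g, w0 G) : G × (Pt G × ℕ))).1 h = (Finsupp.single (1 : G) (1 : ℚ)) (g⁻¹ * h) :=
    rfl
  rw [h1] at hh
  by_contra hcon
  apply hh
  rw [Finsupp.single_eq_of_ne]
  intro h2
  apply hcon
  rw [inv_mul_eq_one] at h2
  exact h2.symm

theorem pos_w0_self (g : G) : (pos ((g, w0 G) : G × (Pt G × ℕ))).1 g ≠ 0 := by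
  have h1 : (pos ((g, w0 G) : G × (Pt G × ℕ))).1 g = (Finsupp.single (1 : G) (1 : ℚ)) (g⁻¹ * g) :=
    rfl
  rw [h1, inv_mul_cancel, Finsupp.single_eq_same]
  exact one_ne_zero

/-- a rank one operator is compact -/
theorem compact_rank_one {E F : Type} [NormedAddCommGroup E] [NormedSpace ℂ E]
    [NormedAddCommGroup F] [NormedSpace ℂ F] (φ : E →L[ℂ] ℂ) (v : F) :
    IsCompactOperator (φ.smulRight v) := by
  have h1 : IsCompactOperator φ := isCompactOperator_of_locallyCompactSpace_dom φ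
  have h2 := h1.clm_comp (ContinuousLinearMap.toSpanSingleton ℂ v)
  have h3 : ((ContinuousLinearMap.toSpanSingleton ℂ v : ℂ →L[ℂ] F) ∘ φ : E → F)
      = (φ.smulRight v : E → F) := by
    funext x
    simp
  rw [h3] at h2
  exact h2

theorem jop_lam_mem (s : G) : jop (lam s) ∈ RoeSet G ({1} : Finset G) := by
  refine ⟨?_, ?_, ?_, ?_⟩
  · intro g y y'
    by_cases hy : y.2 = w0 G
    · by_cases hy' : y'.2 = w0 G
      · obtain ⟨a, w⟩ := y
        obtain ⟨b, w'⟩ := y'
        subst hy hy'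
        rw [ent_jop, ent_jop, lam_dl, lam_dl]
        unfold dl
        rw [lp.single_apply, lp.single_apply]
        change (Pi.single (s * (g * b)⁻¹) (1 : ℂ) : G → ℂ) (g * a)⁻¹
          = (Pi.single (s * b⁻¹) (1 : ℂ) : G → ℂ) a⁻¹
        by_cases h : a⁻¹ = s * b⁻¹
        · have h2 : (g * a)⁻¹ = s * (g * b)⁻¹ := by
            rw [mul_inv_rev, mul_inv_rev, h, mul_assoc]
          rw [h, h2, Pi.single_eq_same, Pi.single_eq_same]
        · have h2 : (g * a)⁻¹ ≠ s * (g * b)⁻¹ := by
            intro h3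
            apply h
            rw [mul_inv_rev, mul_inv_rev, ← mul_assoc] at h3
            exact mul_right_cancel h3
          rw [Pi.single_eq_of_ne h, Pi.single_eq_of_ne h2]
      · rw [ent_jop_ne_right _ hy', ent_jop_ne_right]
        exact hy'
    · rw [ent_jop_ne_left _ hy, ent_jop_ne_left]
      exact hy
  · intro y y' h
    obtain ⟨h1, h2, -⟩ := ent_jop_lam h
    obtain ⟨a, w⟩ := y
    obtain ⟨b, w'⟩ := y'
    subst h1 h2
    constructor
    · intro g k hg hk
      rw [pos_w0 _ _ hg, pos_w0 _ _ hk, inv_mul_cancel]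
      exact Finset.mem_singleton_self 1
    · intro g k hg hk
      rw [pos_w0 _ _ hg, pos_w0 _ _ hk, inv_mul_cancel]
      exact Finset.mem_singleton_self 1
  · refine ⟨{s}, fun y y' h => ?_⟩
    obtain ⟨h1, h2, h3⟩ := ent_jop_lam h
    obtain ⟨a, w⟩ := y
    obtain ⟨b, w'⟩ := y'
    subst h1 h2
    exact ⟨a, b, pos_w0_self a, pos_w0_self b, Finset.mem_singleton.2 h3⟩
  · intro g
    constructor
    · let ev1 : HH G →L[ℂ] ℂ := innerSL ℂ (dl g⁻¹ : HH G)
      have hev : ∀ ξ : HH G, ev1 ξ = ξ g⁻¹ := by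
        intro ξ
        change inner ℂ (dl g⁻¹ : HH G) ξ = _
        unfold dl
        rw [lp.inner_single_left, RCLike.inner_apply, map_one, mul_one]
      have h1 : cut {y | (pos y).1 g ≠ 0} * jop (lam s)
          = ((ev1.comp (lam s)).comp jW).smulRight (lp.single 2 (g, w0 G) (1 : ℂ) : HX G) := by
        ext1 η
        ext y
        change cut {y | (pos y).1 g ≠ 0} (jV (lam s (jW η))) y =
          (ev1 (lam s (jW η)) • (lp.single 2 (g, w0 G) (1 : ℂ) : HX G)) y
        rw [cut_apply, jV_apply, hev, lp.coeFn_smul, Pi.smul_apply, lp.single_apply]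
        by_cases hy : y = (g, w0 G)
        · subst hy
          rw [Pi.single_eq_same, if_pos (show (g, w0 G) ∈ {y : G × (Pt G × ℕ) | (pos y).1 g ≠ 0} from
            pos_w0_self g), if_pos rfl, smul_eq_mul, mul_one]
        · rw [Pi.single_eq_of_ne hy, smul_zero]
          by_cases h2 : y.2 = w0 G
          · rw [if_neg]
            intro h3
            apply hy
            obtain ⟨a, w⟩ := y
            subst h2
            rw [pos_w0 a g h3]
          · rw [if_neg h2]
            split_ifs <;> rfl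
      rw [h1]
      exact compact_rank_one _ _
    · let ev1 : HX G →L[ℂ] ℂ := innerSL ℂ (lp.single 2 (g, w0 G) (1 : ℂ) : HX G)
      have hev : ∀ ξ : HX G, ev1 ξ = ξ (g, w0 G) := by
        intro ξ
        change inner ℂ (lp.single 2 (g, w0 G) (1 : ℂ) : HX G) ξ = _
        rw [lp.inner_single_left, RCLike.inner_apply, map_one, mul_one]
      have h1 : jop (lam s) * cut {y | (pos y).1 g ≠ 0}
          = ev1.smulRight (jV (lam s (dl g⁻¹)) : HX G) := by
        ext1 η
        change jV (lam s (jW (cut {y | (pos y).1 g ≠ 0} η))) = ev1 η • jV (lam s (dl g⁻¹))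
        have h2 : jW (cut {y | (pos y).1 g ≠ 0} η) = η (g, w0 G) • (dl g⁻¹ : HH G) := by
          ext k
          rw [jW_apply, cut_apply, lp.coeFn_smul, Pi.smul_apply]
          unfold dl
          rw [lp.single_apply]
          by_cases hk : k = g⁻¹
          · subst hk
            rw [inv_inv, if_pos (show (g, w0 G) ∈ {y : G × (Pt G × ℕ) | (pos y).1 g ≠ 0} from
              pos_w0_self g), Pi.single_eq_same, smul_eq_mul, mul_one]
          · rw [Pi.single_eq_of_ne hk, smul_zero, if_neg]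
            intro h3
            apply hk
            rw [pos_w0 _ _ h3, inv_inv]
        rw [h2, hev, map_smul, map_smul]
      rw [h1]
      exact compact_rank_one _ _

theorem jop_mem {Q : HH G →L[ℂ] HH G} (hQ : Q ∈ Cred G) : jop Q ∈ RoeG G := by
  have h1 : Cred G ≤ (RoeG G).toSubmodule.comap (jL (G := G)).toLinearMap := by
    refine Submodule.topologicalClosure_minimal _ ?_ ?_
    · rw [Submodule.span_le]
      rintro _ ⟨s, rfl⟩
      change jop (lam s) ∈ RoeG G
      have h2 : jop (lam s) ∈ ⋃ F, RoeSet G F := Set.mem_iUnion.2 ⟨{1}, jop_lam_mem s⟩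
      exact NonUnitalSubalgebra.le_topologicalClosure _ (NonUnitalAlgebra.subset_adjoin ℂ h2)
    · exact (clAlg_closed _).preimage (jL (G := G)).continuous
  exact h1 hQ

theorem partJ : PartJ := by
  intro G _ Q hQ hQQ
  refine ⟨⟨jop Q, jop_mem hQ⟩, ?_, ?_, ?_⟩
  · refine Subtype.ext ?_
    change jop Q * jop Q = jop Q
    rw [← jop_mul, hQQ]
  · intro Z hZ
    have hw : w0 G ∈ Z := hZ (Finset.mem_singleton_self _)
    constructor
    · change EZ Z * jop Q = jop Q
      ext1 η
      ext y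
      change cut {y | y.2 ∈ Z} (jV (Q (jW η))) y = jV (Q (jW η)) y
      rw [cut_apply, jV_apply]
      by_cases h : y.2 = w0 G
      · rw [if_pos]
        change y.2 ∈ Z
        rw [h]
        exact hw
      · rw [if_neg h]
        split_ifs <;> rfl
    · change jop Q * EZ Z = jop Q
      ext1 η
      change jV (Q (jW (cut {y | y.2 ∈ Z} η))) = jV (Q (jW η))
      congr 2
      ext g
      rw [jW_apply, jW_apply, cut_apply, if_pos]
      exact hw
  · intro z
    unfold trZ
    rw [Finset.sum_singleton]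
    have h1 := ent_HX (lz z * jop Q) (1, w0 G) (1, w0 G)
    refine Eq.trans h1 ?_
    change lz z (jop Q (lp.single 2 (1, w0 G) (1 : ℂ) : HX G)) (1, w0 G) = _
    rw [lz_apply, jop_apply, jW_single, jV_apply, if_pos rfl]
    change Q (dl 1⁻¹) (z⁻¹ * 1)⁻¹ = _
    rw [inv_one, mul_one, inv_inv]

end

end P089.AM
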