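import Mathlib

/-!
# P089, Part AM: the group `K_0` of a ring, by idempotent matrices
-/

namespace P089

open Matrix

section MEqv

variable {R : Type*} [Ring R]
variable {ι κ μ : Type*} [Fintype ι] [Fintype κ] [Fintype μ]

/-- algebraic Murray-von Neumann equivalence of two square matrices -/
def MEqv (e : Matrix ι ι R) (f : Matrix κ κ R) : Prop :=
  ∃ (x : Matrix κ ι R) (y : Matrix ι κ R), y * x = e ∧ x * y = f

theorem MEqv.refl {e : Matrix ι ι R} (he : e * e = e) : MEqv e e := ⟨e, e, he, he⟩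

theorem MEqv.symm {e : Matrix ι ι R} {f : Matrix κ κ R} (h : MEqv e f) : MEqv f e := by
  obtain ⟨x, y, h1, h2⟩ := h
  exact ⟨y, x, h2, h1⟩

theorem MEqv.trans {e : Matrix ι ι R} {f : Matrix κ κ R} {g : Matrix μ μ R} (he : e * e = e)
    (hg : g * g = g) (h : MEqv e f) (h' : MEqv f g) : MEqv e g := by
  obtain ⟨x, y, h1, h2⟩ := h
  obtain ⟨x', y', h3, h4⟩ := h'
  refine ⟨x' * x, y * y', ?_, ?_⟩
  · rw [Matrix.mul_assoc, ← Matrix.mul_assoc y', h3, ← h2, Matrix.mul_assoc x, h1,
      ← Matrix.mul_assoc, h1, he]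
  · rw [Matrix.mul_assoc, ← Matrix.mul_assoc x, h2, ← h3, Matrix.mul_assoc y', h4,
      ← Matrix.mul_assoc, h4, hg]

theorem MEqv.of_unit [DecidableEq ι] {e f : Matrix ι ι R} (he : e * e = e)
    (w : (Matrix ι ι R)ˣ) (h : (w : Matrix ι ι R) * e = f * w) : MEqv e f := by
  have hf : f = (w : Matrix ι ι R) * e * ((w⁻¹ : (Matrix ι ι R)ˣ) : Matrix ι ι R) := by
    rw [h, Matrix.mul_assoc, ← Units.val_mul, mul_inv_cancel, Units.val_one, Matrix.mul_one]
  refine ⟨w * e, e * ((w⁻¹ : (Matrix ι ι R)ˣ) : Matrix ι ι R), ?_, ?_⟩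
  · rw [Matrix.mul_assoc, ← Matrix.mul_assoc _ _ e, ← Units.val_mul, inv_mul_cancel,
      Units.val_one, Matrix.one_mul, he]
  · rw [hf, Matrix.mul_assoc, ← Matrix.mul_assoc e, he, Matrix.mul_assoc]

theorem MEqv.reindex (σ : ι ≃ κ) {e : Matrix ι ι R} (he : e * e = e) :
    MEqv e (Matrix.reindex σ σ e) := by
  refine ⟨e.submatrix σ.symm id, e.submatrix id σ.symm, ?_, ?_⟩
  · rw [Matrix.submatrix_mul_equiv e e id σ.symm id, he, Matrix.submatrix_id_id]
  · rw [← Matrix.submatrix_mul e e σ.symm id σ.symm Function.bijective_id, he]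
    rfl

theorem MEqv.blocks {ι' κ' : Type*} [Fintype ι'] [Fintype κ'] {e : Matrix ι ι R}
    {f : Matrix κ κ R} {e' : Matrix ι' ι' R} {f' : Matrix κ' κ' R} (h : MEqv e f)
    (h' : MEqv e' f') : MEqv (fromBlocks e 0 0 e') (fromBlocks f 0 0 f') := by
  obtain ⟨x, y, h1, h2⟩ := h
  obtain ⟨x', y', h3, h4⟩ := h'
  refine ⟨fromBlocks x 0 0 x', fromBlocks y 0 0 y', ?_, ?_⟩
  · rw [fromBlocks_multiply]
    simp [h1, h3]
  · rw [fromBlocks_multiply]
    simp [h2, h4]

theorem blocks_idem {e : Matrix ι ι R} {f : Matrix κ κ R} (he : e * e = e) (hf : f * f = f) :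
    fromBlocks e 0 0 f * fromBlocks e 0 0 f = fromBlocks e 0 0 f := by
  rw [fromBlocks_multiply]
  simp [he, hf]

theorem reindex_idem (σ : ι ≃ κ) {e : Matrix ι ι R} (he : e * e = e) :
    Matrix.reindex σ σ e * Matrix.reindex σ σ e = Matrix.reindex σ σ e := by
  rw [Matrix.reindex_apply, Matrix.submatrix_mul_equiv, he]

/-- an idempotent and its complement add up to the unit matrix -/
theorem MEqv.compl [DecidableEq ι] {e : Matrix ι ι R} (he : e * e = e) :
    MEqv (fromBlocks e 0 0 (1 - e)) (1 : Matrix ι ι R) := by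
  have h1 : e * (1 - e) = 0 := by rw [Matrix.mul_sub, Matrix.mul_one, he, sub_self]
  have h2 : (1 - e) * e = 0 := by rw [Matrix.sub_mul, Matrix.one_mul, he, sub_self]
  have h3 : (1 - e) * (1 - e) = 1 - e := by
    rw [Matrix.mul_sub, Matrix.mul_one, h2, sub_zero]
  refine ⟨fromCols e (1 - e), fromRows e (1 - e), ?_, ?_⟩
  · rw [fromRows_mul_fromCols, he, h1, h2, h3]
  · rw [fromCols_mul_fromRows, he, h3]
    abel

end MEqv

section K0

/-- idempotent matrix of some size over `R` -/
structure IdemMat (R : Type*) [Ring R] where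
  n : ℕ
  e : Matrix (Fin n) (Fin n) R
  idem : e * e = e

variable {R : Type*} [Ring R]

/-- equivalence of idempotent matrices: `e = y x`, `f = x y` -/
instance IdemMat.setoid (R : Type*) [Ring R] : Setoid (IdemMat R) where
  r p q := MEqv p.e q.e
  iseqv := ⟨fun p => MEqv.refl p.idem, fun h => h.symm, fun {p _ r} h h' =>
    MEqv.trans p.idem r.idem h h'⟩

/-- block sum -/
def IdemMat.add (p q : IdemMat R) : IdemMat R where
  n := p.n + q.n
  e := Matrix.reindex finSumFinEquiv finSumFinEquiv (fromBlocks p.e 0 0 q.e)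
  idem := reindex_idem _ (blocks_idem p.idem q.idem)

/-- the empty matrix -/
def IdemMat.zero (R : Type*) [Ring R] : IdemMat R where
  n := 0
  e := 0
  idem := by simp

/-- the unit matrix of size `n` -/
def IdemMat.one (R : Type*) [Ring R] (n : ℕ) : IdemMat R where
  n := n
  e := 1
  idem := by simp

theorem add_eqv {κ : Type*} [Fintype κ] (p q : IdemMat R) {f : Matrix κ κ R} (hf : f * f = f)
    (h : MEqv (fromBlocks p.e 0 0 q.e) f) : MEqv (p.add q).e f :=
  (MEqv.reindex _ (blocks_idem p.idem q.idem)).symm.trans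
    (reindex_idem _ (blocks_idem p.idem q.idem)) hf h

/-- classes of idempotent matrices -/
def VV (R : Type*) [Ring R] : Type _ := Quotient (IdemMat.setoid R)

theorem blocks_comm {ι κ : Type*} [Fintype ι] [Fintype κ] {e : Matrix ι ι R} {f : Matrix κ κ R}
    (he : e * e = e) (hf : f * f = f) : MEqv (fromBlocks e 0 0 f) (fromBlocks f 0 0 e) := by
  refine ⟨fromBlocks 0 f e 0, fromBlocks 0 e f 0, ?_, ?_⟩
  · rw [fromBlocks_multiply]
    simp [he, hf]
  · rw [fromBlocks_multiply]
    simp [he, hf]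

theorem blocks_assoc {ι κ μ : Type*} [Fintype ι] [Fintype κ] [Fintype μ] {e : Matrix ι ι R}
    {f : Matrix κ κ R} {g : Matrix μ μ R} (he : e * e = e) (hf : f * f = f) (hg : g * g = g) :
    MEqv (fromBlocks (fromBlocks e 0 0 f) 0 0 g) (fromBlocks e 0 0 (fromBlocks f 0 0 g)) := by
  have h := MEqv.reindex (Equiv.sumAssoc ι κ μ) (blocks_idem (blocks_idem he hf) hg)
  have h2 : Matrix.reindex (Equiv.sumAssoc ι κ μ) (Equiv.sumAssoc ι κ μ)
      (fromBlocks (fromBlocks e 0 0 f) 0 0 g) = fromBlocks e 0 0 (fromBlocks f 0 0 g) := by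
    ext i j
    rcases i with i | i | i <;> rcases j with j | j | j <;> rfl
  rwa [h2] at h

theorem zero_blocks {κ : Type*} [Fintype κ] {f : Matrix κ κ R} (hf : f * f = f) :
    MEqv (fromBlocks (0 : Matrix (Fin 0) (Fin 0) R) 0 0 f) f := by
  refine ⟨fromCols 0 f, fromRows 0 f, ?_, ?_⟩
  · rw [fromRows_mul_fromCols, hf]
    simp
  · rw [fromCols_mul_fromRows, hf]
    simp

instance : Add (VV R) where
  add := Quotient.map₂ IdemMat.add (by
    intro p p' h q q' h'
    exact add_eqv p q (p'.add q').idem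
      (MEqv.symm (add_eqv p' q' (blocks_idem p.idem q.idem) (h.symm.blocks h'.symm))))

instance : Zero (VV R) where
  zero := Quotient.mk _ (IdemMat.zero R)

instance : AddCommMonoid (VV R) where
  add_assoc := by
    rintro ⟨p⟩ ⟨q⟩ ⟨r⟩
    refine Quotient.sound ?_
    have hp := p.idem
    have hq := q.idem
    have hr := r.idem
    have h1 : MEqv ((p.add q).add r).e (fromBlocks (fromBlocks p.e 0 0 q.e) 0 0 r.e) :=
      add_eqv _ _ (blocks_idem (blocks_idem hp hq) hr)
        ((MEqv.reindex _ (blocks_idem hp hq)).symm.blocks (MEqv.refl hr))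
    have h2 : MEqv (p.add (q.add r)).e (fromBlocks p.e 0 0 (fromBlocks q.e 0 0 r.e)) :=
      add_eqv _ _ (blocks_idem hp (blocks_idem hq hr))
        ((MEqv.refl hp).blocks (MEqv.reindex _ (blocks_idem hq hr)).symm)
    exact (h1.trans ((p.add q).add r).idem (blocks_idem hp (blocks_idem hq hr))
      (blocks_assoc hp hq hr)).trans ((p.add q).add r).idem (p.add (q.add r)).idem h2.symm
  zero_add := by
    rintro ⟨p⟩
    exact Quotient.sound (add_eqv _ _ p.idem (zero_blocks p.idem))
  add_zero := by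
    rintro ⟨p⟩
    exact Quotient.sound (add_eqv _ _ p.idem
      ((blocks_comm p.idem (IdemMat.zero R).idem).trans
        (blocks_idem p.idem (IdemMat.zero R).idem) p.idem (zero_blocks p.idem)))
  add_comm := by
    rintro ⟨p⟩ ⟨q⟩
    refine Quotient.sound ?_
    exact add_eqv p q (q.add p).idem (MEqv.symm (add_eqv q p (blocks_idem p.idem q.idem)
      (blocks_comm q.idem p.idem)))
  nsmul := nsmulRec

/-- class of an idempotent matrix -/
def VV.mk (p : IdemMat R) : VV R := Quotient.mk _ p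

theorem VV.mk_add (p q : IdemMat R) : VV.mk (p.add q) = VV.mk p + VV.mk q := rfl

theorem VV.mk_eq (p q : IdemMat R) : VV.mk p = VV.mk q ↔ MEqv p.e q.e :=
  ⟨fun h => Quotient.exact h, fun h => Quotient.sound h⟩

/-- image of an idempotent matrix under a ring homomorphism -/
def IdemMat.map {S : Type*} [Ring S] (f : R →+* S) (p : IdemMat R) : IdemMat S where
  n := p.n
  e := p.e.map f
  idem := by rw [← Matrix.map_mul, p.idem]

/-- functoriality of `VV` -/
def VV.map {S : Type*} [Ring S] (f : R →+* S) : VV R →+ VV S where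
  toFun := Quotient.map (IdemMat.map f) (by
    rintro p q ⟨x, y, h1, h2⟩
    refine ⟨x.map f, y.map f, ?_, ?_⟩
    · change y.map f * x.map f = p.e.map f
      rw [← Matrix.map_mul, h1]
    · change x.map f * y.map f = q.e.map f
      rw [← Matrix.map_mul, h2])
  map_zero' := by
    refine Quotient.sound ?_
    refine ⟨0, 0, ?_, ?_⟩
    · ext i
      exact i.elim0
    · ext i
      exact i.elim0
  map_add' := by
    rintro ⟨p⟩ ⟨q⟩
    refine Quotient.sound ?_
    have h : ((p.add q).map f).e = ((p.map f).add (q.map f)).e := by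
      change (Matrix.reindex finSumFinEquiv finSumFinEquiv (fromBlocks p.e 0 0 q.e)).map f =
        Matrix.reindex finSumFinEquiv finSumFinEquiv (fromBlocks (p.e.map f) 0 0 (q.e.map f))
      rw [Matrix.reindex_apply, Matrix.reindex_apply, ← Matrix.submatrix_map,
        Matrix.fromBlocks_map, Matrix.map_zero _ (map_zero f), Matrix.map_zero _ (map_zero f)]
    exact ⟨((p.add q).map f).e, ((p.add q).map f).e, ((p.add q).map f).idem,
      (((p.add q).map f).idem).trans h⟩

/-- the Grothendieck group `K_0(R)` of the idempotent matrices over `R` -/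
abbrev K0 (R : Type*) [Ring R] : Type _ := Algebra.GrothendieckAddGroup (VV R)

/-- class in `K_0` -/
def K0.mk (p : IdemMat R) : K0 R := Algebra.GrothendieckAddGroup.of (VV.mk p)

/-- functoriality of `K_0` -/
noncomputable def K0.map {S : Type*} [Ring S] (f : R →+* S) : K0 R →+ K0 S :=
  Algebra.GrothendieckAddGroup.lift (Algebra.GrothendieckAddGroup.of.comp (VV.map f))

theorem K0.map_mk {S : Type*} [Ring S] (f : R →+* S) (p : IdemMat R) :
    K0.map f (K0.mk p) = K0.mk (p.map f) := by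
  exact DFunLike.congr_fun (Algebra.GrothendieckAddGroup.lift.symm_apply_apply
    (Algebra.GrothendieckAddGroup.of.comp (VV.map f))) (VV.mk p)

theorem K0.mk_add (p q : IdemMat R) : K0.mk (p.add q) = K0.mk p + K0.mk q := by
  unfold K0.mk
  rw [VV.mk_add, map_add]

/-- every element is a difference of classes -/
theorem K0.exists_sub (x : K0 R) : ∃ p q : IdemMat R, x = K0.mk p - K0.mk q := by
  induction x using AddLocalization.ind with
  | _ y =>
    obtain ⟨u, v⟩ := y
    obtain ⟨p, hp⟩ := Quotient.exists_rep u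
    obtain ⟨q, hq⟩ := Quotient.exists_rep v.1
    have hp' : VV.mk p = u := hp
    have hq' : VV.mk q = v.1 := hq
    refine ⟨p, q, ?_⟩
    have h1 : K0.mk p = AddLocalization.mk u 0 := by
      rw [AddLocalization.mk_zero_eq_addMonoidOf_mk, ← hp']
      rfl
    have h2 : K0.mk q = AddLocalization.mk v.1 0 := by
      rw [AddLocalization.mk_zero_eq_addMonoidOf_mk, ← hq']
      rfl
    rw [h1, h2, Algebra.GrothendieckAddGroup.mk_sub_mk]
    have h3 : u + ((0 : (⊤ : AddSubmonoid (VV R))) : VV R) = u := add_zero u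
    have h4 : (⟨((0 : (⊤ : AddSubmonoid (VV R))) : VV R) + v.1, AddSubmonoid.mem_top _⟩ :
        (⊤ : AddSubmonoid (VV R))) = v := Subtype.ext (zero_add _)
    rw [h3, h4]

/-- equality of classes, stably -/
theorem K0.mk_eq_iff (p q : IdemMat R) :
    K0.mk p = K0.mk q ↔ ∃ n, MEqv (p.add (IdemMat.one R n)).e (q.add (IdemMat.one R n)).e := by
  constructor
  · intro h
    unfold K0.mk at h
    have h1 : AddLocalization.mk (VV.mk p) (0 : (⊤ : AddSubmonoid (VV R))) =
        AddLocalization.mk (VV.mk q) 0 := by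
      rw [AddLocalization.mk_zero_eq_addMonoidOf_mk, AddLocalization.mk_zero_eq_addMonoidOf_mk]
      exact h
    rw [AddLocalization.mk_eq_mk_iff, AddLocalization.r_iff_exists] at h1
    obtain ⟨⟨c, hc⟩, h2⟩ := h1
    obtain ⟨r, rfl⟩ := Quotient.exists_rep c
    have h3 : VV.mk p + VV.mk r = VV.mk q + VV.mk r := by
      have h4 : VV.mk r + (0 + VV.mk p) = VV.mk r + (0 + VV.mk q) := h2
      rwa [zero_add, zero_add, add_comm, add_comm (VV.mk r)] at h4
    set r' : IdemMat R := ⟨r.n, 1 - r.e, by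
      rw [Matrix.mul_sub, Matrix.mul_one, Matrix.sub_mul, Matrix.one_mul, r.idem, sub_self,
        sub_zero]⟩ with hr'
    have h5 : VV.mk r + VV.mk r' = VV.mk (IdemMat.one R r.n) := by
      rw [← VV.mk_add, VV.mk_eq]
      exact add_eqv r r' (IdemMat.one R r.n).idem (MEqv.compl r.idem)
    refine ⟨r.n, (VV.mk_eq _ _).1 ?_⟩
    rw [VV.mk_add, VV.mk_add, ← h5, ← add_assoc, h3, add_assoc]
  · rintro ⟨n, h⟩
    have h1 := (VV.mk_eq _ _).2 h
    rw [VV.mk_add, VV.mk_add] at h1
    have h2 := congrArg (Algebra.GrothendieckAddGroup.of (M := VV R)) h1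
    rw [map_add, map_add] at h2
    exact add_right_cancel h2

/-- complement of an idempotent matrix -/
def IdemMat.compl (p : IdemMat R) : IdemMat R where
  n := p.n
  e := 1 - p.e
  idem := by
    rw [Matrix.mul_sub, Matrix.mul_one, Matrix.sub_mul, Matrix.one_mul, p.idem, sub_self, sub_zero]

theorem K0.mk_compl (p : IdemMat R) : K0.mk p + K0.mk p.compl = K0.mk (IdemMat.one R p.n) := by
  rw [← K0.mk_add]
  unfold K0.mk
  congr 1
  rw [VV.mk_eq]
  exact add_eqv p p.compl (IdemMat.one R p.n).idem (MEqv.compl p.idem)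

theorem K0.mk_one_add (n m : ℕ) :
    K0.mk (IdemMat.one R n) + K0.mk (IdemMat.one R m) = K0.mk (IdemMat.one R (n + m)) := by
  rw [← K0.mk_add]
  unfold K0.mk
  congr 1
  rw [VV.mk_eq]
  refine add_eqv _ _ (IdemMat.one R (n + m)).idem ?_
  have h := MEqv.reindex (R := R) finSumFinEquiv
    (e := (1 : Matrix (Fin n ⊕ Fin m) (Fin n ⊕ Fin m) R)) (by simp)
  rw [← Matrix.fromBlocks_one] at h
  have h2 : Matrix.reindex finSumFinEquiv finSumFinEquiv
      (fromBlocks (1 : Matrix (Fin n) (Fin n) R) 0 0 (1 : Matrix (Fin m) (Fin m) R)) =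
      (1 : Matrix (Fin (n + m)) (Fin (n + m)) R) := by
    rw [Matrix.fromBlocks_one, Matrix.reindex_apply, Matrix.submatrix_one_equiv]
  rw [h2] at h
  exact h

/-- if `[q] = [p] - [p']` then `q + 1_m` is equivalent to `p + (1 - p') + 1_n` -/
theorem K0.reduce {q p p' : IdemMat R} (h : K0.mk q = K0.mk p - K0.mk p') :
    ∃ m n, MEqv (q.add (IdemMat.one R m)).e
      ((p.add p'.compl).add (IdemMat.one R n)).e := by
  have h1 : K0.mk (q.add (IdemMat.one R p'.n)) = K0.mk (p.add p'.compl) := by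
    rw [K0.mk_add, K0.mk_add, ← K0.mk_compl, h]
    abel
  obtain ⟨n, h2⟩ := (K0.mk_eq_iff _ _).1 h1
  refine ⟨p'.n + n, n, ?_⟩
  refine MEqv.trans (q.add (IdemMat.one R (p'.n + n))).idem
    ((p.add p'.compl).add (IdemMat.one R n)).idem ?_ h2
  have h3 : VV.mk (q.add (IdemMat.one R (p'.n + n))) =
      VV.mk ((q.add (IdemMat.one R p'.n)).add (IdemMat.one R n)) := by
    have h4 : VV.mk ((IdemMat.one R p'.n).add (IdemMat.one R n)) =
        VV.mk (IdemMat.one R (p'.n + n)) := by
      rw [VV.mk_eq]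
      refine add_eqv _ _ (IdemMat.one R (p'.n + n)).idem ?_
      have h := MEqv.reindex (R := R) finSumFinEquiv
        (e := (1 : Matrix (Fin p'.n ⊕ Fin n) (Fin p'.n ⊕ Fin n) R)) (by simp)
      rw [← Matrix.fromBlocks_one] at h
      have h2 : Matrix.reindex finSumFinEquiv finSumFinEquiv
          (fromBlocks (1 : Matrix (Fin p'.n) (Fin p'.n) R) 0 0
            (1 : Matrix (Fin n) (Fin n) R)) =
          (1 : Matrix (Fin (p'.n + n)) (Fin (p'.n + n)) R) := by
        rw [Matrix.fromBlocks_one, Matrix.reindex_apply, Matrix.submatrix_one_equiv]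
      rw [h2] at h
      exact h
    rw [VV.mk_add, VV.mk_add, VV.mk_add, ← h4, VV.mk_add, add_assoc]
  exact (VV.mk_eq _ _).1 h3

end K0

section NonUnital

/-- `K_0` of a nonunital algebra: the kernel of `K_0` of the projection of the unitization onto
the scalars -/
noncomputable def K0nu (B : Type*) [NonUnitalRing B] [Module ℂ B] [IsScalarTower ℂ B B]
    [SMulCommClass ℂ B B] : AddSubgroup (K0 (Unitization ℂ B)) :=
  (K0.map ((Unitization.fstHom ℂ B : Unitization ℂ B →ₐ[ℂ] ℂ) : Unitization ℂ B →+* ℂ)).ker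

end NonUnital

end P089
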