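import Vale.Agent.Lib.P089.AM.Defs
import Vale.Agent.Lib.P089.AM.K0

/-!
# P089, Part AM, module K: `KRel` is an equivalence relation, reduction to single idempotents
-/

namespace P089.AM

open scoped Classical
open Matrix

section Cls

variable {R : Type} [Ring R] {ι κ μ : Type} [Fintype ι] [Fintype κ] [Fintype μ]

theorem mvn_iff {e : Matrix ι ι R} {f : Matrix κ κ R} : MvN e f ↔ MEqv e f :=
  ⟨fun ⟨a, b, h1, h2⟩ => ⟨b, a, h1, h2⟩, fun ⟨x, y, h1, h2⟩ => ⟨y, x, h1, h2⟩⟩

/-- class of an idempotent matrix with a finite index type -/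
noncomputable def cls (e : Matrix ι ι R) (he : e * e = e) : VV R :=
  VV.mk ⟨Fintype.card ι, Matrix.reindex (Fintype.equivFin ι) (Fintype.equivFin ι) e,
    reindex_idem _ he⟩

theorem cls_eq {e : Matrix ι ι R} {f : Matrix κ κ R} (he : e * e = e) (hf : f * f = f) :
    cls e he = cls f hf ↔ MvN e f := by
  unfold cls
  rw [VV.mk_eq, mvn_iff]
  constructor
  · intro h
    exact ((MEqv.reindex _ he).trans he (reindex_idem _ hf) h).trans he hf
      (MEqv.reindex _ hf).symm
  · intro h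
    exact ((MEqv.reindex _ he).symm.trans (reindex_idem _ he) hf h).trans (reindex_idem _ he)
      (reindex_idem _ hf) (MEqv.reindex _ hf)

theorem bs_idem {e : Matrix ι ι R} {f : Matrix κ κ R} (he : e * e = e) (hf : f * f = f) :
    bs e f * bs e f = bs e f := blocks_idem he hf

theorem cls_bs {e : Matrix ι ι R} {f : Matrix κ κ R} (he : e * e = e) (hf : f * f = f) :
    cls (bs e f) (bs_idem he hf) = cls e he + cls f hf := by
  unfold cls
  rw [← VV.mk_add, VV.mk_eq]
  refine MEqv.symm (add_eqv _ _ (reindex_idem _ (bs_idem he hf)) ?_)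
  exact ((MEqv.reindex _ he).symm.blocks (MEqv.reindex _ hf).symm).trans
    (blocks_idem (reindex_idem _ he) (reindex_idem _ hf)) (reindex_idem _ (bs_idem he hf))
    (MEqv.reindex _ (bs_idem he hf))

theorem compl_idem [DecidableEq ι] {e : Matrix ι ι R} (he : e * e = e) : (1 - e) * (1 - e) = 1 - e := by
  rw [Matrix.mul_sub, Matrix.mul_one, Matrix.sub_mul, Matrix.one_mul, he, sub_self, sub_zero]

theorem one_idem [DecidableEq ι] : (1 : Matrix ι ι R) * 1 = 1 := Matrix.one_mul 1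

theorem cls_compl [DecidableEq ι] {e : Matrix ι ι R} (he : e * e = e) :
    cls e he + cls (1 - e) (compl_idem he) = cls (1 : Matrix ι ι R) one_idem := by
  rw [← cls_bs, cls_eq, mvn_iff]
  have h := MEqv.compl he
  exact h

theorem cls_zero : cls (0 : Matrix ι ι R) (Matrix.mul_zero 0) = 0 := by
  change cls (0 : Matrix ι ι R) (Matrix.mul_zero 0) = VV.mk (IdemMat.zero R)
  unfold cls
  rw [VV.mk_eq]
  refine ⟨0, 0, ?_, ?_⟩
  · rw [Matrix.mul_zero]
    rfl
  · rw [Matrix.mul_zero]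
    rfl

end Cls

section K

variable {B : Type} [NonUnitalRing B] [Module ℂ B] [IsScalarTower ℂ B B] [SMulCommClass ℂ B B]

theorem krel_iff {x y : KCyc B} :
    KRel x y ↔ ∃ (m : ℕ) (r : Matrix (Fin m) (Fin m) (Unitization ℂ B)) (hr : r * r = r),
      cls x.p x.hp + cls y.q y.hq + cls r hr = cls y.p y.hp + cls x.q x.hq + cls r hr := by
  constructor
  · rintro ⟨m, r, hr, h⟩
    refine ⟨m, r, hr, ?_⟩
    rw [← cls_bs, ← cls_bs, ← cls_bs, ← cls_bs, cls_eq]
    exact h
  · rintro ⟨m, r, hr, h⟩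
    refine ⟨m, r, hr, ?_⟩
    rw [← cls_bs, ← cls_bs, ← cls_bs, ← cls_bs, cls_eq] at h
    exact h

theorem krel_refl (x : KCyc B) : KRel x x :=
  krel_iff.2 ⟨0, 0, Matrix.mul_zero 0, rfl⟩

theorem krel_symm {x y : KCyc B} (h : KRel x y) : KRel y x := by
  obtain ⟨m, r, hr, h⟩ := krel_iff.1 h
  exact krel_iff.2 ⟨m, r, hr, h.symm⟩

theorem cls_fin {R : Type} [Ring R] {ι : Type} [Fintype ι] (e : Matrix ι ι R) (he : e * e = e) :
    ∃ (m : ℕ) (r : Matrix (Fin m) (Fin m) R) (hr : r * r = r), cls e he = cls r hr := by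
  refine ⟨Fintype.card ι, Matrix.reindex (Fintype.equivFin ι) (Fintype.equivFin ι) e,
    reindex_idem _ he, ?_⟩
  rw [cls_eq, mvn_iff]
  exact MEqv.reindex _ he

theorem krel_trans {x y z : KCyc B} (h : KRel x y) (h' : KRel y z) : KRel x z := by
  obtain ⟨m, r, hr, h⟩ := krel_iff.1 h
  obtain ⟨m', r', hr', h'⟩ := krel_iff.1 h'
  obtain ⟨k, s, hs, h1⟩ := cls_fin (bs (bs y.p y.q) (bs r r'))
    (bs_idem (bs_idem y.hp y.hq) (bs_idem hr hr'))
  refine krel_iff.2 ⟨k, s, hs, ?_⟩
  rw [← h1, cls_bs (bs_idem y.hp y.hq) (bs_idem hr hr'), cls_bs y.hp y.hq, cls_bs hr hr']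
  calc cls x.p x.hp + cls z.q z.hq + (cls y.p y.hp + cls y.q y.hq + (cls r hr + cls r' hr')) =
      (cls x.p x.hp + cls y.q y.hq + cls r hr) + (cls y.p y.hp + cls z.q z.hq + cls r' hr') := by
        abel
    _ = (cls y.p y.hp + cls x.q x.hq + cls r hr) + (cls z.p z.hp + cls y.q y.hq + cls r' hr') := by
        rw [h, h']
    _ = cls z.p z.hp + cls x.q x.hq + (cls y.p y.hp + cls y.q y.hq + (cls r hr + cls r' hr')) := by
        abel

/-- `KRel` is an equivalence relation -/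
theorem krel_equivalence : Equivalence (KRel (B := B)) :=
  ⟨krel_refl, krel_symm, krel_trans⟩

theorem krel_of_eq {x y : KCyc B} (h : Quot.mk KRel x = Quot.mk KRel y) : KRel x y :=
  krel_equivalence.eqvGen_iff.1 (Quot.eqvGen_exact h)

/-- `[q] = [p] - [p']` implies `q + 1_n + 1_m ~ p + (1 - p') + 1_m` -/
theorem krel_reduce {x y : KCyc B} (h : KRel x y) (hy : y.q = 0) :
    ∃ m : ℕ, MvN
      (bs (bs y.p (1 : Matrix (Fin x.n) (Fin x.n) (Unitization ℂ B)))
        (1 : Matrix (Fin m) (Fin m) (Unitization ℂ B)))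
      (bs (bs x.p (1 - x.q)) (1 : Matrix (Fin m) (Fin m) (Unitization ℂ B))) := by
  obtain ⟨m, r, hr, h⟩ := krel_iff.1 h
  refine ⟨m, ?_⟩
  have hz : cls y.q y.hq = 0 := by
    have h1 : cls y.q y.hq = cls (0 : Matrix (Fin y.n) (Fin y.n) (Unitization ℂ B))
        (Matrix.mul_zero 0) := by
      congr 1
    rw [h1, cls_zero]
  rw [hz, add_zero] at h
  rw [← cls_eq (bs_idem (bs_idem y.hp one_idem) one_idem)
    (bs_idem (bs_idem x.hp (compl_idem x.hq)) one_idem), cls_bs (bs_idem y.hp one_idem) one_idem,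
    cls_bs y.hp one_idem, cls_bs (bs_idem x.hp (compl_idem x.hq)) one_idem,
    cls_bs x.hp (compl_idem x.hq), ← cls_compl x.hq, ← cls_compl hr]
  calc cls y.p y.hp + (cls x.q x.hq + cls (1 - x.q) (compl_idem x.hq)) +
        (cls r hr + cls (1 - r) (compl_idem hr)) =
      (cls y.p y.hp + cls x.q x.hq + cls r hr) + cls (1 - x.q) (compl_idem x.hq) +
        cls (1 - r) (compl_idem hr) := by abel
    _ = (cls x.p x.hp + cls r hr) + cls (1 - x.q) (compl_idem x.hq) +
        cls (1 - r) (compl_idem hr) := by rw [h]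
    _ = cls x.p x.hp + cls (1 - x.q) (compl_idem x.hq) +
        (cls r hr + cls (1 - r) (compl_idem hr)) := by abel

end K

end P089.AM
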