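import Vale.Agent.Lib.P089.AM.Iface
import Vale.Agent.Lib.P089.AM.K

/-!
# P089 AM: Part K
-/

namespace P089.AM

theorem partK : PartK := by
  intro B _ _ _ _ x s hs h
  obtain ⟨m, hm⟩ := krel_reduce (krel_of_eq h) rfl
  exact ⟨m, mvn_iff.2 (mvn_iff.1 hm).symm⟩

end P089.AM
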