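import Vale.Agent.Lib.P089.AM.Defs

/-!
# P089 AM: approximation of compact operators on `ℓ²(I)` by cut-downs, and a norm estimate for
operators with locally finite supports
-/

namespace P089.AM

open scoped Classical NNReal

noncomputable section

variable {I : Type}

theorem RoeA_norm_cut_le (s : Set I) : ‖(cut s : L2 I →L[ℂ] L2 I)‖ ≤ 1 :=
  LinearMap.mkContinuous_norm_le _ zero_le_one _

theorem RoeA_cut_mul (s t : Set I) : (cut s : L2 I →L[ℂ] L2 I) * cut t = cut (s ∩ t) := by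
  refine ContinuousLinearMap.ext fun ξ => ?_
  ext i
  change cut s (cut t ξ) i = cut (s ∩ t) ξ i
  rw [cut_apply, cut_apply, cut_apply]
  by_cases h1 : i ∈ s <;> by_cases h2 : i ∈ t <;> simp [h1, h2]

theorem RoeA_inner_cut (s : Set I) (ξ η : L2 I) :
    inner ℂ (cut s ξ) η = inner ℂ ξ (cut s η) := by
  rw [lp.inner_eq_tsum, lp.inner_eq_tsum]
  refine tsum_congr fun i => ?_
  rw [cut_apply, cut_apply]
  split_ifs
  · rfl
  · simp

theorem RoeA_star_cut (s : Set I) : star (cut s : L2 I →L[ℂ] L2 I) = cut s := by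
  rw [ContinuousLinearMap.star_eq_adjoint]
  refine (ContinuousLinearMap.eq_adjoint_iff _ _).2 (fun x y => ?_) |>.symm
  exact RoeA_inner_cut s x y

theorem RoeA_cut_finset (Y : Finset I) (η : L2 I) :
    cut (Y : Set I) η = ∑ i ∈ Y, lp.single 2 i (η i) := by
  ext j
  rw [cut_apply, lp.coeFn_sum, Finset.sum_apply]
  by_cases h : j ∈ Y
  · rw [if_pos (Finset.mem_coe.2 h), Finset.sum_eq_single j]
    · rw [lp.single_apply_self]
    · intro b _ hb
      rw [lp.single_apply_ne _ _ _ hb.symm]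
    · intro h2
      exact absurd h h2
  · rw [if_neg (fun h2 => h (Finset.mem_coe.1 h2)), Finset.sum_eq_zero]
    intro b hb
    have hne : j ≠ b := fun h2 => h (h2 ▸ hb)
    rw [lp.single_apply_ne _ _ _ hne]

theorem RoeA_tail (η : L2 I) {ε : ℝ} (hε : 0 < ε) :
    ∃ Y : Finset I, ∀ s : Set I, (Y : Set I) ⊆ s → ‖η - cut s η‖ ≤ ε := by
  have h1 : HasSum (fun i => lp.single 2 i (η i)) η := lp.hasSum_single (by norm_num) η
  obtain ⟨Y, hY⟩ := (Metric.tendsto_atTop.1 h1) ε hε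
  refine ⟨Y, fun s hs => ?_⟩
  have h2 := (hY Y le_rfl).le
  rw [dist_eq_norm, ← RoeA_cut_finset, norm_sub_rev] at h2
  refine le_trans ?_ h2
  refine lp.norm_mono (by norm_num) fun i => ?_
  rw [lp.coeFn_sub, lp.coeFn_sub, Pi.sub_apply, Pi.sub_apply, cut_apply, cut_apply]
  by_cases hi : i ∈ s
  · rw [if_pos hi, sub_self, norm_zero]
    exact norm_nonneg _
  · rw [if_neg hi, if_neg (fun h => hi (hs h))]

/-- rows of a compact operator -/
theorem RoeA_compact_left {K : L2 I →L[ℂ] L2 I} (hK : IsCompactOperator K) {ε : ℝ} (hε : 0 < ε) :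
    ∃ Y : Finset I, ∀ s : Set I, (Y : Set I) ⊆ s → ‖K - cut s * K‖ ≤ ε := by
  have h1 : IsCompact (closure (K '' Metric.closedBall 0 1)) :=
    hK.isCompact_closure_image_closedBall 1
  obtain ⟨t, ht1, ht2⟩ := Metric.totallyBounded_iff.1 h1.totallyBounded (ε / 4) (by positivity)
  have h2 : ∀ η : L2 I, ∃ Y : Finset I, ∀ s : Set I, (Y : Set I) ⊆ s → ‖η - cut s η‖ ≤ ε / 4 :=
    fun η => RoeA_tail η (by positivity)
  choose Y hY using h2
  refine ⟨ht1.toFinset.biUnion Y, fun s hs => ?_⟩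
  refine ContinuousLinearMap.opNorm_le_of_unit_norm (𝕜 := ℂ) hε.le fun ξ hξ => ?_
  have h3 : K ξ ∈ closure (K '' Metric.closedBall 0 1) :=
    subset_closure ⟨ξ, by rw [mem_closedBall_zero_iff]; exact hξ.le, rfl⟩
  obtain ⟨η, hη, hd⟩ := Set.mem_iUnion₂.1 (ht2 h3)
  rw [Metric.mem_ball, dist_eq_norm] at hd
  have h4 : ‖η - cut s η‖ ≤ ε / 4 := by
    refine hY η s fun i hi => hs ?_
    rw [Finset.mem_coe, Finset.mem_biUnion]
    exact ⟨η, ht1.mem_toFinset.2 hη, hi⟩
  have h5 : (K - cut s * K) ξ = (K ξ - η) - cut s (K ξ - η) + (η - cut s η) := by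
    change K ξ - cut s (K ξ) = _
    rw [map_sub]
    abel
  have h6 : ‖cut s (K ξ - η)‖ ≤ 1 * ‖K ξ - η‖ :=
    (cut s).le_of_opNorm_le (RoeA_norm_cut_le s) _
  rw [h5]
  calc ‖(K ξ - η) - cut s (K ξ - η) + (η - cut s η)‖
      ≤ ‖K ξ - η‖ + ‖cut s (K ξ - η)‖ + ‖η - cut s η‖ :=
        (norm_add_le _ _).trans (add_le_add (norm_sub_le _ _) le_rfl)
    _ ≤ ε / 4 + ε / 4 + ε / 4 := by linarith
    _ ≤ ε := by linarith

/-- matrix elements as inner products -/
theorem RoeA_apply_eq_inner (K : L2 I →L[ℂ] L2 I) (ξ : L2 I) (y : I) :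
    K ξ y = inner ℂ (star K (lp.single 2 y (1 : ℂ))) ξ := by
  rw [ContinuousLinearMap.star_eq_adjoint, ContinuousLinearMap.adjoint_inner_left,
    lp.inner_single_left]
  simp

theorem RoeA_norm_star (T : L2 I →L[ℂ] L2 I) : ‖star T‖ = ‖T‖ := by
  rw [ContinuousLinearMap.star_eq_adjoint]
  exact LinearIsometryEquiv.norm_map _ _

theorem RoeA_ent_star (T : L2 I →L[ℂ] L2 I) (y y' : I) :
    ent (star T) y y' = star (ent T y' y) := by
  unfold ent
  rw [RoeA_apply_eq_inner, star_star, lp.inner_single_right]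
  simp

/-- columns of a compact operator -/
theorem RoeA_compact_right {K : L2 I →L[ℂ] L2 I} (hK : IsCompactOperator K) {ε : ℝ} (hε : 0 < ε) :
    ∃ Y : Finset I, ∀ s : Set I, (Y : Set I) ⊆ s → ‖K - K * cut s‖ ≤ ε := by
  obtain ⟨Y1, hY1⟩ := RoeA_compact_left hK (half_pos (half_pos hε))
  have h1 := hY1 _ (subset_refl (Y1 : Set I))
  have h2 : ∀ y : I, ∃ Y : Finset I, ∀ s : Set I, (Y : Set I) ⊆ s →
      ‖star K (lp.single 2 y (1 : ℂ)) - cut s (star K (lp.single 2 y (1 : ℂ)))‖ ≤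
        ε / (2 * (Y1.card + 1)) := fun y => RoeA_tail _ (by positivity)
  choose Y hY using h2
  refine ⟨Y1.biUnion Y, fun s hs => ?_⟩
  have h3 : ‖cut (Y1 : Set I) * (K - K * cut s)‖ ≤ ε / 2 := by
    refine ContinuousLinearMap.opNorm_le_bound _ (by positivity) fun ξ => ?_
    have h4 : (cut (Y1 : Set I) * (K - K * cut s)) ξ =
        ∑ y ∈ Y1, lp.single 2 y (K (ξ - cut s ξ) y) := by
      rw [← RoeA_cut_finset]
      change cut (Y1 : Set I) (K ξ - K (cut s ξ)) = _
      rw [map_sub K]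
    rw [h4]
    calc ‖∑ y ∈ Y1, lp.single 2 y (K (ξ - cut s ξ) y)‖
        ≤ ∑ y ∈ Y1, ‖(lp.single 2 y (K (ξ - cut s ξ) y) : L2 I)‖ := norm_sum_le _ _
      _ ≤ ∑ y ∈ Y1, ε / (2 * (Y1.card + 1)) * ‖ξ‖ := by
          refine Finset.sum_le_sum fun y hy => ?_
          rw [lp.norm_single (by norm_num), RoeA_apply_eq_inner]
          have h5 : inner ℂ (star K (lp.single 2 y (1 : ℂ))) (ξ - cut s ξ) =
              inner ℂ (star K (lp.single 2 y (1 : ℂ)) -
                cut s (star K (lp.single 2 y (1 : ℂ)))) ξ := by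
            rw [inner_sub_right, inner_sub_left, RoeA_inner_cut]
          rw [h5]
          refine (norm_inner_le_norm _ _).trans ?_
          gcongr
          refine hY y s fun i hi => hs ?_
          rw [Finset.mem_coe, Finset.mem_biUnion]
          exact ⟨y, hy, hi⟩
      _ = Y1.card * (ε / (2 * (Y1.card + 1))) * ‖ξ‖ := by
          rw [Finset.sum_const, nsmul_eq_mul, mul_assoc]
      _ ≤ ε / 2 * ‖ξ‖ := by
          gcongr
          rw [mul_div_assoc', div_le_div_iff₀ (by positivity) (by positivity)]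
          nlinarith
  have h6 : K - K * cut s = (K - cut (Y1 : Set I) * K) * (1 - cut s) +
      cut (Y1 : Set I) * (K - K * cut s) := by
    noncomm_ring
  have h7 : (1 - cut s : L2 I →L[ℂ] L2 I) = cut sᶜ := by
    refine ContinuousLinearMap.ext fun ξ => ?_
    ext i
    change (ξ - cut s ξ) i = cut sᶜ ξ i
    rw [lp.coeFn_sub, Pi.sub_apply, cut_apply, cut_apply]
    by_cases h : i ∈ s
    · rw [if_pos h, if_neg (fun h2 => h2 h), sub_self]
    · rw [if_neg h, if_pos (show i ∈ sᶜ from h), sub_zero]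
  rw [h6]
  calc ‖(K - cut (Y1 : Set I) * K) * (1 - cut s) + cut (Y1 : Set I) * (K - K * cut s)‖
      ≤ ‖(K - cut (Y1 : Set I) * K) * (1 - cut s)‖ + ‖cut (Y1 : Set I) * (K - K * cut s)‖ :=
        norm_add_le _ _
    _ ≤ ε / 2 / 2 * 1 + ε / 2 := by
        refine add_le_add ((norm_mul_le _ _).trans ?_) h3
        rw [h7]
        exact mul_le_mul h1 (RoeA_norm_cut_le _) (norm_nonneg _) (by positivity)
    _ ≤ ε := by linarith

theorem RoeA_sq (ξ : L2 I) : ENNReal.ofReal (‖ξ‖ ^ 2) = ∑' i, ENNReal.ofReal (‖ξ i‖ ^ 2) := by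
  have hp : 0 < (2 : ENNReal).toReal := by norm_num
  have h1 : Summable fun i => ‖ξ i‖ ^ (2 : ENNReal).toReal := (lp.memℓp ξ).summable hp
  have h2 := lp.norm_rpow_eq_tsum hp ξ
  have h3 : (2 : ENNReal).toReal = ((2 : ℕ) : ℝ) := by norm_num
  simp only [h3, Real.rpow_natCast] at h1 h2
  rw [h2, ENNReal.ofReal_tsum_of_nonneg (fun i => by positivity) h1]

theorem RoeA_hasSum (T : L2 I →L[ℂ] L2 I) (ξ : L2 I) (i : I) :
    HasSum (fun j => ent T i j * ξ j) (T ξ i) := by
  have h1 : HasSum (fun j => lp.single 2 j (ξ j)) ξ := lp.hasSum_single (by norm_num) ξ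
  have h2 : HasSum (fun j => T (lp.single 2 j (ξ j))) (T ξ) := h1.mapL T
  have h3 : Continuous fun η : L2 I => (η : I → ℂ) i := by
    have h4 : LipschitzWith 1 fun η : L2 I => (η : I → ℂ) i := by
      refine LipschitzWith.of_dist_le_mul fun a b => ?_
      rw [NNReal.coe_one, one_mul, dist_eq_norm, dist_eq_norm]
      exact lp.norm_apply_le_norm (by norm_num) (a - b) i
    exact h4.continuous
  have h4 : HasSum (fun j => (T (lp.single 2 j (ξ j)) : I → ℂ) i) ((T ξ : I → ℂ) i) := by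
    have h5 := h2.map (G := (L2 I) →+ ℂ)
      { toFun := fun η : L2 I => (η : I → ℂ) i, map_zero' := rfl, map_add' := fun _ _ => rfl } h3
    exact h5
  refine h4.congr_fun ?_
  intro j
  have h6 : (lp.single 2 j (ξ j) : L2 I) = ξ j • lp.single 2 j (1 : ℂ) := by
    rw [← lp.single_smul, smul_eq_mul, mul_one]
  change ent T i j * ξ j = (T (lp.single 2 j (ξ j)) : I → ℂ) i
  rw [h6, map_smul, lp.coeFn_smul, Pi.smul_apply, smul_eq_mul, mul_comm]
  rfl

theorem RoeA_ent_apply_congr {T : L2 I →L[ℂ] L2 I} {ξ η : L2 I} {i : I}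
    (h : ∀ j, ent T i j ≠ 0 → ξ j = η j) : T ξ i = T η i := by
  refine (RoeA_hasSum T ξ i).unique ?_
  convert RoeA_hasSum T η i using 1
  funext j
  by_cases h1 : ent T i j = 0
  · rw [h1, zero_mul, zero_mul]
  · rw [h j h1]

/-- norm estimate for operators with locally finite supports -/
theorem RoeA_bound {ι : Type} (S : L2 I →L[ℂ] L2 I) (R N : ι → Set I) {c : ℝ} (hc : 0 ≤ c) (M : ℕ)
    (hR : ∀ y y', ent S y y' ≠ 0 → ∃ g, y ∈ R g)
    (hN : ∀ g y y', y ∈ R g → ent S y y' ≠ 0 → y' ∈ N g)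
    (hS : ∀ g, ‖cut (R g) * S‖ ≤ c)
    (hM : ∀ y', ∃ A : Finset ι, A.card ≤ M ∧ ∀ g, y' ∈ N g → g ∈ A) : ‖S‖ ≤ √M * c := by
  refine ContinuousLinearMap.opNorm_le_bound _ (by positivity) fun ξ => ?_
  have h1 : ENNReal.ofReal (‖S ξ‖ ^ 2) ≤ ENNReal.ofReal (M * c ^ 2 * ‖ξ‖ ^ 2) := by
    calc ENNReal.ofReal (‖S ξ‖ ^ 2) = ∑' y, ENNReal.ofReal (‖S ξ y‖ ^ 2) := RoeA_sq _
      _ ≤ ∑' y, ∑' g, ENNReal.ofReal (‖cut (R g) (S (cut (N g) ξ)) y‖ ^ 2) := by
          refine ENNReal.tsum_le_tsum fun y => ?_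
          by_cases hy : ∃ y', ent S y y' ≠ 0
          · obtain ⟨y', hy'⟩ := hy
            obtain ⟨g, hg⟩ := hR y y' hy'
            refine le_trans (le_of_eq ?_) (ENNReal.le_tsum g)
            rw [cut_apply, if_pos hg]
            have h2 : S ξ y = S (cut (N g) ξ) y := by
              refine RoeA_ent_apply_congr fun j hj => ?_
              rw [cut_apply, if_pos (hN g y j hg hj)]
            rw [h2]
          · push Not at hy
            have h2 : S ξ y = S 0 y := by
              refine RoeA_ent_apply_congr fun j hj => ?_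
              exact absurd (hy j) hj
            rw [h2, map_zero, lp.coeFn_zero, Pi.zero_apply, norm_zero]
            simp
      _ = ∑' g, ∑' y, ENNReal.ofReal (‖cut (R g) (S (cut (N g) ξ)) y‖ ^ 2) := ENNReal.tsum_comm
      _ = ∑' g, ENNReal.ofReal (‖cut (R g) (S (cut (N g) ξ))‖ ^ 2) := by
          refine tsum_congr fun g => ?_
          rw [RoeA_sq]
      _ ≤ ∑' g, ENNReal.ofReal (c ^ 2) * ENNReal.ofReal (‖cut (N g) ξ‖ ^ 2) := by
          refine ENNReal.tsum_le_tsum fun g => ?_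
          rw [← ENNReal.ofReal_mul (by positivity), ← mul_pow]
          refine ENNReal.ofReal_le_ofReal (pow_le_pow_left₀ (norm_nonneg _) ?_ 2)
          exact (cut (R g) * S).le_of_opNorm_le (hS g) (cut (N g) ξ)
      _ = ENNReal.ofReal (c ^ 2) * ∑' g, ∑' y, ENNReal.ofReal (‖cut (N g) ξ y‖ ^ 2) := by
          rw [ENNReal.tsum_mul_left]
          congr 1
          refine tsum_congr fun g => ?_
          rw [RoeA_sq]
      _ = ENNReal.ofReal (c ^ 2) * ∑' y, ∑' g, ENNReal.ofReal (‖cut (N g) ξ y‖ ^ 2) := by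
          rw [ENNReal.tsum_comm]
      _ ≤ ENNReal.ofReal (c ^ 2) * ∑' y, (M : ENNReal) * ENNReal.ofReal (‖ξ y‖ ^ 2) := by
          gcongr with y
          obtain ⟨A, hA, hA2⟩ := hM y
          rw [tsum_eq_sum (s := A)]
          · calc ∑ g ∈ A, ENNReal.ofReal (‖cut (N g) ξ y‖ ^ 2)
                ≤ ∑ g ∈ A, ENNReal.ofReal (‖ξ y‖ ^ 2) := by
                  refine Finset.sum_le_sum fun g _ => ENNReal.ofReal_le_ofReal ?_
                  rw [cut_apply]
                  split_ifs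
                  · exact le_rfl
                  · rw [norm_zero, zero_pow two_ne_zero]
                    exact sq_nonneg _
              _ = A.card * ENNReal.ofReal (‖ξ y‖ ^ 2) := by
                  rw [Finset.sum_const, nsmul_eq_mul]
              _ ≤ (M : ENNReal) * ENNReal.ofReal (‖ξ y‖ ^ 2) := by
                  gcongr
          · intro g hg
            rw [cut_apply, if_neg (fun h => hg (hA2 g h)), norm_zero]
            simp
      _ = ENNReal.ofReal (M * c ^ 2 * ‖ξ‖ ^ 2) := by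
          rw [ENNReal.tsum_mul_left, ← RoeA_sq, ENNReal.ofReal_mul (by positivity),
            ENNReal.ofReal_mul (by positivity), ENNReal.ofReal_natCast]
          ring
  rw [ENNReal.ofReal_le_ofReal_iff (by positivity)] at h1
  have h2 : (√M * c * ‖ξ‖) ^ 2 = M * c ^ 2 * ‖ξ‖ ^ 2 := by
    rw [mul_pow, mul_pow, Real.sq_sqrt (Nat.cast_nonneg M)]
  rw [← h2] at h1
  exact (pow_le_pow_iff_left₀ (norm_nonneg _) (by positivity) two_ne_zero).1 h1

end

end P089.AM
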