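import Vale.Agent.Lib.P089.AM.Iface
import Vale.Agent.Lib.P089.AM.RoeA

/-!
# P089 AM: the Roe algebra is contained in the algebra `U` (Part Roe)
-/

namespace P089.AM

open scoped Classical NNReal

noncomputable section

variable {G : Type} [Group G]

/-- the star of the vertex `g` -/
def RoeU_st (g : G) : Set (G × WG G) := {y | (pos y).1 g ≠ 0}

theorem RoeU_pos (g : G) (y : G × WG G) (h : G) :
    (pos (g * y.1, y.2)).1 h = (pos y).1 (g⁻¹ * h) := by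
  unfold pos
  rw [tr_apply, tr_apply]
  congr 1
  group

theorem RoeU_exists (y : G × WG G) : ∃ g, (pos y).1 g ≠ 0 := by
  by_contra hcon
  push Not at hcon
  have h1 := (pos y).2.2
  have h2 : ∑ g ∈ (pos y).1.support, (pos y).1 g = 0 := Finset.sum_eq_zero fun g _ => hcon g
  rw [h2] at h1
  exact zero_ne_one h1

theorem RoeU_norm_lz {W : Type} (g : G) : ‖(lz g : L2 (G × W) →L[ℂ] L2 (G × W))‖ ≤ 1 := by
  refine ContinuousLinearMap.opNorm_le_bound _ zero_le_one fun ξ => ?_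
  rw [one_mul]
  exact (norm_comp' (Equiv.prodCongr (Equiv.mulLeft g⁻¹) (Equiv.refl W)) ξ).le

theorem RoeU_lz_mul {W : Type} (g : G) :
    (lz g : L2 (G × W) →L[ℂ] L2 (G × W)) * lz g⁻¹ = 1 := by
  refine ContinuousLinearMap.ext fun ξ => ?_
  ext y
  change lz g (lz g⁻¹ ξ) y = ξ y
  rw [lz_apply, lz_apply]
  have h2 : ((g⁻¹⁻¹ * (g⁻¹ * y.1, y.2).1, (g⁻¹ * y.1, y.2).2) : G × W) = y := by
    refine Prod.ext ?_ rfl
    change g⁻¹⁻¹ * (g⁻¹ * y.1) = y.1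
    group
  rw [h2]

theorem RoeU_cut_st (g : G) : (cut (RoeU_st g) : HX G →L[ℂ] HX G) =
    lz g * cut (RoeU_st 1) * lz g⁻¹ := by
  refine ContinuousLinearMap.ext fun ξ => ?_
  ext y
  change cut (RoeU_st g) ξ y = lz g (cut (RoeU_st 1) (lz g⁻¹ ξ)) y
  rw [lz_apply, cut_apply, cut_apply, lz_apply]
  have h1 : (g⁻¹ * y.1, y.2) ∈ RoeU_st (1 : G) ↔ y ∈ RoeU_st g := by
    change (pos (g⁻¹ * y.1, y.2)).1 1 ≠ 0 ↔ (pos y).1 g ≠ 0
    rw [RoeU_pos, inv_inv, mul_one]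
  have h2 : ((g⁻¹⁻¹ * (g⁻¹ * y.1, y.2).1, (g⁻¹ * y.1, y.2).2) : G × WG G) = y := by
    refine Prod.ext ?_ rfl
    change g⁻¹⁻¹ * (g⁻¹ * y.1) = y.1
    group
  by_cases h : y ∈ RoeU_st g
  · rw [if_pos h, if_pos (h1.2 h), h2]
  · rw [if_neg h, if_neg (fun h3 => h (h1.1 h3))]

/-- the norm of an operator of finite propagation on the Rips complex -/
theorem RoeU_bound (F K : Finset G) : ∃ m : ℝ, 0 < m ∧ ∀ (S : HX G →L[ℂ] HX G) (c : ℝ), 0 ≤ c →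
    (∀ y y', ent S y y' ≠ 0 → (InP F (pos y) ∧ InP F (pos y')) ∧
      ∃ a b, (pos y).1 a ≠ 0 ∧ (pos y').1 b ≠ 0 ∧ a⁻¹ * b ∈ K) →
    (∀ g, ‖cut (RoeU_st g) * S‖ ≤ c) → ‖S‖ ≤ m * c := by
  set K' : Finset G := (F ×ˢ K).image (fun p => p.1 * p.2) with hK'
  refine ⟨√((F.card * K'.card : ℕ) : ℝ) + 1, by positivity, fun S c hc h1 h2 => ?_⟩
  have h3 : ‖S‖ ≤ √((F.card * K'.card : ℕ) : ℝ) * c := by
    refine RoeA_bound S (RoeU_st : G → Set (G × WG G))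
      (fun g => {y' | InP F (pos y') ∧ ∃ k ∈ K', (pos y').1 (g * k) ≠ 0}) hc _ ?_ ?_ h2 ?_
    · intro y y' _
      exact RoeU_exists y
    · intro g y y' hy hyy
      obtain ⟨⟨h3, h4⟩, a, b, ha, hb, hab⟩ := h1 y y' hyy
      refine ⟨h4, g⁻¹ * b, ?_, ?_⟩
      · rw [hK', Finset.mem_image]
        refine ⟨(g⁻¹ * a, a⁻¹ * b), Finset.mem_product.2 ⟨h3 g a hy ha, hab⟩, ?_⟩
        change g⁻¹ * a * (a⁻¹ * b) = g⁻¹ * b
        group
      · rw [mul_inv_cancel_left]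
        exact hb
    · intro y'
      obtain ⟨b0, hb0⟩ := RoeU_exists y'
      refine ⟨(F ×ˢ K').image (fun p => b0 * p.1 * p.2⁻¹), ?_, ?_⟩
      · refine Finset.card_image_le.trans (le_of_eq ?_)
        rw [Finset.card_product]
      · rintro g ⟨hin, k, hk, hgk⟩
        rw [Finset.mem_image]
        refine ⟨(b0⁻¹ * (g * k), k), Finset.mem_product.2 ⟨hin b0 (g * k) hb0 hgk, hk⟩, ?_⟩
        change b0 * (b0⁻¹ * (g * k)) * k⁻¹ = g
        group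
  refine h3.trans ?_
  nlinarith

theorem RoeU_ent_sub (S T : HX G →L[ℂ] HX G) (y y' : G × WG G) :
    ent (S - T) y y' = ent S y y' - ent T y y' := rfl

theorem RoeU_ent_cut_mul (s : Set (G × WG G)) (T : HX G →L[ℂ] HX G) (y y' : G × WG G) :
    ent (cut s * T) y y' = if y ∈ s then ent T y y' else 0 := rfl

/-- rows -/
theorem RoeU_rows {F : Finset G} {T : HX G →L[ℂ] HX G} (hE : Equi T) (hs : SuppIn F T)
    (hp : FinProp T) (hc : IsCompactOperator (cut (RoeU_st (1 : G)) * T)) {ε : ℝ} (hε : 0 < ε) :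
    ∃ Z0 : Finset (WG G), ∀ Z, Z0 ⊆ Z → ‖T - EZ Z * T‖ ≤ ε := by
  obtain ⟨K, hK⟩ := hp
  obtain ⟨m, hm, hb⟩ := RoeU_bound F K
  obtain ⟨Y, hY⟩ := RoeA_compact_left hc (div_pos hε hm)
  refine ⟨Y.image Prod.snd, fun Z hZ => ?_⟩
  have hs1 : (Y : Set (G × WG G)) ⊆ {y | y.2 ∈ Z} := fun y hy =>
    hZ (Finset.mem_image.2 ⟨y, hy, rfl⟩)
  have h1 := hY _ hs1
  have h2 : (cut (RoeU_st (1 : G)) : HX G →L[ℂ] HX G) * (T - EZ Z * T) =
      cut (RoeU_st 1) * T - cut {y | y.2 ∈ Z} * (cut (RoeU_st 1) * T) := by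
    rw [mul_sub, ← mul_assoc, ← mul_assoc]
    congr 2
    unfold EZ
    rw [RoeA_cut_mul, RoeA_cut_mul, Set.inter_comm]
  have h3 : ∀ g : G, ‖cut (RoeU_st g) * (T - EZ Z * T)‖ ≤ ε / m := by
    intro g
    have h4 : lz g⁻¹ * (T - EZ Z * T) = (T - EZ Z * T) * lz g⁻¹ := by
      rw [mul_sub, sub_mul, lz_comm hE, ← mul_assoc, ← EZ_lz, mul_assoc, lz_comm hE, ← mul_assoc]
    rw [RoeU_cut_st, mul_assoc, h4, ← mul_assoc, mul_assoc (lz g), h2]
    calc ‖lz g * (cut (RoeU_st 1) * T - cut {y | y.2 ∈ Z} * (cut (RoeU_st 1) * T)) * lz g⁻¹‖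
        ≤ ‖(lz g : HX G →L[ℂ] HX G)‖ *
          ‖cut (RoeU_st 1) * T - cut {y | y.2 ∈ Z} * (cut (RoeU_st 1) * T)‖ *
            ‖(lz g⁻¹ : HX G →L[ℂ] HX G)‖ :=
          (norm_mul_le _ _).trans (mul_le_mul_of_nonneg_right (norm_mul_le _ _) (norm_nonneg _))
      _ ≤ 1 * (ε / m) * 1 := by
          gcongr
          · exact RoeU_norm_lz g
          · exact RoeU_norm_lz g⁻¹
      _ = ε / m := by ring
  have h5 := hb (T - EZ Z * T) (ε / m) (by positivity) (fun y y' hyy => ?_) h3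
  · rwa [mul_div_cancel₀ _ hm.ne'] at h5
  · have h6 : ent T y y' ≠ 0 := by
      intro h7
      refine hyy ?_
      change ent (T - EZ Z * T) y y' = 0
      unfold EZ
      rw [RoeU_ent_sub, RoeU_ent_cut_mul, h7, ite_self, sub_zero]
    exact ⟨hs y y' h6, hK y y' h6⟩

/-- columns -/
theorem RoeU_cols {F : Finset G} {T : HX G →L[ℂ] HX G} (hE : Equi T) (hs : SuppIn F T)
    (hp : FinProp T) (hc : IsCompactOperator (T * cut (RoeU_st (1 : G)))) {ε : ℝ} (hε : 0 < ε) :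
    ∃ Z0 : Finset (WG G), ∀ Z, Z0 ⊆ Z → ‖T - T * EZ Z‖ ≤ ε := by
  obtain ⟨K, hK⟩ := hp
  obtain ⟨m, hm, hb⟩ := RoeU_bound F (K.image (·⁻¹))
  obtain ⟨Y, hY⟩ := RoeA_compact_right hc (div_pos hε hm)
  refine ⟨Y.image Prod.snd, fun Z hZ => ?_⟩
  have hs1 : (Y : Set (G × WG G)) ⊆ {y | y.2 ∈ Z} := fun y hy =>
    hZ (Finset.mem_image.2 ⟨y, hy, rfl⟩)
  have h1 := hY _ hs1
  have h2 : (T - T * EZ Z) * (cut (RoeU_st (1 : G)) : HX G →L[ℂ] HX G) =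
      T * cut (RoeU_st 1) - T * cut (RoeU_st 1) * cut {y | y.2 ∈ Z} := by
    rw [sub_mul, mul_assoc, mul_assoc]
    congr 2
    unfold EZ
    rw [RoeA_cut_mul, RoeA_cut_mul, Set.inter_comm]
  have h3 : ∀ g : G, ‖(T - T * EZ Z) * cut (RoeU_st g)‖ ≤ ε / m := by
    intro g
    have h4 : lz g * (T - T * EZ Z) = (T - T * EZ Z) * lz g := by
      rw [mul_sub, sub_mul, lz_comm hE, ← mul_assoc, lz_comm hE, mul_assoc, ← EZ_lz, ← mul_assoc]
    rw [RoeU_cut_st, ← mul_assoc, ← mul_assoc, ← h4, mul_assoc (lz g), h2]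
    calc ‖lz g * (T * cut (RoeU_st 1) - T * cut (RoeU_st 1) * cut {y | y.2 ∈ Z}) * lz g⁻¹‖
        ≤ ‖(lz g : HX G →L[ℂ] HX G)‖ *
          ‖T * cut (RoeU_st 1) - T * cut (RoeU_st 1) * cut {y | y.2 ∈ Z}‖ *
            ‖(lz g⁻¹ : HX G →L[ℂ] HX G)‖ :=
          (norm_mul_le _ _).trans (mul_le_mul_of_nonneg_right (norm_mul_le _ _) (norm_nonneg _))
      _ ≤ 1 * (ε / m) * 1 := by
          gcongr
          · exact RoeU_norm_lz g
          · exact RoeU_norm_lz g⁻¹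
      _ = ε / m := by ring
  have h3' : ∀ g : G, ‖cut (RoeU_st g) * star (T - T * EZ Z)‖ ≤ ε / m := by
    intro g
    have h4 : cut (RoeU_st g) * star (T - T * EZ Z) = star ((T - T * EZ Z) * cut (RoeU_st g)) := by
      rw [star_mul, RoeA_star_cut]
    rw [h4, RoeA_norm_star]
    exact h3 g
  have h5 := hb (star (T - T * EZ Z)) (ε / m) (by positivity) (fun y y' hyy => ?_) h3'
  · rwa [mul_div_cancel₀ _ hm.ne', RoeA_norm_star] at h5
  · have h6 : ent T y' y ≠ 0 := by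
      intro h7
      refine hyy ?_
      rw [star_sub, star_mul]
      unfold EZ
      rw [RoeA_star_cut, RoeU_ent_sub, RoeU_ent_cut_mul, RoeA_ent_star, h7, star_zero, ite_self,
        sub_zero]
    obtain ⟨a, b, ha, hb', hab⟩ := hK y' y h6
    refine ⟨(hs y' y h6).symm, b, a, hb', ha, ?_⟩
    rw [Finset.mem_image]
    refine ⟨a⁻¹ * b, hab, ?_⟩
    rw [mul_inv_rev, inv_inv]

theorem RoeU_mem {F : Finset G} {T : HX G →L[ℂ] HX G} (hT : T ∈ RoeSet G F) :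
    InU (Γ := G) (W := WG G) T := by
  obtain ⟨hE, hs, hp, hc⟩ := hT
  refine ⟨hE, fun ε hε => ?_⟩
  obtain ⟨Z1, h1⟩ := RoeU_rows hE hs hp (hc 1).1 (half_pos hε)
  obtain ⟨Z2, h2⟩ := RoeU_cols hE hs hp (hc 1).2 (half_pos hε)
  refine ⟨Z1 ∪ Z2, fun Z hZ => ?_⟩
  have h3 := h1 Z (Finset.union_subset_left hZ)
  have h4 := h2 Z (Finset.union_subset_right hZ)
  have h5 : EZ Z * T - T * EZ Z = (T - T * EZ Z) - (T - EZ Z * T) := by abel
  rw [h5]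
  refine (norm_sub_le _ _).trans ?_
  linarith

theorem partRoe : PartRoe := by
  intro G _ T hT
  have h1 : RoeG G ≤ (US G (WG G)).toNonUnitalSubalgebra := by
    refine NonUnitalSubalgebra.topologicalClosure_minimal ?_ US_closed
    refine NonUnitalAlgebra.adjoin_le ?_
    intro T hT
    obtain ⟨F, hF⟩ := Set.mem_iUnion.1 hT
    exact RoeU_mem hF
  exact h1 hT

end

end P089.AM
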