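import Vale.Agent.Lib.P089.AM.Corner
import Vale.Agent.Lib.P089.AM.Defs

/-!
# P089 AM: the trace lemma in an abstract normed ring
-/

namespace P089.AM

open scoped NNReal

noncomputable section

attribute [local instance] Matrix.linftyOpNormedRing

section Mat

variable {n A : Type} [Fintype n] [DecidableEq n] [NormedRing A]

theorem mat_norm_le_sum (M : Matrix n n A) : ‖M‖ ≤ ∑ i, ∑ j, ‖M i j‖ := by
  have h0 : ‖M‖ = ((Finset.univ.sup fun i => ∑ j, ‖M i j‖₊ : ℝ≥0) : ℝ) :=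
    Matrix.linfty_opNorm_def M
  rw [h0]
  have h1 : (Finset.univ.sup fun i => ∑ j, ‖M i j‖₊) ≤ ∑ i, ∑ j, ‖M i j‖₊ :=
    Finset.sup_le fun i _ => Finset.single_le_sum (f := fun i => ∑ j, ‖M i j‖₊)
      (fun _ _ => zero_le) (Finset.mem_univ i)
  have h2 : ((∑ i, ∑ j, ‖M i j‖₊ : ℝ≥0) : ℝ) = ∑ i, ∑ j, ‖M i j‖ := by
    push_cast
    rfl
  rw [← h2]
  exact_mod_cast h1

theorem mat_norm_diag_le {e : A} (he : ‖e‖ ≤ 1) :
    ‖(Matrix.diagonal fun _ : n => e)‖ ≤ 1 := by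
  have h0 : ‖(Matrix.diagonal fun _ : n => e)‖ =
      ((Finset.univ.sup fun i => ∑ j, ‖(Matrix.diagonal fun _ : n => e) i j‖₊ : ℝ≥0) : ℝ) :=
    Matrix.linfty_opNorm_def _
  rw [h0]
  have h1 : (Finset.univ.sup fun i => ∑ j, ‖(Matrix.diagonal fun _ : n => e) i j‖₊) ≤ 1 := by
    refine Finset.sup_le fun i _ => ?_
    rw [Finset.sum_eq_single i]
    · rw [Matrix.diagonal_apply_eq]
      exact_mod_cast he
    · intro j _ hj
      rw [Matrix.diagonal_apply_ne' _ hj, nnnorm_zero]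
    · intro h
      exact absurd (Finset.mem_univ _) h
  exact_mod_cast h1

theorem mat_complete'' [CompleteSpace A] :
    @CompleteSpace (Matrix n n A) (Matrix.linftyOpNormedRing (n := n)
      (α := A)).toMetricSpace.toPseudoMetricSpace.toUniformSpace :=
  (inferInstance : CompleteSpace (n → n → A))

end Mat

section Abs

variable {W A : Type} [NormedRing A] {n : Type} [Fintype n] [DecidableEq n]

theorem diag_comm_small {E : Finset W → A}
    (hEc : ∀ (a : A) (ε : ℝ), 0 < ε → ∃ Z0 : Finset W, ∀ Z, Z0 ⊆ Z → ‖E Z * a - a * E Z‖ ≤ ε)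
    (M : Matrix n n A) {ε : ℝ} (hε : 0 < ε) :
    ∃ Z0 : Finset W, ∀ Z, Z0 ⊆ Z →
      ‖(Matrix.diagonal fun _ : n => E Z) * M - M * (Matrix.diagonal fun _ : n => E Z)‖ ≤ ε := by
  classical
  have h1 : ∀ i j : n, ∃ Z0 : Finset W, ∀ Z, Z0 ⊆ Z →
      ‖E Z * M i j - M i j * E Z‖ ≤ ε / ((Fintype.card n : ℝ) ^ 2 + 1) := fun i j =>
    hEc (M i j) _ (by positivity)
  choose Z0 hZ0 using h1
  refine ⟨Finset.univ.biUnion fun i => Finset.univ.biUnion fun j => Z0 i j, fun Z hZ => ?_⟩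
  set D : Matrix n n A :=
    (Matrix.diagonal fun _ : n => E Z) * M - M * (Matrix.diagonal fun _ : n => E Z) with hD
  have h2 : ∀ i j, ‖D i j‖ ≤ ε / ((Fintype.card n : ℝ) ^ 2 + 1) := fun i j => by
    rw [hD, Matrix.sub_apply, Matrix.diagonal_mul, Matrix.mul_diagonal]
    refine hZ0 i j Z (Finset.Subset.trans ?_ hZ)
    exact (Finset.subset_biUnion_of_mem (fun j => Z0 i j) (Finset.mem_univ j)).trans
      (Finset.subset_biUnion_of_mem (fun i => Finset.univ.biUnion fun j => Z0 i j)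
        (Finset.mem_univ i))
  refine (mat_norm_le_sum _).trans ?_
  calc ∑ i, ∑ j, ‖D i j‖
      ≤ ∑ _i : n, ∑ _j : n, ε / ((Fintype.card n : ℝ) ^ 2 + 1) :=
        Finset.sum_le_sum fun i _ => Finset.sum_le_sum fun j _ => h2 i j
    _ = (Fintype.card n : ℝ) ^ 2 * (ε / ((Fintype.card n : ℝ) ^ 2 + 1)) := by
        simp only [Finset.sum_const, Finset.card_univ, nsmul_eq_mul]
        ring
    _ ≤ ε := by
        rw [mul_div_assoc', div_le_iff₀ (by positivity)]
        nlinarith [sq_nonneg (Fintype.card n : ℝ)]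

theorem t_sum {t : A → ℂ} (t_add : ∀ a b, t (a + b) = t a + t b) {ι : Type} (s : Finset ι)
    (S : ι → A) : t (∑ i ∈ s, S i) = ∑ i ∈ s, t (S i) := by
  classical
  have h0 : t 0 = 0 := by
    have h := t_add 0 0
    rw [add_zero] at h
    simpa using h
  induction s using Finset.induction_on with
  | empty => rw [Finset.sum_empty, Finset.sum_empty, h0]
  | insert a s ha ih => rw [Finset.sum_insert ha, Finset.sum_insert ha, ← ih, t_add]

theorem tM_comm' {t : A → ℂ} {e : A} (t_add : ∀ a b, t (a + b) = t a + t b)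
    (t_comm : ∀ a b, t (a * e * b) = t (b * e * a)) {a b : Matrix n n A}
    (ha : a * (Matrix.diagonal fun _ : n => e) = a)
    (hb : b * (Matrix.diagonal fun _ : n => e) = b) :
    ∑ i, t ((a * b) i i) = ∑ i, t ((b * a) i i) := by
  have ha' : ∀ i k, a i k * e = a i k := fun i k => by
    have := congrFun (congrFun ha i) k
    rwa [Matrix.mul_diagonal] at this
  have hb' : ∀ i k, b i k * e = b i k := fun i k => by
    have := congrFun (congrFun hb i) k
    rwa [Matrix.mul_diagonal] at this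
  have key : ∀ i k, t (a i k * b k i) = t (b k i * a i k) := fun i k => by
    have h3 := t_comm (a i k) (b k i)
    rwa [ha', hb'] at h3
  simp only [Matrix.mul_apply, t_sum t_add, key]
  exact Finset.sum_comm

/-- the block matrices -/
theorem block_data {ι κ : Type} [Fintype ι] [Fintype κ] {X : Matrix ι ι A} {Y : Matrix κ κ A}
    (hX : X * X = X) (hY : Y * Y = Y) (hXY : MvN X Y) :
    ∃ p q : Matrix (ι ⊕ κ) (ι ⊕ κ) A,
      p * q = Matrix.fromBlocks X 0 0 0 ∧ q * p = Matrix.fromBlocks 0 0 0 Y ∧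
      Matrix.fromBlocks X 0 0 0 * p = p ∧ p * Matrix.fromBlocks 0 0 0 Y = p ∧
      Matrix.fromBlocks 0 0 0 Y * q = q ∧ q * Matrix.fromBlocks X 0 0 0 = q := by
  obtain ⟨a, b, hab, hba⟩ := hXY
  have hXa : X * a = a * Y := by rw [← hab, ← hba, Matrix.mul_assoc]
  have hYb : Y * b = b * X := by rw [← hab, ← hba, Matrix.mul_assoc]
  have hab0 : (X * a * Y) * (Y * b * X) = X := by
    calc (X * a * Y) * (Y * b * X) = X * a * (Y * Y) * b * X := by
          simp only [Matrix.mul_assoc]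
      _ = X * (a * Y) * b * X := by rw [hY]; simp only [Matrix.mul_assoc]
      _ = X * X * (a * b) * X := by rw [← hXa]; simp only [Matrix.mul_assoc]
      _ = X := by rw [hab, hX, hX, hX]
  have hba0 : (Y * b * X) * (X * a * Y) = Y := by
    calc (Y * b * X) * (X * a * Y) = Y * b * (X * X) * a * Y := by
          simp only [Matrix.mul_assoc]
      _ = Y * (b * X) * a * Y := by rw [hX]; simp only [Matrix.mul_assoc]
      _ = Y * Y * (b * a) * Y := by rw [← hYb]; simp only [Matrix.mul_assoc]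
      _ = Y := by rw [hba, hY, hY, hY]
  have hXa0 : X * (X * a * Y) = X * a * Y := by rw [← Matrix.mul_assoc, ← Matrix.mul_assoc, hX]
  have haY0 : (X * a * Y) * Y = X * a * Y := by rw [Matrix.mul_assoc, hY]
  have hYb0 : Y * (Y * b * X) = Y * b * X := by rw [← Matrix.mul_assoc, ← Matrix.mul_assoc, hY]
  have hbX0 : (Y * b * X) * X = Y * b * X := by rw [Matrix.mul_assoc, hX]
  refine ⟨Matrix.fromBlocks 0 (X * a * Y) 0 0, Matrix.fromBlocks 0 0 (Y * b * X) 0, ?_, ?_, ?_,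
    ?_, ?_, ?_⟩
  · rw [Matrix.fromBlocks_multiply, hab0]; simp
  · rw [Matrix.fromBlocks_multiply, hba0]; simp
  · rw [Matrix.fromBlocks_multiply, hXa0]; simp
  · rw [Matrix.fromBlocks_multiply, haY0]; simp
  · rw [Matrix.fromBlocks_multiply, hYb0]; simp
  · rw [Matrix.fromBlocks_multiply, hbX0]; simp

theorem diag_comm_left {ι κ : Type} [Fintype ι] [Fintype κ] [DecidableEq ι] [DecidableEq κ] {X : Matrix ι ι A} {e : A}
    (h : ∀ i j, e * X i j = X i j * e) :
    (Matrix.diagonal fun _ : ι ⊕ κ => e) * Matrix.fromBlocks X 0 0 0 =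
      Matrix.fromBlocks X 0 0 0 * (Matrix.diagonal fun _ : ι ⊕ κ => e) := by
  refine Matrix.ext fun i j => ?_
  rw [Matrix.diagonal_mul, Matrix.mul_diagonal]
  rcases i with i | i <;> rcases j with j | j
  · exact h i j
  · exact (mul_zero e).trans (zero_mul e).symm
  · exact (mul_zero e).trans (zero_mul e).symm
  · exact (mul_zero e).trans (zero_mul e).symm

theorem diag_comm_right {ι κ : Type} [Fintype ι] [Fintype κ] [DecidableEq ι] [DecidableEq κ] {Y : Matrix κ κ A} {e : A}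
    (h : ∀ i j, e * Y i j = Y i j * e) :
    (Matrix.diagonal fun _ : ι ⊕ κ => e) * Matrix.fromBlocks 0 0 0 Y =
      Matrix.fromBlocks 0 0 0 Y * (Matrix.diagonal fun _ : ι ⊕ κ => e) := by
  refine Matrix.ext fun i j => ?_
  rw [Matrix.diagonal_mul, Matrix.mul_diagonal]
  rcases i with i | i <;> rcases j with j | j
  · exact (mul_zero e).trans (zero_mul e).symm
  · exact (mul_zero e).trans (zero_mul e).symm
  · exact (mul_zero e).trans (zero_mul e).symm
  · exact h i j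

/-- the abstract trace lemma -/
theorem abs_trace [CompleteSpace A] (E : Finset W → A) (t : Finset W → A → ℂ)
    (hE : ∀ Z, E Z * E Z = E Z) (hEn : ∀ Z, ‖E Z‖ ≤ 1)
    (hEc : ∀ (a : A) (ε : ℝ), 0 < ε → ∃ Z0 : Finset W, ∀ Z, Z0 ⊆ Z → ‖E Z * a - a * E Z‖ ≤ ε)
    (t_add : ∀ Z a b, t Z (a + b) = t Z a + t Z b)
    (t_comm : ∀ Z a b, t Z (a * E Z * b) = t Z (b * E Z * a))
    (t_E : ∀ Z a, t Z (E Z * a) = t Z a)
    {ι κ : Type} [Fintype ι] [Fintype κ] (X : Matrix ι ι A) (Y : Matrix κ κ A)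
    (hX : X * X = X) (hY : Y * Y = Y) (Z1 : Finset W)
    (hXZ : ∀ Z, Z1 ⊆ Z → ∀ i j, E Z * X i j = X i j * E Z)
    (hYZ : ∀ Z, Z1 ⊆ Z → ∀ i j, E Z * Y i j = Y i j * E Z) (hXY : MvN X Y) :
    ∃ Z2 : Finset W, Z1 ⊆ Z2 ∧ ∀ Z, Z2 ⊆ Z →
      ∑ i, t Z (X i i) = ∑ k, t Z (Y k k) := by
  classical
  obtain ⟨p, q, hpq, hqp, hxp, hpy, hyq, hqx⟩ := block_data hX hY hXY
  obtain ⟨x, hx⟩ : ∃ x : Matrix (ι ⊕ κ) (ι ⊕ κ) A, x = Matrix.fromBlocks X 0 0 0 := ⟨_, rfl⟩
  obtain ⟨y, hy⟩ : ∃ y : Matrix (ι ⊕ κ) (ι ⊕ κ) A, y = Matrix.fromBlocks 0 0 0 Y := ⟨_, rfl⟩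
  rw [← hx] at hpq hxp hqx
  rw [← hy] at hqp hpy hyq
  have hxx : x * x = x := by rw [hx, Matrix.fromBlocks_multiply, hX]; simp
  have hyy : y * y = y := by rw [hy, Matrix.fromBlocks_multiply, hY]; simp
  have hδ0 : 0 < 1 / (2 * (‖p‖ + ‖q‖ + 1)) := by positivity
  obtain ⟨Zp, hZp⟩ := diag_comm_small hEc p hδ0
  obtain ⟨Zq, hZq⟩ := diag_comm_small hEc q hδ0
  refine ⟨Z1 ∪ (Zp ∪ Zq), Finset.subset_union_left, fun Z hZ => ?_⟩
  have hZ1 : Z1 ⊆ Z := Finset.union_subset_left hZ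
  have hZp' : Zp ⊆ Z := Finset.union_subset_left (Finset.union_subset_right hZ)
  have hZq' : Zq ⊆ Z := Finset.union_subset_right (Finset.union_subset_right hZ)
  have hp1 := hZp Z hZp'
  have hq1 := hZq Z hZq'
  obtain ⟨e, he⟩ : ∃ e : Matrix (ι ⊕ κ) (ι ⊕ κ) A, e = Matrix.diagonal fun _ => E Z := ⟨_, rfl⟩
  have hex : e * x = x * e := by rw [he, hx]; exact diag_comm_left (hXZ Z hZ1)
  have hey : e * y = y * e := by rw [he, hy]; exact diag_comm_right (hYZ Z hZ1)
  have hee : e * e = e := by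
    rw [he, Matrix.diagonal_mul_diagonal, hE]
  have hen : ‖e‖ ≤ 1 := by rw [he]; exact mat_norm_diag_le (hEn Z)
  rw [← he] at hp1 hq1
  have hcomp := mat_complete'' (A := A) (n := ι ⊕ κ)
  obtain ⟨a', b', h1, h2, h5, h6⟩ := corner_final hxx hyy hpq hqp hxp hpy hyq hqx hee
    hex hey hen hp1 hq1
  have h7 : ∑ i, t Z ((e * x) i i) = ∑ i, t Z ((e * y) i i) := by
    rw [← h1, ← h2]
    rw [he] at h5 h6
    exact tM_comm' (t_add Z) (t_comm Z) h5 h6
  have h0 : t Z 0 = 0 := by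
    have h := t_add Z 0 0
    rw [add_zero] at h
    simpa using h
  have h8 : ∑ i, t Z ((e * x) i i) = ∑ i, t Z (X i i) := by
    rw [Fintype.sum_sum_type]
    have e1 : ∀ i : ι, t Z ((e * x) (Sum.inl i) (Sum.inl i)) = t Z (X i i) := fun i => by
      rw [he, hx, Matrix.diagonal_mul]
      exact t_E Z _
    have e2 : ∀ k : κ, t Z ((e * x) (Sum.inr k) (Sum.inr k)) = 0 := fun k => by
      rw [he, hx, Matrix.diagonal_mul, t_E]
      exact h0
    simp only [e1, e2, Finset.sum_const_zero, add_zero]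
  have h9 : ∑ i, t Z ((e * y) i i) = ∑ k, t Z (Y k k) := by
    rw [Fintype.sum_sum_type]
    have e1 : ∀ i : ι, t Z ((e * y) (Sum.inl i) (Sum.inl i)) = 0 := fun i => by
      rw [he, hy, Matrix.diagonal_mul, t_E]
      exact h0
    have e2 : ∀ k : κ, t Z ((e * y) (Sum.inr k) (Sum.inr k)) = t Z (Y k k) := fun k => by
      rw [he, hy, Matrix.diagonal_mul]
      exact t_E Z _
    simp only [e1, e2, Finset.sum_const_zero, zero_add]
  rw [← h8, ← h9, h7]

end Abs

end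

end P089.AM
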