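import Vale.Agent.Lib.P089.AM.UDefs
import Vale.Agent.Lib.P089.AM.Ent

/-!
# P089 AM, [Tr]: the trace property
-/

namespace P089.AM

open scoped Classical NNReal

noncomputable section

variable {Γ W : Type} [Group Γ]

theorem EZ_idem (Z : Finset W) : (EZ Z : L2 (Γ × W) →L[ℂ] L2 (Γ × W)) * EZ Z = EZ Z :=
  cut_idem _

theorem norm_EZ_le (Z : Finset W) : ‖(EZ Z : L2 (Γ × W) →L[ℂ] L2 (Γ × W))‖ ≤ 1 :=
  norm_cut_le _

theorem trZ_add (Z : Finset W) (S T : L2 (Γ × W) →L[ℂ] L2 (Γ × W)) :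
    trZ Z (S + T) = trZ Z S + trZ Z T := by
  unfold trZ
  rw [← Finset.sum_add_distrib]
  rfl

/-- `trZ Z (EZ Z * S) = trZ Z S` -/
theorem trZ_EZ_mul (Z : Finset W) (S : L2 (Γ × W) →L[ℂ] L2 (Γ × W)) :
    trZ Z (EZ Z * S) = trZ Z S := by
  unfold trZ EZ
  refine Finset.sum_congr rfl fun w hw => ?_
  rw [ent_cut_mul, if_pos]
  exact hw

theorem ent_mid (Z : Finset W) (S T : L2 (Γ × W) →L[ℂ] L2 (Γ × W)) (w : W) :
    HasSum (fun h : Γ => ∑ w' ∈ Z, ent S (1, w) (h, w') * ent T (h, w') (1, w))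
      (ent (S * EZ Z * T) (1, w) (1, w)) := by
  have h1 := ent_mul_hasSum (S * EZ Z) T (1, w) (1, w)
  have h2 : ∀ z : Γ × W, ent (S * EZ Z) (1, w) z * ent T z (1, w) =
      if z.2 ∈ Z then ent S (1, w) z * ent T z (1, w) else 0 := by
    intro z
    unfold EZ
    rw [ent_mul_cut]
    by_cases h : z.2 ∈ Z
    · rw [if_pos h, if_pos (show z ∈ {y : Γ × W | y.2 ∈ Z} from h)]
    · rw [if_neg h, if_neg (show z ∉ {y : Γ × W | y.2 ∈ Z} from h), zero_mul]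
  simp only [h2] at h1
  refine h1.prod_fiberwise fun h => ?_
  have h3 : HasSum (fun w' : W =>
      if w' ∈ Z then ent S (1, w) (h, w') * ent T (h, w') (1, w) else 0)
      (∑ w' ∈ Z, if w' ∈ Z then ent S (1, w) (h, w') * ent T (h, w') (1, w) else 0) :=
    hasSum_sum_of_ne_finset_zero (fun w' hw' => if_neg hw')
  have h4 : (∑ w' ∈ Z, if w' ∈ Z then ent S (1, w) (h, w') * ent T (h, w') (1, w) else 0) =
      ∑ w' ∈ Z, ent S (1, w) (h, w') * ent T (h, w') (1, w) :=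
    Finset.sum_congr rfl fun w' hw' => if_pos hw'
  rw [h4] at h3
  exact h3

/-- the trace property -/
theorem trZ_comm (Z : Finset W) {S T : L2 (Γ × W) →L[ℂ] L2 (Γ × W)} (hS : EquiG S)
    (hT : EquiG T) : trZ Z (S * EZ Z * T) = trZ Z (T * EZ Z * S) := by
  have h1 : HasSum (fun h : Γ => ∑ w ∈ Z, ∑ w' ∈ Z, ent S (1, w) (h, w') * ent T (h, w') (1, w))
      (trZ Z (S * EZ Z * T)) := hasSum_sum fun w _ => ent_mid Z S T w
  have h2 : HasSum (fun h : Γ => ∑ w ∈ Z, ∑ w' ∈ Z, ent T (1, w) (h, w') * ent S (h, w') (1, w))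
      (trZ Z (T * EZ Z * S)) := hasSum_sum fun w _ => ent_mid Z T S w
  have h3 := (Equiv.hasSum_iff (Equiv.inv Γ)).2 h2
  refine h1.unique ?_
  convert h3 using 1
  funext h
  rw [Finset.sum_comm]
  refine Finset.sum_congr rfl fun w' _ => Finset.sum_congr rfl fun w _ => ?_
  change _ = ent T (1, w') (h⁻¹, w) * ent S (h⁻¹, w) (1, w')
  have e1 := hS h (h⁻¹, w) (1, w')
  have e2 := hT h (1, w') (h⁻¹, w)
  simp only [mul_inv_cancel, mul_one] at e1 e2
  rw [← e1, ← e2, mul_comm]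

end

end P089.AM
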