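import Vale.Agent.Lib.P089.AM.Iface
import Vale.Agent.Lib.P089.AM.TrComm
import Vale.Agent.Lib.P089.AM.TrAbs

/-!
# P089 AM: the trace lemma `partTr`
-/

namespace P089.AM

/-- **Part Tr** -/
theorem partTr : PartTr := by
  intro Γ W ι κ _ _ _ X Y hX hY Z1 hXZ hYZ hXY
  have hcomp : CompleteSpace (US Γ W) := US_closed.completeSpace_coe
  exact abs_trace (fun Z => (⟨EZ Z, EZ_mem Z⟩ : US Γ W)) (fun Z a => trZ Z a.1)
    (fun Z => Subtype.ext (EZ_idem Z)) (fun Z => norm_EZ_le Z)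
    (fun a ε hε => a.2.2 ε hε)
    (fun Z a b => trZ_add Z a.1 b.1)
    (fun Z a b => trZ_comm Z a.2.1 b.2.1)
    (fun Z a => trZ_EZ_mul Z a.1)
    X Y hX hY Z1 (fun Z hZ i j => Subtype.ext (hXZ Z hZ i j))
    (fun Z hZ i j => Subtype.ext (hYZ Z hZ i j)) hXY

end P089.AM
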