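import Vale.Agent.Lib.P089.AM.Iface
import Vale.Agent.Lib.P089.Asm

/-!
# P089 AM, part Z: the group with its central involutions
-/

namespace P089.AM

open scoped Classical

theorem partZ_of (h : P089.Counter2) : P089.AM.PartZ := by
  obtain ⟨G, hG, hfg, Q, hQ, hQQ, -, -, z, hzi, hz1, hzz, hzc, hzQ⟩ := h
  refine ⟨G, hG, hfg, Q, hQ, hQQ, z, hzi, fun n => ⟨hzc n, hzz n, hz1 n, fun h0 => hzQ n ?_⟩⟩
  unfold dl
  rw [lp.inner_single_right]
  change inner ℂ (Q (dl 1) (z n)) (1 : ℂ) = 0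
  rw [h0, inner_zero_left]

end P089.AM
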