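import Vale.Agent.Lib.P089.AM.Star3
import Vale.Agent.Lib.P089.AM.Tr
import Vale.Agent.Lib.P089.AM.RoeU
import Vale.Agent.Lib.P089.AM.Cl
import Vale.Agent.Lib.P089.AM.J
import Vale.Agent.Lib.P089.AM.PK
import Vale.Agent.Lib.P089.AM.Z
import Vale.Agent.Lib.P089.Main

/-!
# P089 AM: the assembly map is not onto
-/

namespace P089.AM

theorem final : ∃ (G : Type) (_ : Group G), Group.FG G ∧ ¬ Function.Surjective (assembly G) :=
  main (partStar partCl partTr partRoe partK) partJ (partZ_of P089.counter2')

end P089.AM
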