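import Vale.Agent.Lib.P089.AM.MatNorm

/-!
# P089 AM: paths of idempotents and the Clifford flip, over an abstract Banach algebra
-/

namespace P089.AM

open scoped Classical NNReal Topology
open Filter

section Algebra

variable {R : Type} [Ring R] {ι κ μ : Type} [Fintype ι] [Fintype κ] [Fintype μ]

theorem mvn_trans {e : Matrix ι ι R} {f : Matrix κ κ R} {g : Matrix μ μ R} (he : e * e = e)
    (hg : g * g = g) (h : MvN e f) (h' : MvN f g) : MvN e g := by
  obtain ⟨x, y, h1, h2⟩ := h
  obtain ⟨x', y', h3, h4⟩ := h'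
  refine ⟨x * x', y' * y, ?_, ?_⟩
  · rw [Matrix.mul_assoc, ← Matrix.mul_assoc x', h3, ← h2, Matrix.mul_assoc y, h1,
      ← Matrix.mul_assoc, h1, he]
  · rw [Matrix.mul_assoc, ← Matrix.mul_assoc y, h2, ← h3, Matrix.mul_assoc x', h4,
      ← Matrix.mul_assoc, h4, hg]

omit [Fintype κ] in
theorem mvn_symm {e : Matrix ι ι R} {f : Matrix κ κ R} [Fintype κ] (h : MvN e f) : MvN f e := by
  obtain ⟨x, y, h1, h2⟩ := h
  exact ⟨y, x, h2, h1⟩

/-- multiplication of the entries by `a` from the left -/
def lm (a : R) (M : Matrix ι κ R) : Matrix ι κ R := M.map fun x => a * x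

omit [Fintype ι] [Fintype κ] in
theorem lm_apply (a : R) (M : Matrix ι κ R) (i : ι) (j : κ) : lm a M i j = a * M i j := rfl

omit [Fintype ι] [Fintype μ] in
/-- entries commuting with an idempotent -/
theorem lm_mul {a : R} (ha : a * a = a) {M : Matrix ι κ R} {N : Matrix κ μ R}
    (hM : ∀ i j, a * M i j = M i j * a) : lm a M * lm a N = lm a (M * N) := by
  ext i j
  rw [Matrix.mul_apply, lm_apply, Matrix.mul_apply, Finset.mul_sum]
  refine Finset.sum_congr rfl fun k _ => ?_
  rw [lm_apply, lm_apply, mul_assoc, ← mul_assoc (M i k), ← hM i k, mul_assoc a (M i k),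
    ← mul_assoc a a, ha]

/-- cutting down a Murray-von Neumann equivalence -/
theorem mvn_lm {S : Type} [Ring S] (f : R →+* S) {a : S} (ha : a * a = a)
    (hf : ∀ b, a * f b = f b * a) {p : Matrix ι ι R} {q : Matrix κ κ R} (h : MvN p q) :
    MvN (lm a (p.map f)) (lm a (q.map f)) := by
  obtain ⟨x, y, rfl, rfl⟩ := h
  refine ⟨lm a (x.map f), lm a (y.map f), ?_, ?_⟩
  · rw [Matrix.map_mul]
    exact lm_mul ha fun i j => hf _
  · rw [Matrix.map_mul]
    exact lm_mul ha fun i j => hf _

theorem lm_idem {S : Type} [Ring S] (f : R →+* S) {a : S} (ha : a * a = a)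
    (hf : ∀ b, a * f b = f b * a) {p : Matrix ι ι R} (hp : p * p = p) :
    lm a (p.map f) * lm a (p.map f) = lm a (p.map f) := by
  have h := lm_mul ha (M := p.map f) (N := p.map f) fun i j => hf _
  rw [h, ← Matrix.map_mul, hp]

end Algebra

section Flip

variable {A : Type} [NormedRing A] [CompleteSpace A] {R : Type} [Ring R]

/-- the flip -/
theorem flip (e : ℝ≥0 → R →+* A) (hcont : ∀ b, Continuous fun t => e t b)
    (hbdd : ∀ b, ∃ K : ℝ, ∀ t, ‖e t b‖ ≤ K)
    (C ep em : A) (hep : ep * ep = ep) (hem : em * em = em)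
    (h1 : C * C * ep = ep) (h2 : em * (C * C) = em) (h3 : C * ep = em * C)
    (cp : ∀ t b, ep * e t b = e t b * ep) (cm : ∀ t b, em * e t b = e t b * em)
    (hlim : ∀ b, Tendsto (fun t => em * (C * e t b - e t b * C)) atTop (𝓝 0))
    {ι : Type} [Fintype ι] (P : Matrix ι ι R) (hP : P * P = P) :
    MvN (lm ep (P.map (e 0))) (lm em (P.map (e 0))) := by
  -- bounds
  choose K hK using hbdd
  obtain ⟨M, hM⟩ : ∃ M : ℝ, ∀ i j, ‖em‖ * K (P i j) ≤ M := by
    refine ⟨∑ i, ∑ j, ‖em‖ * K (P i j), fun i j => ?_⟩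
    have hK0 : ∀ b, 0 ≤ K b := fun b => (norm_nonneg _).trans (hK b 0)
    have h4 : ‖em‖ * K (P i j) ≤ ∑ j, ‖em‖ * K (P i j) :=
      Finset.single_le_sum (f := fun j => ‖em‖ * K (P i j))
        (fun j _ => mul_nonneg (norm_nonneg _) (hK0 _)) (Finset.mem_univ j)
    exact h4.trans (Finset.single_le_sum (f := fun i => ∑ j, ‖em‖ * K (P i j))
      (fun i _ => Finset.sum_nonneg fun j _ => mul_nonneg (norm_nonneg _) (hK0 _))
      (Finset.mem_univ i))
  obtain ⟨δ, hδ, hnear⟩ := mat_near (A := A) (ι := ι) M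
  -- the flipped idempotent
  have key : ∀ (t : ℝ≥0) (b : R), C * (ep * e t b) * C - em * e t b =
      em * (C * e t b - e t b * C) * C := by
    intro t b
    have h4 : em * e t b = em * (e t b * (C * C)) := by
      rw [← mul_assoc em (e t b), cm, mul_assoc (e t b) em, h2]
    have h5 : C * (ep * e t b) * C = em * (C * e t b) * C := by
      rw [← mul_assoc C ep, h3, mul_assoc em C]
    rw [h5, h4]
    noncomm_ring
  obtain ⟨t, ht⟩ : ∃ t : ℝ≥0, ∀ i j, ‖C * (ep * e t (P i j)) * C - em * e t (P i j)‖ ≤ δ := by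
    have h4 : ∀ i j, ∀ᶠ t in atTop, ‖C * (ep * e t (P i j)) * C - em * e t (P i j)‖ ≤ δ := by
      intro i j
      have h5 : Tendsto (fun t => ‖em * (C * e t (P i j) - e t (P i j) * C) * C‖) atTop
          (𝓝 ‖(0 : A) * C‖) := ((hlim (P i j)).mul_const C).norm
      rw [zero_mul, norm_zero] at h5
      filter_upwards [h5.eventually (ge_mem_nhds hδ)] with t ht
      rw [key]
      exact ht
    have h6 : ∀ᶠ t in atTop, ∀ i j, ‖C * (ep * e t (P i j)) * C - em * e t (P i j)‖ ≤ δ := by
      rw [eventually_all]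
      intro i
      rw [eventually_all]
      intro j
      exact h4 i j
    exact h6.exists
  set X : Matrix ι ι A := lm ep (P.map (e t)) with hX
  set Y : Matrix ι ι A := lm em (P.map (e t)) with hY
  have hXX : X * X = X := lm_idem (e t) hep (cp t) hP
  have hYY : Y * Y = Y := lm_idem (e t) hem (cm t) hP
  -- `X * C` and `C * X`
  set XC : Matrix ι ι A := X.map fun x => x * C with hXC
  set CX : Matrix ι ι A := X.map fun x => C * x with hCX
  have h8 : ∀ x : A, x * ep = x → x * (C * C) * ep = x := by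
    intro x hx
    rw [mul_assoc, h1, hx]
  have h7 : XC * CX = X := by
    have h9 : XC * CX = X * X := by
      ext i j
      rw [Matrix.mul_apply, Matrix.mul_apply]
      refine Finset.sum_congr rfl fun k _ => ?_
      have h10 : C * (C * X k j) = X k j := by
        rw [hX, lm_apply, ← mul_assoc C C, ← mul_assoc (C * C) ep, h1]
      change X i k * C * (C * X k j) = X i k * X k j
      rw [mul_assoc, h10]
    rw [h9, hXX]
  set Z : Matrix ι ι A := CX * XC with hZ
  have hZe : ∀ i j, Z i j = C * (ep * e t (P i j)) * C := by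
    intro i j
    have h9 : Z i j = C * (X * X) i j * C := by
      rw [hZ, Matrix.mul_apply, Matrix.mul_apply, Finset.mul_sum, Finset.sum_mul]
      refine Finset.sum_congr rfl fun k _ => ?_
      change C * X i k * (X k j * C) = C * (X i k * X k j) * C
      noncomm_ring
    rw [h9, hXX]
    rfl
  have hZZ : Z * Z = Z := by
    rw [hZ, Matrix.mul_assoc, ← Matrix.mul_assoc XC CX XC, h7]
    have h9 : X * XC = XC := by
      ext i j
      have h10 : (X * X) i j * C = X i j * C := by rw [hXX]
      rw [Matrix.mul_apply, Finset.sum_mul] at h10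
      rw [Matrix.mul_apply]
      refine Eq.trans (Finset.sum_congr rfl fun k _ => ?_) h10
      change X i k * (X k j * C) = X i k * X k j * C
      rw [mul_assoc]
    rw [h9]
  have h11 : MvN X Z := ⟨XC, CX, h7, rfl⟩
  have h12 : MvN Z Y := by
    refine hnear Z Y hZZ hYY (fun i j => ?_) fun i j => ?_
    · refine (norm_mul_le _ _).trans ((mul_le_mul_of_nonneg_left (hK _ t) (norm_nonneg _)).trans
        (hM i j))
    · rw [hZe]
      exact ht i j
  have h13 : MvN (lm ep (P.map (e 0))) X :=
    mat_path (fun t => lm ep (P.map (e t))) (fun i j => (hcont (P i j)).const_mul ep |> fun h => h)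
      (fun t => lm_idem (e t) hep (cp t) hP) 0 t
  have h14 : MvN Y (lm em (P.map (e 0))) :=
    mat_path (fun t => lm em (P.map (e t))) (fun i j => (hcont (P i j)).const_mul em |> fun h => h)
      (fun t => lm_idem (e t) hem (cm t) hP) t 0
  have i0 := lm_idem (e 0) hep (cp 0) hP
  have i1 := lm_idem (e 0) hem (cm 0) hP
  exact mvn_trans i0 i1 (mvn_trans i0 hYY (mvn_trans i0 hZZ h13 h11) h12) h14

end Flip

end P089.AM
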