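import Mathlib

/-!
# P089, Part AM: near idempotents are equivalent, paths of idempotents
-/

namespace P089

section Idem

variable {A : Type*} [NormedRing A] [CompleteSpace A]

omit [CompleteSpace A] in
theorem idem_w_eq {e f : A} (hf : f * f = f) :
    f * e + (1 - f) * (1 - e) = 1 + (2 * f - 1) * (e - f) := by
  have h1 : (2 * f - 1) * (e - f) = 2 * (f * e) - 2 * (f * f) - e + f := by noncomm_ring
  rw [h1, hf]
  noncomm_ring

/-- idempotents `e`, `f` with `‖(2f-1)(e-f)‖ < 1` are similar -/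
theorem near_idem {e f : A} (he : e * e = e) (hf : f * f = f)
    (h : ‖(2 * f - 1) * (e - f)‖ < 1) : ∃ w : Aˣ, (w : A) * e = f * w := by
  have h1 : ‖-((2 * f - 1) * (e - f))‖ < 1 := by rwa [norm_neg]
  refine ⟨Units.oneSub _ h1, ?_⟩
  have h2 : ((Units.oneSub _ h1 : Aˣ) : A) = f * e + (1 - f) * (1 - e) := by
    rw [idem_w_eq hf, Units.val_oneSub, sub_neg_eq_add]
  rw [h2]
  have h3 : (f * e + (1 - f) * (1 - e)) * e = f * (e * e) + (1 - f) * (e - e * e) := by
    noncomm_ring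
  have h4 : f * (f * e + (1 - f) * (1 - e)) = (f * f) * e + (f - f * f) * (1 - e) := by
    noncomm_ring
  rw [h3, h4, he, hf, sub_self, sub_self, mul_zero, zero_mul]

/-- idempotents at distance less than `1 / ‖2f-1‖` are similar -/
theorem near_idem' {e f : A} (he : e * e = e) (hf : f * f = f)
    (h : ‖2 * f - 1‖ * ‖e - f‖ < 1) : ∃ w : Aˣ, (w : A) * e = f * w :=
  near_idem he hf ((norm_mul_le _ _).trans_lt h)

omit [CompleteSpace A] in
theorem sim_symm {e f : A} (h : ∃ w : Aˣ, (w : A) * e = f * w) :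
    ∃ w : Aˣ, (w : A) * f = e * w := by
  obtain ⟨w, hw⟩ := h
  refine ⟨w⁻¹, ?_⟩
  rw [Units.inv_mul_eq_iff_eq_mul, ← mul_assoc, hw, mul_assoc, Units.mul_inv, mul_one]

omit [CompleteSpace A] in
theorem sim_trans {e f g : A} (h : ∃ w : Aˣ, (w : A) * e = f * w)
    (h' : ∃ w : Aˣ, (w : A) * f = g * w) : ∃ w : Aˣ, (w : A) * e = g * w := by
  obtain ⟨w, hw⟩ := h
  obtain ⟨w', hw'⟩ := h'
  refine ⟨w' * w, ?_⟩
  rw [Units.val_mul, mul_assoc, hw, ← mul_assoc, hw', mul_assoc]

/-- the idempotents of a continuous path are similar -/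
theorem path_idem {X : Type*} [TopologicalSpace X] [PreconnectedSpace X] {e : X → A}
    (hc : Continuous e) (he : ∀ t, e t * e t = e t) (s t : X) :
    ∃ w : Aˣ, (w : A) * e s = e t * w := by
  have : Std.Symm (fun s t => ∃ w : Aˣ, (w : A) * e s = e t * w) := ⟨fun _ _ h => sim_symm h⟩
  refine PreconnectedSpace.induction₂ (fun s t => ∃ w : Aˣ, (w : A) * e s = e t * w) ?_ ?_ s t
  · intro x
    have h1 : Filter.Tendsto (fun y => ‖(2 * e y - 1) * (e x - e y)‖) (nhds x)
        (nhds ‖(2 * e x - 1) * (e x - e x)‖) := by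
      have h2 : Continuous fun y => ‖(2 * e y - 1) * (e x - e y)‖ := by fun_prop
      exact h2.tendsto x
    rw [sub_self, mul_zero, norm_zero] at h1
    filter_upwards [h1.eventually (gt_mem_nhds one_pos)] with y hy
    exact near_idem (he x) (he y) hy
  · exact ⟨fun _ _ _ h h' => sim_trans h h'⟩

/-- path on the half line -/
theorem path_idem_Ici {e : ℝ → A} (hc : ContinuousOn e (Set.Ici 0))
    (he : ∀ t, 0 ≤ t → e t * e t = e t) {s t : ℝ} (hs : 0 ≤ s) (ht : 0 ≤ t) :
    ∃ w : Aˣ, (w : A) * e s = e t * w := by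
  have : PreconnectedSpace (Set.Ici (0 : ℝ)) := isPreconnected_iff_preconnectedSpace.1
    isPreconnected_Ici
  exact path_idem (X := Set.Ici (0 : ℝ)) (e := fun x => e x)
    (continuousOn_iff_continuous_domRestrict.1 hc) (fun x => he x x.2) ⟨s, hs⟩ ⟨t, ht⟩

end Idem

end P089
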