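import Vale.Agent.Lib.P089.AM.U
import Vale.Agent.Lib.P089.Reg

/-!
# P089 AM: interface of the parts of the proof that the assembly map is not onto
-/

namespace P089.AM

open scoped Classical NNReal

noncomputable section

/-- positions in the fundamental domain -/
abbrev WG (G : Type) [Group G] : Type := Pt G × ℕ

/-- Part Tr: the trace lemma -/
def PartTr : Prop :=
  ∀ (Γ W ι κ : Type) [Group Γ] [Fintype ι] [Fintype κ]
    (X : Matrix ι ι (US Γ W)) (Y : Matrix κ κ (US Γ W)), X * X = X → Y * Y = Y →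
    ∀ Z1 : Finset W, (∀ Z, Z1 ⊆ Z → ∀ i j, EZ Z * (X i j).1 = (X i j).1 * EZ Z) →
    (∀ Z, Z1 ⊆ Z → ∀ i j, EZ Z * (Y i j).1 = (Y i j).1 * EZ Z) → MvN X Y →
    ∃ Z2 : Finset W, Z1 ⊆ Z2 ∧ ∀ Z, Z2 ⊆ Z →
      ∑ i, trZ Z (X i i).1 = ∑ k, trZ Z (Y k k).1

/-- Part Roe: the approximation lemma -/
def PartRoe : Prop := ∀ (G : Type) [Group G], ∀ T ∈ RoeG G, InU (Γ := G) (W := WG G) T

/-- Part Cl: the Clifford operator -/
def PartCl : Prop :=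
  ∀ (G : Type) [Group G] (z : G), (∀ g, z * g = g * z) → z * z = 1 → z ≠ 1 →
    ∀ F : Finset G, z ∉ F →
    ∃ (Γ : Type) (_ : Group Γ)
      (Lam : (L2 (G × WG G) →L[ℂ] L2 (G × WG G)) →ₐ[ℂ] (L2 (Γ × WG G) →L[ℂ] L2 (Γ × WG G)))
      (C q : L2 (Γ × WG G) →L[ℂ] L2 (Γ × WG G)),
      (∀ T, ‖Lam T‖ ≤ ‖T‖) ∧ (∀ T, InU T → InU (Lam T)) ∧ InU C ∧ InU q ∧
      (∀ Z, EZ Z * C = C * EZ Z) ∧ (∀ Z, EZ Z * q = q * EZ Z) ∧ (∀ Z, Lam (EZ Z) = EZ Z) ∧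
      q * q = q ∧ q * C = C * q ∧ (∀ T, q * Lam T = Lam T * q) ∧ q * (C * C) = q ∧
      q * (C * Lam (lz z)) = -(q * (Lam (lz z) * C)) ∧
      (∃ m : ℝ, ∀ ε : ℝ, 0 < ε → ε ≤ 1 → ∀ T : HX G →L[ℂ] HX G, SuppIn F T → PropLt ε T →
        ‖q * (C * Lam T - Lam T * C)‖ ≤ m * √ε * ‖T‖) ∧
      ∀ T Z, trZ Z (q * Lam T) = (1 / 2 : ℂ) * trZ Z T

/-- the cycle `[s] - [0]` of an idempotent -/
def projCyc {B : Type} [NonUnitalRing B] [Module ℂ B] [IsScalarTower ℂ B B] [SMulCommClass ℂ B B]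
    (s : B) (hs : s * s = s) : KCyc B where
  n := 1
  p := Matrix.of fun _ _ => Unitization.inr s
  q := 0
  hp := by
    refine Matrix.ext fun i j => ?_
    rw [Matrix.mul_apply, Fin.sum_univ_one, Matrix.of_apply, Matrix.of_apply, Matrix.of_apply,
      ← Unitization.inr_mul, hs]
  hq := by rw [mul_zero]
  hs := fun _ _ => by rw [Matrix.of_apply, Unitization.fst_inr]; rfl

/-- Part K: bookkeeping in `K_0` -/
def PartK : Prop :=
  ∀ (B : Type) [NonUnitalRing B] [Module ℂ B] [IsScalarTower ℂ B B] [SMulCommClass ℂ B B]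
    (x : KCyc B) (s : B) (hs : s * s = s),
    Quot.mk (KRel (B := B)) x = Quot.mk (KRel (B := B)) (projCyc s hs) →
    ∃ m : ℕ, MvN (bs (bs x.p (1 - x.q)) (1 : Matrix (Fin m) (Fin m) (Unitization ℂ B)))
      (bs (bs (projCyc s hs).p (1 : Matrix (Fin x.n) (Fin x.n) (Unitization ℂ B)))
        (1 : Matrix (Fin m) (Fin m) (Unitization ℂ B)))

/-- Part Star: traces twisted by `z` vanish on the range of the assembly map -/
def PartStar : Prop :=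
  ∀ (G : Type) [Group G] (z : G), (∀ g, z * g = g * z) → z * z = 1 → z ≠ 1 →
    ∀ F : Finset G, z ∉ F → ∀ (x : K0 (Loc G F)) (s : RoeG G) (hs : s * s = s)
      (Z1 : Finset (WG G)), (∀ Z, Z1 ⊆ Z → EZ Z * s.1 = s.1 ∧ s.1 * EZ Z = s.1) →
      K0map (ev G F) x = Quot.mk _ (projCyc s hs) → ∀ Z, Z1 ⊆ Z → trZ Z (lz z * s.1) = 0

/-- the base position: the vertex `1` -/
def w0 (G : Type) [Group G] : WG G := (⟨Finsupp.single 1 1, by
  constructor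
  · intro g
    by_cases h : g = 1
    · subst h; rw [Finsupp.single_eq_same]; exact zero_le_one
    · rw [Finsupp.single_eq_of_ne h]
  · rw [Finsupp.support_single _ one_ne_zero, Finset.sum_singleton, Finsupp.single_eq_same]⟩, 0)

/-- Part J: the embedding of `C*_r(G)` -/
def PartJ : Prop :=
  ∀ (G : Type) [Group G], ∀ Q ∈ Cred G, Q * Q = Q → ∃ (s : RoeG G), s * s = s ∧
    (∀ Z, {w0 G} ⊆ Z → EZ Z * s.1 = s.1 ∧ s.1 * EZ Z = s.1) ∧
    ∀ z : G, trZ {w0 G} (lz z * s.1) = (Q (dl 1)) z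

/-- Part Z: the group -/
def PartZ : Prop :=
  ∃ (G : Type) (_ : Group G), Group.FG G ∧ ∃ Q ∈ Cred G, Q * Q = Q ∧
    ∃ z : ℕ → G, Function.Injective z ∧ ∀ n, (∀ g, z n * g = g * z n) ∧ z n * z n = 1 ∧
      z n ≠ 1 ∧ (Q (dl 1)) (z n) ≠ 0

theorem main (hS : PartStar) (hJ : PartJ) (hZ : PartZ) :
    ∃ (G : Type) (_ : Group G), Group.FG G ∧ ¬ Function.Surjective (assembly G) := by
  obtain ⟨G, hG, hfg, Q, hQ, hQQ, z, hzi, hz⟩ := hZ
  refine ⟨G, hG, hfg, fun hsurj => ?_⟩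
  obtain ⟨s, hs, hs2, hs3⟩ := hJ G Q hQ hQQ
  obtain ⟨⟨F, x⟩, hx⟩ := hsurj (Quot.mk _ (projCyc s hs))
  obtain ⟨n, hn⟩ : ∃ n, z n ∉ F := by
    by_contra hcon
    push Not at hcon
    exact Set.infinite_univ.mono (fun n _ => hcon n) |>.elim ((F.finite_toSet.preimage hzi.injOn))
  obtain ⟨h1, h2, h3, h4⟩ := hz n
  have h5 := hS G (z n) h1 h2 h3 F hn x s hs {w0 G} hs2 hx {w0 G} (Finset.Subset.refl _)
  rw [hs3] at h5
  exact h4 h5

end

end P089.AM
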