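import Vale.Agent.Lib.P089.AM.U

/-!
# P089 AM: amplification along `E ⋊ G`, right multiplication by `E`, the projection `(1 - R_J)/2`

`Γ = E ⋊[φ] G`, elements `⟨e, g⟩`.  `Lam T = 1 ⊗ T` on `ℓ²(Γ × W) = ℓ²(E) ⊗ ℓ²(G × W)`;
`RR c` maps the basis vector `(⟨e, g⟩, w)` to `(⟨e c, g⟩, w)`.
-/

namespace P089.AM

open scoped Classical NNReal

noncomputable section

namespace LamP

theorem hasSum_sq {J : Type} (ξ : L2 J) : HasSum (fun i => ‖ξ i‖ ^ 2) (‖ξ‖ ^ 2) := by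
  have hp : 0 < (2 : ENNReal).toReal := by norm_num
  have h := lp.hasSum_norm hp ξ
  simpa using h

theorem memlp_of {J : Type} {f : J → ℂ} (h : Summable fun i => ‖f i‖ ^ 2) : Memℓp f 2 := by
  refine memℓp_gen ?_
  simpa using h

/-- basis vector -/
def b1 {I : Type} (i : I) : L2 I := lp.single 2 i (1 : ℂ)

theorem b1_apply {I : Type} (i j : I) : b1 j i = if i = j then 1 else 0 := by
  unfold b1
  rw [lp.single_apply, Pi.single_apply]

theorem ent_b1 {I : Type} (T : L2 I →L[ℂ] L2 I) (i j : I) : ent T i j = T (b1 j) i := rfl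

variable {E G W : Type} [Group E] [Group G] {φ : G →* MulAut E}

/-- the index set -/
def idx : E × (G × W) ≃ (E ⋊[φ] G) × W where
  toFun p := (⟨p.1, p.2.1⟩, p.2.2)
  invFun y := (y.1.left, (y.1.right, y.2))
  left_inv _ := rfl
  right_inv _ := rfl

theorem summable_idx (ξ : L2 ((E ⋊[φ] G) × W)) :
    Summable fun p : E × (G × W) => ‖ξ (idx p)‖ ^ 2 :=
  (hasSum_sq ξ).summable.comp_injective (idx (φ := φ) (W := W)).injective

theorem tsum_idx (ξ : L2 ((E ⋊[φ] G) × W)) :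
    ∑' p : E × (G × W), ‖ξ (idx p)‖ ^ 2 = ‖ξ‖ ^ 2 := by
  rw [← (hasSum_sq ξ).tsum_eq]
  exact Equiv.tsum_eq (idx (φ := φ) (W := W)) fun y => ‖ξ y‖ ^ 2

theorem memlp_sec (e : E) (ξ : L2 ((E ⋊[φ] G) × W)) :
    Memℓp (fun y : G × W => ξ (⟨e, y.1⟩, y.2)) 2 := by
  refine memlp_of ?_
  have h : Summable ((fun p : E × (G × W) => ‖ξ (idx p)‖ ^ 2) ∘ fun y : G × W => (e, y)) :=
    (summable_idx ξ).comp_injective (Prod.mk_right_injective e)
  exact h.congr fun y => rfl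

/-- section of a vector at `e` -/
def sec (e : E) (ξ : L2 ((E ⋊[φ] G) × W)) : L2 (G × W) :=
  ⟨fun y => ξ (⟨e, y.1⟩, y.2), memlp_sec e ξ⟩

theorem sec_apply (e : E) (ξ : L2 ((E ⋊[φ] G) × W)) (y : G × W) :
    sec e ξ y = ξ (⟨e, y.1⟩, y.2) := rfl

theorem norm_sec (ξ : L2 ((E ⋊[φ] G) × W)) (e : E) :
    ‖sec e ξ‖ ^ 2 = ∑' y : G × W, ‖ξ (idx (e, y))‖ ^ 2 :=
  (hasSum_sq (sec e ξ)).tsum_eq.symm

theorem summable_sec (ξ : L2 ((E ⋊[φ] G) × W)) : Summable fun e => ‖sec e ξ‖ ^ 2 := by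
  simp only [norm_sec]
  exact (summable_idx ξ).prod

theorem tsum_sec (ξ : L2 ((E ⋊[φ] G) × W)) : ∑' e, ‖sec e ξ‖ ^ 2 = ‖ξ‖ ^ 2 := by
  simp only [norm_sec]
  rw [← tsum_idx ξ]
  exact ((summable_idx ξ).tsum_prod).symm

theorem le_sec (T : L2 (G × W) →L[ℂ] L2 (G × W)) (ξ : L2 ((E ⋊[φ] G) × W)) (e : E) :
    ‖T (sec e ξ)‖ ^ 2 ≤ ‖T‖ ^ 2 * ‖sec e ξ‖ ^ 2 := by
  rw [← mul_pow]
  exact pow_le_pow_left₀ (norm_nonneg _) (T.le_opNorm _) 2

theorem summable_T (T : L2 (G × W) →L[ℂ] L2 (G × W)) (ξ : L2 ((E ⋊[φ] G) × W)) :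
    Summable fun e => ‖T (sec e ξ)‖ ^ 2 :=
  Summable.of_nonneg_of_le (fun _ => by positivity) (le_sec T ξ) ((summable_sec ξ).mul_left _)

theorem summable_prod_T (T : L2 (G × W) →L[ℂ] L2 (G × W)) (ξ : L2 ((E ⋊[φ] G) × W)) :
    Summable fun p : E × (G × W) => ‖T (sec p.1 ξ) p.2‖ ^ 2 := by
  rw [summable_prod_of_nonneg (fun _ => by positivity)]
  refine ⟨fun e => (hasSum_sq (T (sec e ξ))).summable, ?_⟩
  have : (fun e => ∑' i, ‖T (sec e ξ) i‖ ^ 2) = fun e => ‖T (sec e ξ)‖ ^ 2 :=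
    funext fun e => (hasSum_sq (T (sec e ξ))).tsum_eq
  rw [this]
  exact summable_T T ξ

theorem memlp_T (T : L2 (G × W) →L[ℂ] L2 (G × W)) (ξ : L2 ((E ⋊[φ] G) × W)) :
    Memℓp (fun y : (E ⋊[φ] G) × W => T (sec y.1.left ξ) (y.1.right, y.2)) 2 := by
  refine memlp_of ?_
  rw [← Equiv.summable_iff (idx (φ := φ) (W := W))]
  exact summable_prod_T T ξ

theorem norm_aux (T : L2 (G × W) →L[ℂ] L2 (G × W)) (ξ : L2 ((E ⋊[φ] G) × W)) :
    ‖(⟨fun y : (E ⋊[φ] G) × W => T (sec y.1.left ξ) (y.1.right, y.2), memlp_T T ξ⟩ :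
      L2 ((E ⋊[φ] G) × W))‖ ≤ ‖T‖ * ‖ξ‖ := by
  set η : L2 ((E ⋊[φ] G) × W) :=
    ⟨fun y : (E ⋊[φ] G) × W => T (sec y.1.left ξ) (y.1.right, y.2), memlp_T T ξ⟩ with hη
  have h1 : ‖η‖ ^ 2 = ∑' e, ‖T (sec e ξ)‖ ^ 2 := by
    rw [← tsum_idx η]
    have h2 : ∑' p : E × (G × W), ‖η (idx p)‖ ^ 2 = ∑' p : E × (G × W), ‖T (sec p.1 ξ) p.2‖ ^ 2 :=
      rfl
    rw [h2, (summable_prod_T T ξ).tsum_prod]
    exact tsum_congr fun e => (hasSum_sq (T (sec e ξ))).tsum_eq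
  have h3 : ‖η‖ ^ 2 ≤ (‖T‖ * ‖ξ‖) ^ 2 := by
    rw [h1, mul_pow, ← tsum_sec ξ, ← tsum_mul_left]
    exact (summable_T T ξ).tsum_le_tsum (le_sec T ξ) ((summable_sec ξ).mul_left _)
  exact le_of_sq_le_sq h3 (by positivity)

/-- `1 ⊗ T` -/
def lamOp (φ : G →* MulAut E) (T : L2 (G × W) →L[ℂ] L2 (G × W)) :
    L2 ((E ⋊[φ] G) × W) →L[ℂ] L2 ((E ⋊[φ] G) × W) :=
  LinearMap.mkContinuous
    { toFun := fun ξ => ⟨fun y => T (sec y.1.left ξ) (y.1.right, y.2), memlp_T T ξ⟩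
      map_add' := fun ξ η => by
        ext y
        have : sec y.1.left (ξ + η) = sec y.1.left ξ + sec y.1.left η := rfl
        change T (sec y.1.left (ξ + η)) (y.1.right, y.2) =
          T (sec y.1.left ξ) (y.1.right, y.2) + T (sec y.1.left η) (y.1.right, y.2)
        rw [this, map_add]
        rfl
      map_smul' := fun c ξ => by
        ext y
        have : sec y.1.left (c • ξ) = c • sec y.1.left ξ := rfl
        change T (sec y.1.left (c • ξ)) (y.1.right, y.2) = c • T (sec y.1.left ξ) (y.1.right, y.2)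
        rw [this, map_smul]
        rfl } ‖T‖
    (fun ξ => norm_aux T ξ)

theorem lamOp_apply (T : L2 (G × W) →L[ℂ] L2 (G × W)) (ξ : L2 ((E ⋊[φ] G) × W))
    (y : (E ⋊[φ] G) × W) : lamOp φ T ξ y = T (sec y.1.left ξ) (y.1.right, y.2) := rfl

theorem sec_lamOp (T : L2 (G × W) →L[ℂ] L2 (G × W)) (ξ : L2 ((E ⋊[φ] G) × W)) (e : E) :
    sec e (lamOp φ T ξ) = T (sec e ξ) := by
  ext y
  rfl

end LamP

open LamP

variable {E G W : Type} [Group E] [Group G]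

/-- the amplification as a homomorphism of algebras -/
def Lam (φ : G →* MulAut E) : (L2 (G × W) →L[ℂ] L2 (G × W)) →ₐ[ℂ]
    (L2 ((E ⋊[φ] G) × W) →L[ℂ] L2 ((E ⋊[φ] G) × W)) where
  toFun := lamOp φ
  map_one' := by
    ext ξ y
    rfl
  map_mul' S T := by
    ext ξ y
    change S (T (sec y.1.left ξ)) (y.1.right, y.2) =
      S (sec y.1.left (lamOp φ T ξ)) (y.1.right, y.2)
    rw [sec_lamOp]
  map_zero' := by
    ext ξ y
    rfl
  map_add' S T := by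
    ext ξ y
    rfl
  commutes' c := by
    ext ξ y
    rfl

variable {φ : G →* MulAut E}

theorem Lam_apply (T : L2 (G × W) →L[ℂ] L2 (G × W)) (ξ : L2 ((E ⋊[φ] G) × W))
    (y : (E ⋊[φ] G) × W) : Lam φ T ξ y = T (sec y.1.left ξ) (y.1.right, y.2) := rfl

theorem norm_Lam_le (T : L2 (G × W) →L[ℂ] L2 (G × W)) : ‖Lam φ T‖ ≤ ‖T‖ :=
  LinearMap.mkContinuous_norm_le _ (norm_nonneg _) (fun ξ => norm_aux T ξ)

theorem ent_Lam (T : L2 (G × W) →L[ℂ] L2 (G × W)) (y y' : (E ⋊[φ] G) × W) :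
    ent (Lam φ T) y y' =
      if y.1.left = y'.1.left then ent T (y.1.right, y.2) (y'.1.right, y'.2) else 0 := by
  rw [ent_b1, Lam_apply]
  by_cases h : y.1.left = y'.1.left
  · rw [if_pos h]
    have h1 : sec y.1.left (b1 y' : L2 ((E ⋊[φ] G) × W)) = b1 (y'.1.right, y'.2) := by
      ext i
      change (b1 y' : L2 ((E ⋊[φ] G) × W)) (⟨y.1.left, i.1⟩, i.2) = (b1 (y'.1.right, y'.2) :
        L2 (G × W)) i
      rw [b1_apply, b1_apply, h]
      by_cases hi : i = (y'.1.right, y'.2)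
      · rw [if_pos hi, if_pos (by rw [hi])]
      · rw [if_neg hi, if_neg]
        intro h2
        apply hi
        rw [← h2]
    rw [h1]
    rfl
  · rw [if_neg h]
    have h1 : sec y.1.left (b1 y' : L2 ((E ⋊[φ] G) × W)) = 0 := by
      ext i
      change (b1 y' : L2 ((E ⋊[φ] G) × W)) (⟨y.1.left, i.1⟩, i.2) = 0
      rw [b1_apply, if_neg]
      intro h2
      apply h
      rw [← h2]
    rw [h1, map_zero]
    rfl

theorem Lam_EquiG {T : L2 (G × W) →L[ℂ] L2 (G × W)} (hT : EquiG T) :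
    EquiG (Lam (E := E) φ T) := by
  intro h y y'
  rw [ent_Lam, ent_Lam]
  have e1 : (h * y.1).left = (h * y'.1).left ↔ y.1.left = y'.1.left := by
    rw [SemidirectProduct.mul_left, SemidirectProduct.mul_left]
    constructor
    · intro h1
      exact (φ h.right).injective (mul_left_cancel h1)
    · intro h1
      rw [h1]
  by_cases h1 : y.1.left = y'.1.left
  · rw [if_pos h1, if_pos (e1.2 h1)]
    exact hT h.right (y.1.right, y.2) (y'.1.right, y'.2)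
  · rw [if_neg h1, if_neg (fun h2 => h1 (e1.1 h2))]

theorem Lam_EZ (Z : Finset W) : Lam φ (EZ Z) = (EZ Z : L2 ((E ⋊[φ] G) × W) →L[ℂ] _) := by
  ext ξ y
  rfl

theorem Lam_InU {T : L2 (G × W) →L[ℂ] L2 (G × W)} (hT : InU T) : InU (Lam (E := E) φ T) := by
  refine ⟨Lam_EquiG hT.1, fun ε hε => ?_⟩
  obtain ⟨Z0, hZ0⟩ := hT.2 ε hε
  refine ⟨Z0, fun Z hZ => ?_⟩
  have h1 : (EZ Z : L2 ((E ⋊[φ] G) × W) →L[ℂ] _) * Lam φ T - Lam φ T * EZ Z =
      Lam φ (EZ Z * T - T * EZ Z) := by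
    rw [map_sub, map_mul, map_mul, Lam_EZ]
  rw [h1]
  exact (norm_Lam_le _).trans (hZ0 Z hZ)

/-- an operator is determined by its entries -/
theorem LamP.ext' {I : Type} {S T : L2 I →L[ℂ] L2 I} (h : ∀ i j, ent S i j = ent T i j) :
    S = T := by
  have h1 : ∀ j, S (b1 j) = T (b1 j) := fun j => by
    ext i
    exact h i j
  refine ContinuousLinearMap.ext fun ξ => ?_
  have h2 : HasSum (fun i => lp.single 2 i (ξ i)) ξ := lp.hasSum_single (by norm_num) ξ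
  have h3 : ∀ i, (lp.single 2 i (ξ i) : L2 I) = ξ i • b1 i := fun i => by
    unfold b1
    rw [← lp.single_smul, smul_eq_mul, mul_one]
  have h4 := h2.mapL S
  have h5 := h2.mapL T
  refine h4.unique (h5.congr_fun ?_)
  intro i
  rw [h3, map_smul, map_smul, h1]

/-- an operator with the entries of an amplification is in `U` -/
theorem inU_of_amp {T : L2 (G × W) →L[ℂ] L2 (G × W)}
    {T' : L2 ((E ⋊[φ] G) × W) →L[ℂ] L2 ((E ⋊[φ] G) × W)}
    (h : ∀ (a : E ⋊[φ] G) (w : W) (b : E ⋊[φ] G) (w' : W), ent T' (a, w) (b, w') =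
      if a.left = b.left then ent T (a.right, w) (b.right, w') else 0) (hT : InU T) : InU T' := by
  have h1 : T' = Lam φ T := LamP.ext' fun i j => by
    rw [ent_Lam]
    exact h i.1 i.2 j.1 j.2
  rw [h1]
  exact Lam_InU hT

/-! ### right multiplication by `E` -/

/-- `(⟨e, g⟩, w) ↦ (⟨e c⁻¹, g⟩, w)` -/
def rmul (φ : G →* MulAut E) (W : Type) (c : E) : (E ⋊[φ] G) × W ≃ (E ⋊[φ] G) × W where
  toFun y := (⟨y.1.left * c⁻¹, y.1.right⟩, y.2)
  invFun y := (⟨y.1.left * c, y.1.right⟩, y.2)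
  left_inv y := by simp
  right_inv y := by simp

/-- the unitary `bv (⟨e, g⟩, w) ↦ bv (⟨e c, g⟩, w)` -/
def RR (φ : G →* MulAut E) (W : Type) (c : E) :
    L2 ((E ⋊[φ] G) × W) →L[ℂ] L2 ((E ⋊[φ] G) × W) := permOp (rmul φ W c)

theorem RR_apply (c : E) (ξ : L2 ((E ⋊[φ] G) × W)) (y : (E ⋊[φ] G) × W) :
    RR φ W c ξ y = ξ (⟨y.1.left * c⁻¹, y.1.right⟩, y.2) := rfl

theorem RR_single (c : E) (y : (E ⋊[φ] G) × W) :
    RR φ W c (b1 y) = b1 (⟨y.1.left * c, y.1.right⟩, y.2) := by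
  ext i
  change (b1 y : L2 ((E ⋊[φ] G) × W)) (⟨i.1.left * c⁻¹, i.1.right⟩, i.2) =
    (b1 (⟨y.1.left * c, y.1.right⟩, y.2) : L2 ((E ⋊[φ] G) × W)) i
  rw [b1_apply, b1_apply]
  by_cases h : i = (⟨y.1.left * c, y.1.right⟩, y.2)
  · rw [if_pos h, if_pos]
    rw [h]
    simp
  · rw [if_neg h, if_neg]
    intro h2
    apply h
    rw [← h2]
    simp

theorem ent_RR_mul (c : E) (T : L2 ((E ⋊[φ] G) × W) →L[ℂ] L2 ((E ⋊[φ] G) × W))
    (y y' : (E ⋊[φ] G) × W) :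
    ent (RR φ W c * T) y y' = ent T (⟨y.1.left * c⁻¹, y.1.right⟩, y.2) y' := rfl

theorem ent_mul_RR (c : E) (T : L2 ((E ⋊[φ] G) × W) →L[ℂ] L2 ((E ⋊[φ] G) × W))
    (y y' : (E ⋊[φ] G) × W) :
    ent (T * RR φ W c) y y' = ent T y (⟨y'.1.left * c, y'.1.right⟩, y'.2) := by
  rw [ent_b1, ent_b1, ← RR_single]
  rfl

theorem RR_mul (c c' : E) : RR φ W c * RR φ W c' = RR φ W (c' * c) := by
  ext ξ y
  change ξ (⟨y.1.left * c⁻¹ * c'⁻¹, y.1.right⟩, y.2) = ξ (⟨y.1.left * (c' * c)⁻¹, y.1.right⟩, y.2)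
  rw [mul_inv_rev, mul_assoc]

theorem RR_one : RR φ W (1 : E) = 1 := by
  ext ξ y
  change ξ (⟨y.1.left * 1⁻¹, y.1.right⟩, y.2) = ξ y
  rw [inv_one, mul_one]

theorem RR_Lam (c : E) (T : L2 (G × W) →L[ℂ] L2 (G × W)) :
    RR φ W c * Lam φ T = Lam φ T * RR φ W c := by
  ext ξ y
  rfl

theorem RR_EZ (c : E) (Z : Finset W) : RR φ W c * EZ Z = EZ Z * RR φ W c := by
  rw [← Lam_EZ (φ := φ) (E := E) Z, RR_Lam]

/-! ### the projection `(1 - R_J) / 2` -/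

/-- the projection `(1 - R_J) / 2` -/
def qJ (φ : G →* MulAut E) (W : Type) (J : E) :
    L2 ((E ⋊[φ] G) × W) →L[ℂ] L2 ((E ⋊[φ] G) × W) := (1 / 2 : ℂ) • (1 - RR φ W J)

theorem qJ_mul_self {J : E} (hJ : J * J = 1) : qJ φ W J * qJ φ W J = qJ φ W J := by
  unfold qJ
  have h1 : RR φ W J * RR φ W J = 1 := by rw [RR_mul, hJ, RR_one]
  rw [smul_mul_smul_comm]
  have h2 : (1 - RR φ W J) * (1 - RR φ W J) = (2 : ℂ) • (1 - RR φ W J) := by
    rw [sub_mul, mul_sub, mul_sub, h1, one_mul, one_mul, mul_one, two_smul]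
    abel
  rw [h2, smul_smul]
  norm_num

theorem qJ_Lam {J : E} (T : L2 (G × W) →L[ℂ] L2 (G × W)) :
    qJ φ W J * Lam φ T = Lam φ T * qJ φ W J := by
  unfold qJ
  rw [smul_mul_assoc, mul_smul_comm, sub_mul, mul_sub, one_mul, mul_one, RR_Lam]

theorem qJ_EZ {J : E} (Z : Finset W) : EZ Z * qJ φ W J = qJ φ W J * EZ Z := by
  rw [← Lam_EZ (φ := φ) (E := E) Z, qJ_Lam]

/-- `R_J` is equivariant -/
theorem RR_EquiG {J : E} (_ : ∀ e, J * e = e * J) (hJφ : ∀ g, φ g J = J) :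
    EquiG (RR φ W J) := by
  intro h y y'
  have e1 : ∀ u u' : (E ⋊[φ] G) × W, ent (RR φ W J) u u' =
      @ite ℂ (u = (⟨u'.1.left * J, u'.1.right⟩, u'.2)) (Classical.propDecidable _) 1 0 := by
    intro u u'
    rw [ent_b1, RR_single, b1_apply]
  rw [e1, e1]
  have e2 : (h * y.1, y.2) = ((⟨(h * y'.1).left * J, (h * y'.1).right⟩ : E ⋊[φ] G), y'.2) ↔
      y = (⟨y'.1.left * J, y'.1.right⟩, y'.2) := by
    have e3 : (⟨(h * y'.1).left * J, (h * y'.1).right⟩ : E ⋊[φ] G) =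
        h * ⟨y'.1.left * J, y'.1.right⟩ := by
      refine SemidirectProduct.ext ?_ ?_
      · rw [SemidirectProduct.mul_left, SemidirectProduct.mul_left, map_mul, hJφ, mul_assoc]
      · rfl
    rw [e3]
    constructor
    · intro h1
      rw [Prod.mk.injEq] at h1
      exact Prod.ext (mul_left_cancel h1.1) h1.2
    · intro h1
      rw [h1]
  by_cases h1 : y = (⟨y'.1.left * J, y'.1.right⟩, y'.2)
  · rw [if_pos h1, if_pos (e2.2 h1)]
  · rw [if_neg h1, if_neg (fun h2 => h1 (e2.1 h2))]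

theorem qJ_InU {J : E} (hJc : ∀ e, J * e = e * J) (hJφ : ∀ g, φ g J = J) :
    InU (qJ φ W J) := by
  refine ⟨?_, fun ε hε => ⟨∅, fun Z _ => ?_⟩⟩
  · intro h y y'
    have e1 : ∀ u u' : (E ⋊[φ] G) × W, ent (qJ φ W J) u u' =
        (1 / 2 : ℂ) * (ent (1 : L2 ((E ⋊[φ] G) × W) →L[ℂ] _) u u' - ent (RR φ W J) u u') :=
      fun _ _ => rfl
    rw [e1, e1, RR_EquiG hJc hJφ h y y']
    congr 2
    have e2 : ∀ u u' : (E ⋊[φ] G) × W, ent (1 : L2 ((E ⋊[φ] G) × W) →L[ℂ] _) u u' =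
        @ite ℂ (u = u') (Classical.propDecidable _) 1 0 := by
      intro u u'
      have e3 : ent (1 : L2 ((E ⋊[φ] G) × W) →L[ℂ] _) u u' = (b1 u' : L2 ((E ⋊[φ] G) × W)) u := rfl
      rw [e3, b1_apply]
    rw [e2, e2]
    by_cases h1 : y = y'
    · rw [if_pos h1, if_pos (by rw [h1])]
    · rw [if_neg h1, if_neg]
      intro h2
      rw [Prod.mk.injEq] at h2
      exact h1 (Prod.ext (mul_left_cancel h2.1) h2.2)
  · rw [qJ_EZ, sub_self, norm_zero]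
    exact hε.le

theorem trZ_qJ {J : E} (hJ1 : J ≠ 1) (T : L2 (G × W) →L[ℂ] L2 (G × W)) (Z : Finset W) :
    trZ Z (qJ φ W J * Lam φ T) = (1 / 2 : ℂ) * trZ Z T := by
  unfold trZ
  rw [Finset.mul_sum]
  refine Finset.sum_congr rfl fun w _ => ?_
  have e1 : ent (qJ φ W J * Lam φ T) (1, w) (1, w) = (1 / 2 : ℂ) *
      (ent (Lam φ T) (1, w) (1, w) - ent (RR φ W J * Lam φ T) (1, w) (1, w)) := rfl
  rw [e1, ent_RR_mul, ent_Lam, ent_Lam]
  have e2 : ¬ ((1 : E ⋊[φ] G).left * J⁻¹ = (1 : E ⋊[φ] G).left) := by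
    rw [SemidirectProduct.one_left, one_mul]
    exact inv_ne_one.2 hJ1
  rw [if_pos rfl, if_neg e2, sub_zero]
  rfl

end

end P089.AM
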