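import Vale.Agent.Lib.P089.AM.Iface

/-!
# P089 AM: facts on the algebras `Roe G F`, `Loc G F`

* `roe_supp`: `SuppIn F` is a closed condition stable under products (use
  `SuppIn F T ↔ cut S * T * cut S = T` with `S = {y | InP F (pos y)}`, or closure_induction);
* `loc_cont`, `loc_bdd`: adjoin induction and uniform limits;
* `loc_comm`: for elements of `LocSet` this is `hm` (with `roe_supp`), then adjoin induction
  (`[C, ab] = [C, a] b + a [C, b]`) and uniform limits.
-/

namespace P089.AM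

open scoped Classical NNReal Topology
open Filter

noncomputable section

section Entries

variable {I : Type}

theorem locf_inner (i : I) (ξ : L2 I) : inner ℂ (lp.single 2 i (1 : ℂ) : L2 I) ξ = ξ i := by
  rw [lp.inner_single_left]
  simp

theorem locf_hasSum (T : L2 I →L[ℂ] L2 I) (ξ : L2 I) (i : I) :
    HasSum (fun j => ent T i j * ξ j) (T ξ i) := by
  have h1 : HasSum (fun j => lp.single 2 j (ξ j)) ξ := lp.hasSum_single (by norm_num) ξ
  have h2 := (innerSL ℂ (lp.single 2 i (1 : ℂ) : L2 I)).hasSum (T.hasSum h1)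
  simp only [innerSL_apply_apply, locf_inner] at h2
  refine h2.congr_fun fun j => ?_
  have h3 : (lp.single 2 j (ξ j) : L2 I) = ξ j • (lp.single 2 j (1 : ℂ) : L2 I) := by
    rw [← lp.single_smul, smul_eq_mul, mul_one]
  rw [h3, map_smul]
  unfold ent
  exact mul_comm _ _

theorem locf_row {T : L2 I →L[ℂ] L2 I} {i : I} (h : ∀ j, ent T i j = 0) (ξ : L2 I) :
    T ξ i = 0 := by
  have h1 := locf_hasSum T ξ i
  simp only [h, zero_mul] at h1
  exact h1.unique hasSum_zero

theorem locf_ent_cont (i j : I) : Continuous fun T : L2 I →L[ℂ] L2 I => ent T i j := by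
  have h1 : (fun T : L2 I →L[ℂ] L2 I => ent T i j) =
      fun T => inner ℂ (lp.single 2 i (1 : ℂ) : L2 I) (T (lp.single 2 j (1 : ℂ))) := by
    funext T
    rw [locf_inner]
    rfl
  rw [h1]
  fun_prop

theorem locf_mul_left {S T : L2 I →L[ℂ] L2 I} {i j : I} (h : ∀ u, ent T u j = 0) :
    ent (S * T) i j = 0 := by
  have h1 : T (lp.single 2 j (1 : ℂ)) = 0 := by
    ext u
    exact h u
  change (S (T (lp.single 2 j (1 : ℂ)))) i = 0
  rw [h1, map_zero]
  rfl

theorem locf_mul_right {S T : L2 I →L[ℂ] L2 I} {i j : I} (h : ∀ u, ent S i u = 0) :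
    ent (S * T) i j = 0 := by
  change (S (T (lp.single 2 j (1 : ℂ)))) i = 0
  exact locf_row h _

end Entries

variable {G : Type} [Group G] {F : Finset G}

theorem supp_iff (T : HX G →L[ℂ] HX G) : SuppIn F T ↔
    ∀ y y', ¬ (InP F (pos y) ∧ InP F (pos y')) → ent T y y' = 0 := by
  constructor
  · intro h y y' hn
    by_contra h0
    exact hn (h y y' h0)
  · intro h y y' h0
    by_contra hn
    exact h0 (h y y' hn)

theorem supp_add {S T : HX G →L[ℂ] HX G} (hS : SuppIn F S) (hT : SuppIn F T) :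
    SuppIn F (S + T) := by
  rw [supp_iff] at *
  intro y y' h
  have : ent (S + T) y y' = ent S y y' + ent T y y' := rfl
  rw [this, hS y y' h, hT y y' h, add_zero]

theorem supp_smul {T : HX G →L[ℂ] HX G} (c : ℂ) (hT : SuppIn F T) : SuppIn F (c • T) := by
  rw [supp_iff] at *
  intro y y' h
  have : ent (c • T) y y' = c * ent T y y' := rfl
  rw [this, hT y y' h, mul_zero]

theorem supp_mul {S T : HX G →L[ℂ] HX G} (hS : SuppIn F S) (hT : SuppIn F T) :
    SuppIn F (S * T) := by
  rw [supp_iff] at *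
  intro y y' h
  by_cases hy : InP F (pos y)
  · exact locf_mul_left fun u => hT u y' (fun h2 => h ⟨hy, h2.2⟩)
  · exact locf_mul_right fun j => hS y j (fun h2 => hy h2.1)

theorem supp_closed : IsClosed {T : HX G →L[ℂ] HX G | SuppIn F T} := by
  have h1 : {T : HX G →L[ℂ] HX G | SuppIn F T} =
      ⋂ y, ⋂ y', {T | ¬ (InP F (pos y) ∧ InP F (pos y')) → ent T y y' = 0} := by
    ext T
    simp only [Set.mem_ofPred_eq, Set.mem_iInter]
    exact supp_iff T
  rw [h1]
  refine isClosed_iInter fun y => isClosed_iInter fun y' => ?_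
  by_cases h : InP F (pos y) ∧ InP F (pos y')
  · have : {T : HX G →L[ℂ] HX G | ¬ (InP F (pos y) ∧ InP F (pos y')) → ent T y y' = 0} =
        Set.univ := by
      ext T
      simp [h]
    rw [this]
    exact isClosed_univ
  · have : {T : HX G →L[ℂ] HX G | ¬ (InP F (pos y) ∧ InP F (pos y')) → ent T y y' = 0} =
        {T | ent T y y' = 0} := by
      ext T
      simp [h]
    rw [this]
    exact isClosed_eq (locf_ent_cont y y') continuous_const

theorem roe_supp {T : HX G →L[ℂ] HX G} (hT : T ∈ Roe G F) : SuppIn F T := by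
  have h1 : ((NonUnitalAlgebra.adjoin ℂ (RoeSet G F) : NonUnitalSubalgebra ℂ
      (HX G →L[ℂ] HX G)) : Set (HX G →L[ℂ] HX G)) ⊆ {T | SuppIn F T} := by
    intro S hS
    induction hS using NonUnitalAlgebra.adjoin_induction with
    | mem S hS => exact hS.2.1
    | zero => exact fun y y' h => absurd rfl h
    | add a b _ _ ha hb => exact supp_add ha hb
    | mul a b _ _ ha hb => exact supp_mul ha hb
    | smul r a _ ha => exact supp_smul r ha
  exact closure_minimal h1 supp_closed hT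

theorem loc_unif {b : ℝ≥0 → (HX G →L[ℂ] HX G)} (hb : b ∈ Loc G F) (ε : ℝ) (hε : 0 < ε) :
    ∃ c ∈ NonUnitalAlgebra.adjoin ℂ (LocSet G F), ∀ t, ‖b t - c t‖ ≤ ε := hb ε hε

theorem adjoin_cont {c : ℝ≥0 → (HX G →L[ℂ] HX G)}
    (hc : c ∈ NonUnitalAlgebra.adjoin ℂ (LocSet G F)) : Continuous c := by
  induction hc using NonUnitalAlgebra.adjoin_induction with
  | mem S hS => exact hS.2.1.continuous
  | zero => exact continuous_const
  | add a b _ _ ha hb => exact ha.add hb
  | mul a b _ _ ha hb => exact ha.mul hb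
  | smul r a _ ha => exact ha.const_smul r

theorem adjoin_roe {c : ℝ≥0 → (HX G →L[ℂ] HX G)}
    (hc : c ∈ NonUnitalAlgebra.adjoin ℂ (LocSet G F)) (t : ℝ≥0) : c t ∈ Roe G F := by
  induction hc using NonUnitalAlgebra.adjoin_induction with
  | mem S hS => exact hS.2.2.1 t
  | zero => exact zero_mem _
  | add a b _ _ ha hb => exact add_mem ha hb
  | mul a b _ _ ha hb => exact mul_mem ha hb
  | smul r a _ ha => exact SMulMemClass.smul_mem r ha

theorem loc_cont {b : ℝ≥0 → (HX G →L[ℂ] HX G)} (hb : b ∈ Loc G F) : Continuous b := by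
  have h1 : ∀ n : ℕ, ∃ c : ℝ≥0 → (HX G →L[ℂ] HX G), Continuous c ∧
      ∀ t, ‖b t - c t‖ ≤ 1 / ((n : ℝ) + 1) := by
    intro n
    obtain ⟨c, hc, h⟩ := loc_unif hb (1 / ((n : ℝ) + 1)) (by positivity)
    exact ⟨c, adjoin_cont hc, h⟩
  choose c hc hbc using h1
  have h2 : TendstoUniformly (fun n => c n) b atTop := by
    rw [Metric.tendstoUniformly_iff]
    intro ε hε
    obtain ⟨N, hN⟩ := exists_nat_one_div_lt hε
    filter_upwards [eventually_ge_atTop N] with n hn t
    rw [dist_eq_norm]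
    refine (hbc n t).trans_lt (lt_of_le_of_lt ?_ hN)
    exact one_div_le_one_div_of_le (by positivity) (by exact_mod_cast Nat.succ_le_succ hn)
  exact h2.continuous (Frequently.of_forall hc)

theorem loc_bdd {b : ℝ≥0 → (HX G →L[ℂ] HX G)} (hb : b ∈ Loc G F) : ∃ C : ℝ, ∀ t, ‖b t‖ ≤ C := by
  obtain ⟨c, hc, h⟩ := loc_unif hb 1 one_pos
  obtain ⟨C, hC⟩ := adjoin_bdd (fun _ hb => hb.1) hc
  refine ⟨C + 1, fun t => ?_⟩
  have := norm_add_le (b t - c t) (c t)
  rw [sub_add_cancel] at this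
  linarith [h t, hC t]

theorem loc_comm {A : Type} [NormedRing A] [NormedAlgebra ℂ A]
    (Lam : (HX G →L[ℂ] HX G) →ₐ[ℂ] A) (C q : A) (hL : ∀ T, ‖Lam T‖ ≤ ‖T‖)
    (hqL : ∀ T, q * Lam T = Lam T * q) (_hqC : q * C = C * q)
    (hm : ∃ m : ℝ, ∀ ε : ℝ, 0 < ε → ε ≤ 1 → ∀ T : HX G →L[ℂ] HX G, SuppIn F T → PropLt ε T →
        ‖q * (C * Lam T - Lam T * C)‖ ≤ m * √ε * ‖T‖)
    {b : ℝ≥0 → (HX G →L[ℂ] HX G)} (hb : b ∈ Loc G F) :
    Tendsto (fun t => q * (C * Lam (b t) - Lam (b t) * C)) atTop (𝓝 0) := by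
  obtain ⟨m, hm⟩ := hm
  have h1 : ∀ c ∈ NonUnitalAlgebra.adjoin ℂ (LocSet G F),
      Tendsto (fun t => q * (C * Lam (c t) - Lam (c t) * C)) atTop (𝓝 0) := by
    intro c hc
    induction hc using NonUnitalAlgebra.adjoin_induction with
    | mem b hb =>
      obtain ⟨⟨B, hB⟩, _, h2, h3⟩ := hb
      have hB0 : 0 ≤ B := (norm_nonneg _).trans (hB 0)
      rw [Metric.tendsto_atTop]
      intro δ hδ
      set ε : ℝ := min 1 ((δ / (2 * (|m| + 1) * (B + 1))) ^ 2) with hε
      have hpos : 0 < δ / (2 * (|m| + 1) * (B + 1)) := by positivity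
      have hε0 : 0 < ε := lt_min one_pos (by positivity)
      obtain ⟨t0, ht0⟩ := h3 ε hε0
      refine ⟨t0, fun t ht => ?_⟩
      rw [dist_zero_right]
      have h4 := hm ε hε0 (min_le_left _ _) (b t) (roe_supp (h2 t)) (ht0 t ht)
      have h5 : √ε ≤ δ / (2 * (|m| + 1) * (B + 1)) := by
        rw [Real.sqrt_le_left hpos.le]
        exact min_le_right _ _
      have h6 : m * √ε * ‖b t‖ ≤ (|m| + 1) * (δ / (2 * (|m| + 1) * (B + 1))) * (B + 1) := by
        have h7 : m * √ε ≤ (|m| + 1) * (δ / (2 * (|m| + 1) * (B + 1))) := by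
          have h8 : m ≤ |m| + 1 := (le_abs_self m).trans (by linarith)
          calc m * √ε ≤ (|m| + 1) * √ε := mul_le_mul_of_nonneg_right h8 (Real.sqrt_nonneg _)
            _ ≤ _ := mul_le_mul_of_nonneg_left h5 (by positivity)
        exact mul_le_mul h7 ((hB t).trans (by linarith)) (norm_nonneg _) (by positivity)
      have h9 : (|m| + 1) * (δ / (2 * (|m| + 1) * (B + 1))) * (B + 1) = δ / 2 := by
        field_simp
      linarith
    | zero =>
      have : (fun t : ℝ≥0 => q * (C * Lam ((0 : ℝ≥0 → (HX G →L[ℂ] HX G)) t) -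
          Lam ((0 : ℝ≥0 → (HX G →L[ℂ] HX G)) t) * C)) = fun _ => 0 := by
        funext t
        simp
      rw [this]
      exact tendsto_const_nhds
    | add a b _ _ ha hb =>
      have h2 := ha.add hb
      rw [add_zero] at h2
      refine h2.congr fun t => ?_
      rw [Pi.add_apply, map_add]
      noncomm_ring
    | mul a b ha' hb' ha hb =>
      obtain ⟨A1, hA1⟩ := adjoin_bdd (fun _ hb => hb.1) ha'
      obtain ⟨B1, hB1⟩ := adjoin_bdd (fun _ hb => hb.1) hb'
      have h2 : ∀ t, q * (C * Lam ((a * b) t) - Lam ((a * b) t) * C) =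
          (q * (C * Lam (a t) - Lam (a t) * C)) * Lam (b t) +
            Lam (a t) * (q * (C * Lam (b t) - Lam (b t) * C)) := by
        intro t
        rw [Pi.mul_apply, map_mul]
        have h3 : Lam (a t) * (q * (C * Lam (b t) - Lam (b t) * C)) =
            q * (Lam (a t) * (C * Lam (b t) - Lam (b t) * C)) := by
          rw [← mul_assoc, ← hqL, mul_assoc]
        rw [h3]
        noncomm_ring
      simp only [h2]
      rw [tendsto_zero_iff_norm_tendsto_zero] at ha hb ⊢
      have h4 : Tendsto (fun t => ‖q * (C * Lam (a t) - Lam (a t) * C)‖ * B1 +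
          A1 * ‖q * (C * Lam (b t) - Lam (b t) * C)‖) atTop (𝓝 0) := by
        have := (ha.mul_const B1).add (hb.const_mul A1)
        simpa using this
      refine squeeze_zero (fun t => norm_nonneg _) (fun t => ?_) h4
      refine (norm_add_le _ _).trans (add_le_add ?_ ?_)
      · exact (norm_mul_le _ _).trans (mul_le_mul_of_nonneg_left ((hL _).trans (hB1 t))
          (norm_nonneg _))
      · exact (norm_mul_le _ _).trans (mul_le_mul_of_nonneg_right ((hL _).trans (hA1 t))
          (norm_nonneg _))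
    | smul r a _ ha =>
      have h2 := ha.const_smul r
      rw [smul_zero] at h2
      refine h2.congr fun t => ?_
      rw [Pi.smul_apply, map_smul, mul_smul_comm, smul_mul_assoc, ← smul_sub, mul_smul_comm]
  rw [Metric.tendsto_atTop]
  intro δ hδ
  obtain ⟨c, hc, hbc⟩ := loc_unif hb (δ / (4 * (‖q‖ + 1) * (‖C‖ + 1))) (by positivity)
  obtain ⟨t0, ht0⟩ := (Metric.tendsto_atTop.1 (h1 c hc)) (δ / 2) (by positivity)
  refine ⟨t0, fun t ht => ?_⟩
  have h2 := ht0 t ht
  rw [dist_zero_right] at h2 ⊢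
  have h3 : q * (C * Lam (b t) - Lam (b t) * C) =
      q * (C * Lam (c t) - Lam (c t) * C) +
        q * (C * Lam (b t - c t) - Lam (b t - c t) * C) := by
    rw [map_sub]
    noncomm_ring
  have h4 : ‖q * (C * Lam (b t - c t) - Lam (b t - c t) * C)‖ ≤
      (‖q‖ + 1) * (2 * (‖C‖ + 1) * (δ / (4 * (‖q‖ + 1) * (‖C‖ + 1)))) := by
    have h5 : ‖Lam (b t - c t)‖ ≤ δ / (4 * (‖q‖ + 1) * (‖C‖ + 1)) := (hL _).trans (hbc t)
    refine (norm_mul_le _ _).trans (mul_le_mul (by linarith) ?_ (norm_nonneg _) (by positivity))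
    refine (norm_sub_le _ _).trans ?_
    have h6 : ‖C * Lam (b t - c t)‖ ≤ (‖C‖ + 1) * (δ / (4 * (‖q‖ + 1) * (‖C‖ + 1))) :=
      (norm_mul_le _ _).trans (mul_le_mul (by linarith) h5 (norm_nonneg _) (by positivity))
    have h7 : ‖Lam (b t - c t) * C‖ ≤ (‖C‖ + 1) * (δ / (4 * (‖q‖ + 1) * (‖C‖ + 1))) := by
      rw [mul_comm (‖C‖ + 1)]
      exact (norm_mul_le _ _).trans (mul_le_mul h5 (by linarith) (norm_nonneg _) (by positivity))
    linarith
  have h8 : (‖q‖ + 1) * (2 * (‖C‖ + 1) * (δ / (4 * (‖q‖ + 1) * (‖C‖ + 1)))) = δ / 2 := by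
    field_simp
    ring
  rw [h3]
  calc _ ≤ _ := norm_add_le _ _
    _ < δ / 2 + δ / 2 := by
        rw [h8] at h4
        exact add_lt_add_of_lt_of_le h2 h4
    _ = δ := by ring

end

end P089.AM
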