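import Mathlib

/-!
# P089, part AM: near idempotents are similar, paths of idempotents
-/

namespace P089.AM

section Near

variable {A : Type*} [NormedRing A] [CompleteSpace A]

/-- idempotents `e`, `f` with `(f - e)(2e - 1)` of norm `< 1` are similar -/
theorem exists_unit_of_near {e f : A} (he : e * e = e) (hf : f * f = f)
    (h : ‖(f - e) * (2 * e - 1)‖ < 1) : ∃ u : Aˣ, (u : A) * e = f * u := by
  set v : A := -((f - e) * (2 * e - 1)) with hv
  have hv1 : ‖v‖ < 1 := by rwa [hv, norm_neg]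
  obtain ⟨u, hu⟩ : IsUnit (1 - v) := isUnit_one_sub_of_norm_lt_one hv1
  refine ⟨u, ?_⟩
  have h1 : (1 - v : A) = f * e + (1 - f) * (1 - e) := by
    have : (1 - v : A) - (f * e + (1 - f) * (1 - e)) = 2 * (e - e * e) := by
      rw [hv]
      noncomm_ring
    rw [he, sub_self, mul_zero] at this
    exact sub_eq_zero.1 this
  rw [hu, h1]
  have h2 : (f * e + (1 - f) * (1 - e)) * e = f * e := by
    have : (f * e + (1 - f) * (1 - e)) * e = f * (e * e) + (1 - f) * (e - e * e) := by
      noncomm_ring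
    rw [this, he, sub_self, mul_zero, add_zero]
  have h3 : f * (f * e + (1 - f) * (1 - e)) = f * e := by
    have : f * (f * e + (1 - f) * (1 - e)) = f * f * e + (f - f * f) * (1 - e) := by
      noncomm_ring
    rw [this, hf, sub_self, zero_mul, add_zero]
  rw [h2, h3]

/-- a quantitative version -/
theorem exists_unit_of_near' {e f : A} (he : e * e = e) (hf : f * f = f)
    (h : ‖f - e‖ * ‖2 * e - 1‖ < 1) : ∃ u : Aˣ, (u : A) * e = f * u :=
  exists_unit_of_near he hf ((norm_mul_le _ _).trans_lt h)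

/-- similarity of idempotents -/
def Sim (e f : A) : Prop := ∃ u : Aˣ, (u : A) * e = f * u

omit [CompleteSpace A] in
theorem Sim.refl (e : A) : Sim e e := ⟨1, by simp⟩

omit [CompleteSpace A] in
theorem Sim.symm {e f : A} (h : Sim e f) : Sim f e := by
  obtain ⟨u, hu⟩ := h
  refine ⟨u⁻¹, ?_⟩
  calc (↑u⁻¹ : A) * f = ↑u⁻¹ * (f * u) * ↑u⁻¹ := by rw [mul_assoc, mul_assoc, Units.mul_inv, mul_one]
    _ = ↑u⁻¹ * (u * e) * ↑u⁻¹ := by rw [hu]
    _ = e * ↑u⁻¹ := by rw [← mul_assoc, Units.inv_mul, one_mul]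

omit [CompleteSpace A] in
theorem Sim.trans {e f g : A} (h : Sim e f) (h' : Sim f g) : Sim e g := by
  obtain ⟨u, hu⟩ := h
  obtain ⟨v, hv⟩ := h'
  refine ⟨v * u, ?_⟩
  rw [Units.val_mul, mul_assoc, hu, ← mul_assoc, hv, mul_assoc]

omit [CompleteSpace A] in
/-- Murray-von Neumann form of similarity -/
theorem Sim.mvn {e f : A} (he : e * e = e) (hf : f * f = f) (h : Sim e f) :
    ∃ a b : A, a * b = f ∧ b * a = e ∧ f * a * e = a ∧ e * b * f = b := by
  obtain ⟨u, hu⟩ := h
  have hu' : (↑u⁻¹ : A) * f = e * ↑u⁻¹ := by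
    calc (↑u⁻¹ : A) * f = ↑u⁻¹ * (f * u) * ↑u⁻¹ := by
          rw [mul_assoc, mul_assoc, Units.mul_inv, mul_one]
      _ = ↑u⁻¹ * (u * e) * ↑u⁻¹ := by rw [hu]
      _ = e * ↑u⁻¹ := by rw [← mul_assoc, Units.inv_mul, one_mul]
  refine ⟨u * e, ↑u⁻¹ * f, ?_, ?_, ?_, ?_⟩
  · rw [hu, hu']
    calc f * ↑u * (e * ↑u⁻¹) = f * (↑u * e) * ↑u⁻¹ := by simp only [mul_assoc]
      _ = f * (f * ↑u) * ↑u⁻¹ := by rw [hu]
      _ = f * f * (↑u * ↑u⁻¹) := by simp only [mul_assoc]
      _ = f := by rw [Units.mul_inv, mul_one, hf]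
  · rw [hu', hu]
    calc e * ↑u⁻¹ * (f * ↑u) = e * (↑u⁻¹ * f) * ↑u := by simp only [mul_assoc]
      _ = e * (e * ↑u⁻¹) * ↑u := by rw [hu']
      _ = e * e * (↑u⁻¹ * ↑u) := by simp only [mul_assoc]
      _ = e := by rw [Units.inv_mul, mul_one, he]
  · rw [hu]
    calc f * (f * ↑u) * e = f * f * (↑u * e) := by simp only [mul_assoc]
      _ = f * (f * ↑u) := by rw [hf, hu]
      _ = f * ↑u := by rw [← mul_assoc, hf]
  · rw [hu']
    calc e * (e * ↑u⁻¹) * f = e * e * (↑u⁻¹ * f) := by simp only [mul_assoc]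
      _ = e * (e * ↑u⁻¹) := by rw [he, hu']
      _ = e * ↑u⁻¹ := by rw [← mul_assoc, he]

/-- a continuous family of idempotents over a preconnected space consists of similar idempotents -/
theorem sim_of_path {T : Type*} [TopologicalSpace T] [PreconnectedSpace T] (p : T → A)
    (hp : Continuous p) (hid : ∀ t, p t * p t = p t) (s t : T) : Sim (p s) (p t) := by
  let r : Setoid A := ⟨Sim, fun e => Sim.refl e, fun h => h.symm, fun h h' => h.trans h'⟩
  have hloc : IsLocallyConstant fun t => (Quotient.mk r (p t)) := by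
    rw [IsLocallyConstant.iff_eventually_eq]
    intro t0
    have h1 : Filter.Tendsto (fun t => ‖(p t - p t0) * (2 * p t0 - 1)‖) (nhds t0)
        (nhds ‖(p t0 - p t0) * (2 * p t0 - 1)‖) :=
      (((hp.sub continuous_const).mul continuous_const).norm).tendsto t0
    rw [sub_self, zero_mul, norm_zero] at h1
    filter_upwards [h1.eventually (gt_mem_nhds one_pos)] with t ht
    exact (Quotient.sound (exists_unit_of_near (hid t0) (hid t) ht)).symm
  have h2 := hloc.apply_eq_of_preconnectedSpace s t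
  exact Quotient.exact h2

omit [CompleteSpace A] in
/-- traces of similar idempotents agree -/
theorem Sim.trace_eq {e f : A} (he : e * e = e) (hf : f * f = f) (h : Sim e f) {M : Type*}
    (tr : A → M) (htr : ∀ a b, tr (a * b) = tr (b * a)) : tr e = tr f := by
  obtain ⟨a, b, h1, h2, -, -⟩ := h.mvn he hf
  rw [← h1, ← h2, htr]

end Near

end P089.AM
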