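import Vale.Agent.Lib.P089.AM.Defs
import Vale.Agent.Lib.P089.AM.Near

/-!
# P089 AM: near idempotent matrices, paths of idempotent matrices over a Banach algebra
-/

namespace P089.AM

open scoped Classical

variable {A : Type} [NormedRing A] [CompleteSpace A] {ι : Type} [Fintype ι]

section Local

attribute [local instance] Matrix.linftyOpNormedRing

omit [CompleteSpace A] in
theorem mat_norm_le (M : Matrix ι ι A) : ‖M‖ ≤ ∑ i, ∑ j, ‖M i j‖ := by
  have h1 : ‖M‖ = ((Finset.univ.sup fun i => ∑ j, ‖M i j‖₊ : NNReal) : ℝ) :=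
    Matrix.linfty_opNorm_def M
  rw [h1]
  have h2 : (Finset.univ.sup fun i => ∑ j, ‖M i j‖₊ : NNReal) ≤ ∑ i, ∑ j, ‖M i j‖₊ := by
    refine Finset.sup_le fun i _ => ?_
    exact Finset.single_le_sum (f := fun i => ∑ j, ‖M i j‖₊) (fun _ _ => by positivity)
      (Finset.mem_univ i)
  have h3 : ((Finset.univ.sup fun i => ∑ j, ‖M i j‖₊ : NNReal) : ℝ) ≤
      ((∑ i, ∑ j, ‖M i j‖₊ : NNReal) : ℝ) := by exact_mod_cast h2
  refine h3.trans (le_of_eq ?_)
  push_cast
  rfl

theorem mat_complete : @CompleteSpace (Matrix ι ι A) (Matrix.linftyOpNormedRing (n := ι)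
    (α := A)).toMetricSpace.toPseudoMetricSpace.toUniformSpace :=
  (inferInstance : CompleteSpace (ι → ι → A))

omit [CompleteSpace A] in
theorem mvn_of_unit {e f : Matrix ι ι A} (he : e * e = e)
    (h : ∃ u : (Matrix ι ι A)ˣ, (u : Matrix ι ι A) * f = e * u) (hf : f * f = f) : MvN e f := by
  obtain ⟨a, b, h1, h2, -, -⟩ := Sim.mvn hf he h
  exact ⟨a, b, h1, h2⟩

/-- near idempotent matrices are equivalent -/
theorem mat_near' (M : ℝ) : ∃ δ : ℝ, 0 < δ ∧ ∀ e f : Matrix ι ι A, e * e = e → f * f = f →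
    (∀ i j, ‖f i j‖ ≤ M) → (∀ i j, ‖e i j - f i j‖ ≤ δ) → MvN e f := by
  have := mat_complete (A := A) (ι := ι)
  set N : ℝ := (Fintype.card ι : ℝ) * (Fintype.card ι : ℝ) with hN
  have hN0 : 0 ≤ N := by positivity
  set K : ℝ := 2 * (N * |M|) + ‖(1 : Matrix ι ι A)‖ + 1 with hK
  have hK0 : 0 < K := by positivity
  refine ⟨1 / ((N + 1) * K), by positivity, fun e f he hf hfM hef => ?_⟩
  have hsum : ∀ (D : Matrix ι ι A) (r : ℝ), (∀ i j, ‖D i j‖ ≤ r) → ‖D‖ ≤ N * r := by
    intro D r hD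
    refine (mat_norm_le D).trans ?_
    calc ∑ i, ∑ j, ‖D i j‖ ≤ ∑ _i : ι, ∑ _j : ι, r :=
          Finset.sum_le_sum fun i _ => Finset.sum_le_sum fun j _ => hD i j
      _ = N * r := by
          rw [Finset.sum_const, Finset.sum_const, Finset.card_univ, hN]
          simp only [nsmul_eq_mul]
          ring
  have h1 : ‖e - f‖ ≤ N * (1 / ((N + 1) * K)) := hsum _ _ hef
  have h2 : ‖f‖ ≤ N * |M| := hsum _ _ fun i j => (hfM i j).trans (le_abs_self M)
  have h3 : ‖2 * f - 1‖ ≤ K := by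
    have h4 : (2 : Matrix ι ι A) * f = f + f := two_mul f
    rw [h4]
    calc ‖f + f - 1‖ ≤ ‖f + f‖ + ‖(1 : Matrix ι ι A)‖ := norm_sub_le _ _
      _ ≤ (‖f‖ + ‖f‖) + ‖(1 : Matrix ι ι A)‖ := by gcongr; exact norm_add_le _ _
      _ ≤ K := by rw [hK]; linarith
  refine mvn_of_unit he (exists_unit_of_near hf he ?_) hf
  refine (norm_mul_le _ _).trans_lt ?_
  calc ‖e - f‖ * ‖2 * f - 1‖ ≤ (N * (1 / ((N + 1) * K))) * K :=
        mul_le_mul h1 h3 (norm_nonneg _) (by positivity)
    _ = N / (N + 1) := by field_simp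
    _ < 1 := by rw [div_lt_one (by positivity)]; linarith

/-- idempotent matrices in a continuous family are equivalent -/
theorem mat_path' {T : Type} [TopologicalSpace T] [PreconnectedSpace T] (p : T → Matrix ι ι A)
    (hc : ∀ i j, Continuous fun t => p t i j) (hid : ∀ t, p t * p t = p t) (s t : T) :
    MvN (p s) (p t) := by
  have := mat_complete (A := A) (ι := ι)
  have hcont : @Continuous _ _ _ (Matrix.linftyOpNormedRing (n := ι)
      (α := A)).toMetricSpace.toPseudoMetricSpace.toUniformSpace.toTopologicalSpace p := by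
    rw [continuous_iff_continuousAt]
    intro t0
    rw [ContinuousAt, tendsto_iff_norm_sub_tendsto_zero]
    refine squeeze_zero (fun _ => norm_nonneg _) (fun t => mat_norm_le _) ?_
    have h1 : Filter.Tendsto (fun t => ∑ i, ∑ j, ‖p t i j - p t0 i j‖) (nhds t0)
        (nhds (∑ i, ∑ j, ‖p t0 i j - p t0 i j‖)) := by
      refine tendsto_finsetSum _ fun i _ => tendsto_finsetSum _ fun j _ => ?_
      exact (((hc i j).sub continuous_const).norm).tendsto t0
    simpa using h1
  exact mvn_of_unit (hid s) (sim_of_path p hcont hid t s) (hid t)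

end Local

/-- near idempotent matrices are equivalent -/
theorem mat_near (M : ℝ) : ∃ δ : ℝ, 0 < δ ∧ ∀ e f : Matrix ι ι A, e * e = e → f * f = f →
    (∀ i j, ‖f i j‖ ≤ M) → (∀ i j, ‖e i j - f i j‖ ≤ δ) → MvN e f :=
  mat_near' M

/-- idempotent matrices in a continuous family are equivalent -/
theorem mat_path {T : Type} [TopologicalSpace T] [PreconnectedSpace T] (p : T → Matrix ι ι A)
    (hc : ∀ i j, Continuous fun t => p t i j) (hid : ∀ t, p t * p t = p t) (s t : T) :
    MvN (p s) (p t) :=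
  mat_path' p hc hid s t

end P089.AM
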