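import Vale.Agent.Lib.P089.AM.LocFacts
import Vale.Agent.Lib.P089.AM.MatNorm

/-!
# P089 AM: twisted traces vanish on the range of the assembly map
-/

namespace P089.AM

open scoped Classical NNReal Topology
open Filter

noncomputable section

/-! ### algebra -/

section Alg

variable {R S : Type} [Ring R] [Ring S] {ι κ μ : Type} [Fintype ι] [Fintype κ] [Fintype μ]

theorem star_map_mul (f : R →ₙ+* S) (a : Matrix ι κ R) (b : Matrix κ μ R) :
    (a * b).map f = a.map f * b.map f := by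
  refine Matrix.ext fun i j => ?_
  rw [Matrix.map_apply, Matrix.mul_apply, Matrix.mul_apply, map_sum]
  exact Finset.sum_congr rfl fun k _ => map_mul f _ _

theorem MvN.mapN (f : R →ₙ+* S) {p : Matrix ι ι R} {q : Matrix κ κ R} (h : MvN p q) :
    MvN (p.map f) (q.map f) := by
  obtain ⟨a, b, rfl, rfl⟩ := h
  exact ⟨a.map f, b.map f, (star_map_mul f a b).symm, (star_map_mul f b a).symm⟩

theorem MvN.symm' {p : Matrix ι ι R} {q : Matrix κ κ R} (h : MvN p q) : MvN q p := by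
  obtain ⟨a, b, h1, h2⟩ := h
  exact ⟨b, a, h2, h1⟩

theorem MvN.trans' {p : Matrix ι ι R} {q : Matrix κ κ R} {r : Matrix μ μ R} (hp : p * p = p)
    (hr : r * r = r) (h1 : MvN p q) (h2 : MvN q r) : MvN p r := by
  obtain ⟨a, b, hab, hba⟩ := h1
  obtain ⟨c, d, hcd, hdc⟩ := h2
  refine ⟨a * c, d * b, ?_, ?_⟩
  · calc a * c * (d * b) = a * (c * d) * b := by simp only [Matrix.mul_assoc]
      _ = a * (b * a) * b := by rw [hcd, hba]
      _ = (a * b) * (a * b) := by simp only [Matrix.mul_assoc]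
      _ = p := by rw [hab, hp]
  · calc d * b * (a * c) = d * (b * a) * c := by simp only [Matrix.mul_assoc]
      _ = d * (c * d) * c := by rw [hcd, hba]
      _ = (d * c) * (d * c) := by simp only [Matrix.mul_assoc]
      _ = r := by rw [hdc, hr]

end Alg

/-! ### the Clifford data -/

/-- the data of `PartCl` -/
structure ClData (G : Type) [Group G] (z : G) (F : Finset G) where
  Γ : Type
  gr : Group Γ
  Lam : (L2 (G × WG G) →L[ℂ] L2 (G × WG G)) →ₐ[ℂ] (L2 (Γ × WG G) →L[ℂ] L2 (Γ × WG G))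
  C : L2 (Γ × WG G) →L[ℂ] L2 (Γ × WG G)
  q : L2 (Γ × WG G) →L[ℂ] L2 (Γ × WG G)
  norm_le : ∀ T, ‖Lam T‖ ≤ ‖T‖
  Lam_mem : ∀ T, InU T → InU (Lam T)
  C_mem : InU C
  q_mem : InU q
  EZ_C : ∀ Z, EZ Z * C = C * EZ Z
  EZ_q : ∀ Z, EZ Z * q = q * EZ Z
  Lam_EZ : ∀ Z, Lam (EZ Z) = EZ Z
  qq : q * q = q
  qC : q * C = C * q
  qLam : ∀ T, q * Lam T = Lam T * q
  qCC : q * (C * C) = q
  anti : q * (C * Lam (lz z)) = -(q * (Lam (lz z) * C))
  comm : ∃ m : ℝ, ∀ ε : ℝ, 0 < ε → ε ≤ 1 → ∀ T : HX G →L[ℂ] HX G, SuppIn F T → PropLt ε T →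
        ‖q * (C * Lam T - Lam T * C)‖ ≤ m * √ε * ‖T‖
  tr : ∀ T Z, trZ Z (q * Lam T) = (1 / 2 : ℂ) * trZ Z T

attribute [instance] ClData.gr

theorem exists_clData (hCl : PartCl) {G : Type} [Group G] {z : G} (h1 : ∀ g, z * g = g * z)
    (h2 : z * z = 1) (h3 : z ≠ 1) {F : Finset G} (h4 : z ∉ F) : Nonempty (ClData G z F) := by
  obtain ⟨Γ, gr, Lam, C, q, a1, a2, a3, a4, a5, a6, a7, a8, a9, a10, a11, a12, a13, a14⟩ :=
    hCl G z h1 h2 h3 F h4
  exact ⟨⟨Γ, gr, Lam, C, q, a1, a2, a3, a4, a5, a6, a7, a8, a9, a10, a11, a12, a13, a14⟩⟩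

theorem lz_mul {Γ W : Type} [Group Γ] (a b : Γ) :
    (lz a : L2 (Γ × W) →L[ℂ] L2 (Γ × W)) * lz b = lz (a * b) := by
  ext ξ y
  change (lz a) ((lz b) ξ) y = _
  rw [lz_apply, lz_apply, lz_apply, mul_inv_rev, mul_assoc]

theorem lz_one {Γ W : Type} [Group Γ] : (lz 1 : L2 (Γ × W) →L[ℂ] L2 (Γ × W)) = 1 := by
  ext ξ y
  rw [lz_apply, inv_one, one_mul]
  rfl

section Cl

variable {G : Type} [Group G] {z : G} {F : Finset G} (D : ClData G z F)

namespace ClData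

/-- the operator of `z` -/
def L : L2 (D.Γ × WG G) →L[ℂ] L2 (D.Γ × WG G) := D.Lam (lz z)

/-- `q (1 + e z) / 2` -/
def Pe (e : ℂ) : L2 (D.Γ × WG G) →L[ℂ] L2 (D.Γ × WG G) :=
  D.q * ((1 / 2 : ℂ) • (1 + e • D.L))

theorem LL (h2 : z * z = 1) : D.L * D.L = 1 := by
  unfold L
  rw [← map_mul, lz_mul, h2, lz_one, map_one]

theorem qL : D.q * D.L = D.L * D.q := D.qLam _

theorem Pe_idem (h2 : z * z = 1) {e : ℂ} (he : e * e = 1) : D.Pe e * D.Pe e = D.Pe e := by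
  have h1 : ((1 / 2 : ℂ) • (1 + e • D.L)) * D.q = D.q * ((1 / 2 : ℂ) • (1 + e • D.L)) := by
    rw [smul_mul_assoc, mul_smul_comm, add_mul, mul_add, one_mul, mul_one, smul_mul_assoc,
      mul_smul_comm, D.qL]
  have h3 : ((1 / 2 : ℂ) • (1 + e • D.L)) * ((1 / 2 : ℂ) • (1 + e • D.L)) =
      ((1 / 2 : ℂ) • (1 + e • D.L)) := by
    rw [smul_mul_assoc, mul_smul_comm, smul_smul, add_mul, mul_add, mul_add, one_mul, one_mul,
      mul_one, smul_mul_assoc, mul_smul_comm, D.LL h2, smul_smul, he]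
    module
  calc D.Pe e * D.Pe e = D.q * (((1 / 2 : ℂ) • (1 + e • D.L)) * D.q) *
        ((1 / 2 : ℂ) • (1 + e • D.L)) := by unfold Pe; simp only [mul_assoc]
    _ = D.q * D.q * (((1 / 2 : ℂ) • (1 + e • D.L)) * ((1 / 2 : ℂ) • (1 + e • D.L))) := by
        rw [h1]; simp only [mul_assoc]
    _ = D.Pe e := by rw [D.qq, h3]; rfl

theorem Pe_comm {T : L2 (G × WG G) →L[ℂ] L2 (G × WG G)} (hT : EquiG T) (e : ℂ) :
    D.Pe e * D.Lam T = D.Lam T * D.Pe e := by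
  have h1 : D.L * D.Lam T = D.Lam T * D.L := by
    unfold L
    rw [← map_mul, ← map_mul, lz_comm hT]
  have h2 : ((1 / 2 : ℂ) • (1 + e • D.L)) * D.Lam T = D.Lam T * ((1 / 2 : ℂ) • (1 + e • D.L)) := by
    rw [smul_mul_assoc, mul_smul_comm, add_mul, mul_add, one_mul, mul_one, smul_mul_assoc,
      mul_smul_comm, h1]
  unfold Pe
  rw [mul_assoc, h2, ← mul_assoc, D.qLam, mul_assoc]

theorem Pe_mem (hz : ∀ g, z * g = g * z) (e : ℂ) : InU (D.Pe e) := by
  have h1 : D.L ∈ US D.Γ (WG G) := D.Lam_mem _ (lz_mem hz)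
  have h2 : D.q ∈ US D.Γ (WG G) := D.q_mem
  exact mul_mem h2 (Subalgebra.smul_mem _ (add_mem (one_mem _) (Subalgebra.smul_mem _ h1 e)) _)

/-- the non-unital homomorphism `T ↦ P_e T` -/
def Psi (hz : ∀ g, z * g = g * z) (h2 : z * z = 1) (e : ℂ) (he : e * e = 1) :
    US G (WG G) →ₙ+* US D.Γ (WG G) where
  toFun T := ⟨D.Pe e * D.Lam T.1, mul_mem (D.Pe_mem hz e) (D.Lam_mem _ T.2)⟩
  map_mul' S T := by
    refine Subtype.ext ?_
    change D.Pe e * D.Lam (S.1 * T.1) = D.Pe e * D.Lam S.1 * (D.Pe e * D.Lam T.1)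
    rw [map_mul]
    calc D.Pe e * (D.Lam S.1 * D.Lam T.1) = D.Pe e * D.Pe e * D.Lam S.1 * D.Lam T.1 := by
          rw [D.Pe_idem h2 he, mul_assoc]
      _ = D.Pe e * (D.Pe e * D.Lam S.1) * D.Lam T.1 := by simp only [mul_assoc]
      _ = D.Pe e * (D.Lam S.1 * D.Pe e) * D.Lam T.1 := by rw [D.Pe_comm S.2.1]
      _ = D.Pe e * D.Lam S.1 * (D.Pe e * D.Lam T.1) := by simp only [mul_assoc]
  map_zero' := by
    refine Subtype.ext ?_
    change D.Pe e * D.Lam 0 = 0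
    rw [map_zero, mul_zero]
  map_add' S T := by
    refine Subtype.ext ?_
    change D.Pe e * D.Lam (S.1 + T.1) = D.Pe e * D.Lam S.1 + D.Pe e * D.Lam T.1
    rw [map_add, mul_add]

theorem Psi_val (hz : ∀ g, z * g = g * z) (h2 : z * z = 1) (e : ℂ) (he : e * e = 1)
    (T : US G (WG G)) : (D.Psi hz h2 e he T).1 = D.Pe e * D.Lam T.1 := rfl

theorem C_Pe : D.C * D.Pe 1 = D.Pe (-1) * D.C := by
  have h1 : D.q * (D.C * D.L) = -(D.q * (D.L * D.C)) := D.anti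
  unfold Pe
  rw [← mul_assoc, ← D.qC, mul_assoc, mul_assoc, mul_smul_comm, smul_mul_assoc, mul_smul_comm,
    mul_smul_comm, mul_add, add_mul, mul_add, mul_add, mul_one, one_mul, one_smul, h1,
    neg_smul, one_smul, neg_mul, mul_neg]

theorem qPe (e : ℂ) : D.q * D.Pe e = D.Pe e := by
  unfold Pe
  rw [← mul_assoc, D.qq]

theorem Pe_q (e : ℂ) : D.Pe e * D.q = D.Pe e := by
  unfold Pe
  rw [mul_assoc, smul_mul_assoc, add_mul, one_mul, smul_mul_assoc, ← D.qL, mul_smul_comm, mul_add,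
    mul_smul_comm, ← mul_assoc, D.qq, mul_smul_comm, mul_add, mul_one, mul_smul_comm]

/-- key identity -/
theorem conj_sub {T : L2 (G × WG G) →L[ℂ] L2 (G × WG G)} (hT : EquiG T) :
    D.C * (D.Pe 1 * D.Lam T) * D.C - D.Pe (-1) * D.Lam T =
      D.Pe (-1) * (D.q * (D.C * D.Lam T - D.Lam T * D.C)) * D.C := by
  have h1 : D.Pe (-1) * D.Lam T * (D.C * D.C) = D.Pe (-1) * D.Lam T := by
    rw [D.Pe_comm hT]
    have h2 : D.Pe (-1) * (D.C * D.C) = D.Pe (-1) := by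
      conv_lhs => rw [← D.Pe_q (-1)]
      rw [mul_assoc, D.qCC, D.Pe_q]
    rw [mul_assoc, h2]
  calc D.C * (D.Pe 1 * D.Lam T) * D.C - D.Pe (-1) * D.Lam T
      = (D.C * D.Pe 1) * D.Lam T * D.C - D.Pe (-1) * D.Lam T * (D.C * D.C) := by
        rw [h1]; simp only [mul_assoc]
    _ = D.Pe (-1) * D.C * D.Lam T * D.C - D.Pe (-1) * D.Lam T * (D.C * D.C) := by rw [D.C_Pe]
    _ = D.Pe (-1) * (D.C * D.Lam T - D.Lam T * D.C) * D.C := by noncomm_ring
    _ = (D.Pe (-1) * D.q) * (D.C * D.Lam T - D.Lam T * D.C) * D.C := by rw [D.Pe_q]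
    _ = _ := by simp only [mul_assoc]

/-- conjugation by `C` -/
theorem mvn_conj (hz : ∀ g, z * g = g * z) (h2 : z * z = 1) {ι : Type} [Fintype ι]
    (e : Matrix ι ι (US G (WG G))) (he : e * e = e) :
    ∃ E' : Matrix ι ι (US D.Γ (WG G)), E' * E' = E' ∧
      MvN (e.map (D.Psi hz h2 1 (one_mul 1))) E' ∧
      ∀ i j, (E' i j).1 = D.C * (D.Pe 1 * D.Lam (e i j).1) * D.C := by
  set Ps := D.Psi hz h2 1 (one_mul 1) with hPs
  let Cu : US D.Γ (WG G) := ⟨D.C, D.C_mem⟩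
  have hmm : e.map Ps * e.map Ps = e.map Ps := by rw [← star_map_mul, he]
  have hCC : ∀ S : US G (WG G), Ps S * (Cu * Cu) = Ps S := by
    intro S
    refine Subtype.ext ?_
    change D.Pe 1 * D.Lam S.1 * (D.C * D.C) = D.Pe 1 * D.Lam S.1
    rw [D.Pe_comm S.2.1, mul_assoc]
    congr 1
    conv_lhs => rw [← D.Pe_q 1]
    rw [mul_assoc, D.qCC, D.Pe_q]
  let a : Matrix ι ι (US D.Γ (WG G)) := Matrix.of fun i j => Ps (e i j) * Cu
  let b : Matrix ι ι (US D.Γ (WG G)) := Matrix.of fun i j => Cu * Ps (e i j)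
  have hab : a * b = e.map Ps := by
    rw [← hmm]
    refine Matrix.ext fun i j => ?_
    rw [Matrix.mul_apply, Matrix.mul_apply]
    refine Finset.sum_congr rfl fun k _ => ?_
    change Ps (e i k) * Cu * (Cu * Ps (e k j)) = Ps (e i k) * Ps (e k j)
    calc Ps (e i k) * Cu * (Cu * Ps (e k j)) = Ps (e i k) * (Cu * Cu) * Ps (e k j) := by
          simp only [mul_assoc]
      _ = Ps (e i k) * Ps (e k j) := by rw [hCC]
  let E' : Matrix ι ι (US D.Γ (WG G)) := Matrix.of fun i j => Cu * Ps (e i j) * Cu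
  have hba : b * a = E' := by
    refine Matrix.ext fun i j => ?_
    have h3 : (e.map Ps) i j = ∑ k, Ps (e i k) * Ps (e k j) := by
      conv_lhs => rw [← hmm]
      rw [Matrix.mul_apply]
      rfl
    rw [Matrix.mul_apply]
    change ∑ k, Cu * Ps (e i k) * (Ps (e k j) * Cu) = Cu * (e.map Ps) i j * Cu
    rw [h3, Finset.mul_sum, Finset.sum_mul]
    exact Finset.sum_congr rfl fun k _ => by simp only [mul_assoc]
  refine ⟨E', ?_, ⟨a, b, hab, hba⟩, fun i j => rfl⟩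
  rw [← hba]
  have h4 : a * b * a = a := by
    rw [hab]
    refine Matrix.ext fun i j => ?_
    rw [Matrix.mul_apply]
    have h3 : (e.map Ps) i j = ∑ k, Ps (e i k) * Ps (e k j) := by
      conv_lhs => rw [← hmm]
      rw [Matrix.mul_apply]
      rfl
    change ∑ k, Ps (e i k) * (Ps (e k j) * Cu) = (e.map Ps) i j * Cu
    rw [h3, Finset.sum_mul]
    exact Finset.sum_congr rfl fun k _ => by simp only [mul_assoc]
  calc b * a * (b * a) = b * (a * b * a) := by simp only [Matrix.mul_assoc]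
    _ = b * a := by rw [h4]

end ClData

end Cl

end

end P089.AM
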