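import Vale.Agent.Lib.P089.AM.Star

/-!
# P089 AM: twisted traces vanish on the range of the assembly map (2): the paths
-/

namespace P089.AM

open scoped Classical NNReal Topology
open Filter

noncomputable section

section Um

variable {B C : Type} [NonUnitalRing B] [Module ℂ B] [IsScalarTower ℂ B B] [SMulCommClass ℂ B B]
  [NonUnitalRing C] [Module ℂ C] [IsScalarTower ℂ C C] [SMulCommClass ℂ C C]

theorem umap_snd (f : B →ₙₐ[ℂ] C) (x : Unitization ℂ B) : (umap f x).snd = f x.snd := by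
  change (algebraMap ℂ (Unitization ℂ C) x.fst +
    (Unitization.inr (f x.snd) : Unitization ℂ C)).snd = f x.snd
  rw [Unitization.snd_add, Unitization.snd_inr, Unitization.algebraMap_eq_inl,
    Unitization.snd_inl, zero_add]

end Um

theorem map_idem {R S : Type} [Ring R] [Ring S] (f : R →+* S) {ι : Type} [Fintype ι]
    (e : Matrix ι ι R) (he : e * e = e) : e.map f * e.map f = e.map f := by
  rw [← Matrix.map_mul, he]

section Phi

variable {G : Type} [Group G] {F : Finset G}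

/-- the homomorphism of the unitization of `RoeG G` to `US` -/
def phiR (hR : PartRoe) : Unitization ℂ (RoeG G) →ₐ[ℂ] US G (WG G) :=
  Unitization.lift
    { toFun := fun T => ⟨T.1, hR G T.1 T.2⟩
      map_smul' := fun _ _ => rfl
      map_zero' := rfl
      map_add' := fun _ _ => rfl
      map_mul' := fun _ _ => rfl }

theorem loc_roeG {b : ℝ≥0 → (HX G →L[ℂ] HX G)} (hb : b ∈ Loc G F) (t : ℝ≥0) : b t ∈ RoeG G :=
  pathAlg_mem (clAlg_closed _) (fun _ h => clAlg_mono (Set.subset_iUnion _ F) (h.2.2.1 t)) hb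

/-- the homomorphism of the unitization of `Loc G F` to `US`, evaluation at `t` -/
def phiL (hR : PartRoe) (F : Finset G) (t : ℝ≥0) : Unitization ℂ (Loc G F) →ₐ[ℂ] US G (WG G) :=
  Unitization.lift
    { toFun := fun b => ⟨b.1 t, hR G _ (loc_roeG b.2 t)⟩
      map_smul' := fun _ _ => rfl
      map_zero' := rfl
      map_add' := fun _ _ => rfl
      map_mul' := fun _ _ => rfl }

theorem phiR_val (hR : PartRoe) (u : Unitization ℂ (RoeG G)) :
    (phiR hR u).1 = u.fst • (1 : HX G →L[ℂ] HX G) + u.snd.1 := by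
  change (algebraMap ℂ (US G (WG G)) u.fst).1 + u.snd.1 = _
  congr 1

theorem phiL_val (hR : PartRoe) (t : ℝ≥0) (u : Unitization ℂ (Loc G F)) :
    (phiL hR F t u).1 = u.fst • (1 : HX G →L[ℂ] HX G) + u.snd.1 t := by
  change (algebraMap ℂ (US G (WG G)) u.fst).1 + u.snd.1 t = _
  congr 1

theorem phiR_ev (hR : PartRoe) (u : Unitization ℂ (Loc G F)) :
    phiR hR (umap (ev G F) u) = phiL hR F 0 u := by
  refine Subtype.ext ?_
  rw [phiR_val, phiL_val, umap_fst, umap_snd]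
  rfl

theorem phiL_cont (hR : PartRoe) (u : Unitization ℂ (Loc G F)) :
    Continuous fun t => phiL hR F t u := by
  refine continuous_induced_rng.2 ?_
  have h1 : (Subtype.val ∘ fun t => phiL hR F t u) =
      fun t => u.fst • (1 : HX G →L[ℂ] HX G) + u.snd.1 t := by
    funext t
    exact phiL_val hR t u
  rw [h1]
  exact continuous_const.add (loc_cont u.snd.2)

theorem phiL_bdd (hR : PartRoe) (u : Unitization ℂ (Loc G F)) :
    ∃ C : ℝ, ∀ t, ‖(phiL hR F t u).1‖ ≤ C := by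
  obtain ⟨C, hC⟩ := loc_bdd u.snd.2
  refine ⟨‖u.fst • (1 : HX G →L[ℂ] HX G)‖ + C, fun t => ?_⟩
  rw [phiL_val]
  exact (norm_add_le _ _).trans (by gcongr; exact hC t)

instance US_complete {Γ W : Type} [Group Γ] : CompleteSpace (US Γ W) :=
  (US_closed (Γ := Γ) (W := W)).completeSpace_coe

variable {z : G} (D : ClData G z F)

theorem comm_tendsto (hR : PartRoe) (u : Unitization ℂ (Loc G F)) :
    Tendsto (fun t => D.Pe (-1) * (D.q * (D.C * D.Lam (phiL hR F t u).1 -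
      D.Lam (phiL hR F t u).1 * D.C)) * D.C) atTop (𝓝 0) := by
  have h1 := loc_comm D.Lam D.C D.q D.norm_le D.qLam D.qC D.comm u.snd.2
  have h2 : ∀ t, D.q * (D.C * D.Lam (phiL hR F t u).1 - D.Lam (phiL hR F t u).1 * D.C) =
      D.q * (D.C * D.Lam (u.snd.1 t) - D.Lam (u.snd.1 t) * D.C) := by
    intro t
    rw [phiL_val, map_add, map_smul, map_one]
    congr 1
    rw [mul_add, add_mul, mul_smul_comm, mul_one, smul_mul_assoc, one_mul]
    abel
  simp only [h2]
  have h3 := (h1.const_mul (D.Pe (-1))).mul_const D.C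
  rw [mul_zero, zero_mul] at h3
  exact h3

theorem exists_near {R : Type} [Ring R] (φ : ℝ≥0 → R →+* US G (WG G))
    (hb : ∀ u, ∃ C : ℝ, ∀ t, ‖(φ t u).1‖ ≤ C)
    (hφ : ∀ u, Tendsto (fun t => D.Pe (-1) * (D.q * (D.C * D.Lam (φ t u).1 -
      D.Lam (φ t u).1 * D.C)) * D.C) atTop (𝓝 0))
    (hz : ∀ g, z * g = g * z) (h2 : z * z = 1) {ι : Type}
    [Fintype ι] (u : Matrix ι ι R) (hu : u * u = u) :
    ∃ t, MvN ((u.map (φ t)).map (D.Psi hz h2 1 (one_mul 1)))
      ((u.map (φ t)).map (D.Psi hz h2 (-1) (by norm_num))) := by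
  have hb' : ∀ p : ι × ι, ∃ C : ℝ, ∀ t, ‖(φ t (u p.1 p.2)).1‖ ≤ C := fun p => hb _
  choose K hK using hb'
  set M : ℝ := ∑ p : ι × ι, ‖D.Pe (-1)‖ * |K p| with hM
  have hM1 : ∀ t i j, ‖(D.Psi hz h2 (-1) (by norm_num)) (φ t (u i j))‖ ≤ M := by
    intro t i j
    change ‖D.Pe (-1) * D.Lam (φ t (u i j)).1‖ ≤ M
    refine (norm_mul_le _ _).trans ?_
    have h3 : ‖D.Pe (-1)‖ * |K (i, j)| ≤ M :=
      Finset.single_le_sum (f := fun p : ι × ι => ‖D.Pe (-1)‖ * |K p|)
        (fun p _ => by positivity) (Finset.mem_univ (i, j))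
    refine le_trans ?_ h3
    refine mul_le_mul_of_nonneg_left ?_ (norm_nonneg _)
    exact (D.norm_le _).trans ((hK (i, j) t).trans (le_abs_self _))
  obtain ⟨δ, hδ, hnear⟩ := mat_near (A := US D.Γ (WG G)) (ι := ι) M
  have hev : ∀ᶠ t in (atTop : Filter ℝ≥0), ∀ p : ι × ι,
      ‖D.Pe (-1) * (D.q * (D.C * D.Lam (φ t (u p.1 p.2)).1 -
        D.Lam (φ t (u p.1 p.2)).1 * D.C)) * D.C‖ ≤ δ := by
    refine eventually_all.2 fun p => ?_
    have h3 := (hφ (u p.1 p.2)).norm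
    rw [norm_zero] at h3
    exact (h3.eventually (gt_mem_nhds hδ)).mono fun t ht => ht.le
  obtain ⟨t, ht⟩ := hev.exists
  refine ⟨t, ?_⟩
  have hid : u.map (φ t) * u.map (φ t) = u.map (φ t) := map_idem (φ t) u hu
  obtain ⟨E', hE1, hE2, hE3⟩ := D.mvn_conj hz h2 _ hid
  have hid2 : ∀ e he, (u.map (φ t)).map (D.Psi hz h2 e he) *
      (u.map (φ t)).map (D.Psi hz h2 e he) =
      (u.map (φ t)).map (D.Psi hz h2 e he) := by
    intro e he
    rw [← star_map_mul, hid]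
  refine hE2.trans' (hid2 _ _) (hid2 _ _) (hnear _ _ hE1 (hid2 _ _) (fun i j => hM1 t i j) ?_)
  intro i j
  change ‖(E' i j).1 - D.Pe (-1) * D.Lam (φ t (u i j)).1‖ ≤ δ
  rw [hE3]
  change ‖D.C * (D.Pe 1 * D.Lam (φ t (u i j)).1) * D.C -
    D.Pe (-1) * D.Lam (φ t (u i j)).1‖ ≤ δ
  rw [D.conj_sub (φ t (u i j)).2.1]
  exact ht (i, j)

/-- all together, before the trace -/
theorem psi_equiv {R : Type} [Ring R] (φ : ℝ≥0 → R →+* US G (WG G))
    (hb : ∀ u, ∃ C : ℝ, ∀ t, ‖(φ t u).1‖ ≤ C) (hc : ∀ u, Continuous fun t => φ t u)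
    (hφ : ∀ u, Tendsto (fun t => D.Pe (-1) * (D.q * (D.C * D.Lam (φ t u).1 -
      D.Lam (φ t u).1 * D.C)) * D.C) atTop (𝓝 0))
    (hz : ∀ g, z * g = g * z) (h2 : z * z = 1) {ι κ : Type}
    [Fintype ι] [Fintype κ] (u : Matrix ι ι R) (hu : u * u = u)
    (V : Matrix κ κ (US G (WG G))) (hV : V * V = V) (huV : MvN (u.map (φ 0)) V) :
    MvN (V.map (D.Psi hz h2 1 (one_mul 1))) (V.map (D.Psi hz h2 (-1) (by norm_num))) := by
  obtain ⟨t, ht⟩ := exists_near D φ hb hφ hz h2 u hu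
  have hid : ∀ t, u.map (φ t) * u.map (φ t) = u.map (φ t) := fun t => map_idem (φ t) u hu
  have h0 : MvN (u.map (φ 0)) (u.map (φ t)) :=
    mat_path (A := US G (WG G)) (fun t => u.map (φ t)) (fun i j => hc (u i j)) hid 0 t
  have h1 : MvN V (u.map (φ t)) := huV.symm'.trans' hV (hid t) h0
  have hid2 : ∀ e he, (u.map (φ t)).map (D.Psi hz h2 e he) *
      (u.map (φ t)).map (D.Psi hz h2 e he) =
      (u.map (φ t)).map (D.Psi hz h2 e he) := by
    intro e he
    rw [← star_map_mul, hid]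
  have hidV : ∀ e he, V.map (D.Psi hz h2 e he) * V.map (D.Psi hz h2 e he) =
      V.map (D.Psi hz h2 e he) := by
    intro e he
    rw [← star_map_mul, hV]
  have h3 := (h1.mapN (D.Psi hz h2 1 (one_mul 1))).trans' (hidV _ _) (hid2 _ _) ht
  exact h3.trans' (hidV _ _) (hidV _ _) (h1.mapN (D.Psi hz h2 (-1) (by norm_num))).symm'

end Phi

end

end P089.AM
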