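import Vale.Agent.Lib.P089.AM.Star2
import Vale.Agent.Lib.P089.AM.Ent

/-!
# P089 AM: twisted traces vanish on the range of the assembly map (3): the trace
-/

namespace P089.AM

open scoped Classical NNReal Topology
open Filter

noncomputable section

section Tr

variable {Γ W : Type} [Group Γ]

theorem trZ_add (Z : Finset W) (S T : L2 (Γ × W) →L[ℂ] L2 (Γ × W)) :
    trZ Z (S + T) = trZ Z S + trZ Z T := by
  unfold trZ
  rw [← Finset.sum_add_distrib]
  rfl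

theorem trZ_smul (Z : Finset W) (c : ℂ) (T : L2 (Γ × W) →L[ℂ] L2 (Γ × W)) :
    trZ Z (c • T) = c * trZ Z T := by
  unfold trZ
  rw [Finset.mul_sum]
  rfl

theorem trZ_lz (Z : Finset W) {z : Γ} (hz : z ≠ 1) :
    trZ Z (lz z : L2 (Γ × W) →L[ℂ] L2 (Γ × W)) = 0 := by
  unfold trZ
  refine Finset.sum_eq_zero fun w _ => ?_
  rw [ent_lz, if_neg]
  intro h
  have h1 := congrArg Prod.fst h
  change z⁻¹ * 1 = 1 at h1
  rw [mul_one, inv_eq_one] at h1
  exact hz h1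

theorem trZ_corner {Z1 Z : Finset W} (h : Z1 ⊆ Z) {S T : L2 (Γ × W) →L[ℂ] L2 (Γ × W)}
    (hT : T * EZ Z1 = T) : trZ Z (S * T) = trZ Z1 (S * T) := by
  unfold trZ
  refine (Finset.sum_subset h fun w _ hw => ?_).symm
  have h1 : S * T = S * T * EZ Z1 := by rw [mul_assoc, hT]
  rw [h1]
  unfold EZ
  rw [ent_mul_cut, if_neg]
  exact hw

end Tr

section Fin

variable {G : Type} [Group G] {z : G} {F : Finset G} (D : ClData G z F)

theorem trZ_Psi (Z : Finset (WG G)) (e : ℂ) (T : L2 (G × WG G) →L[ℂ] L2 (G × WG G)) :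
    trZ Z (D.Pe e * D.Lam T) = 1 / 4 * trZ Z T + 1 / 4 * e * trZ Z (lz z * T) := by
  have h1 : D.Pe e * D.Lam T = D.q * D.Lam ((1 / 2 : ℂ) • (T + e • (lz z * T))) := by
    unfold ClData.Pe ClData.L
    rw [map_smul, map_add, map_smul, map_mul, mul_assoc, smul_mul_assoc, add_mul, one_mul,
      smul_mul_assoc]
  rw [h1, D.tr, trZ_smul, trZ_add, trZ_smul]
  ring

theorem EZ_Psi {Z : Finset (WG G)} {T : L2 (G × WG G) →L[ℂ] L2 (G × WG G)}
    (hT : EZ Z * T = T * EZ Z) (e : ℂ) :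
    EZ Z * (D.Pe e * D.Lam T) = D.Pe e * D.Lam T * EZ Z := by
  have h1 : EZ Z * D.L = D.L * EZ Z := by
    unfold ClData.L
    rw [← D.Lam_EZ, ← map_mul, EZ_lz, map_mul]
  have h2 : EZ Z * D.Lam T = D.Lam T * EZ Z := by
    rw [← D.Lam_EZ, ← map_mul, hT, map_mul]
  have h3 : EZ Z * D.Pe e = D.Pe e * EZ Z := by
    have h4 : EZ Z * ((1 / 2 : ℂ) • (1 + e • D.L)) = ((1 / 2 : ℂ) • (1 + e • D.L)) * EZ Z := by
      rw [mul_smul_comm, smul_mul_assoc, mul_add, add_mul, mul_one, one_mul, mul_smul_comm,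
        smul_mul_assoc, h1]
    unfold ClData.Pe
    rw [← mul_assoc, D.EZ_q, mul_assoc, h4, ← mul_assoc]
  rw [← mul_assoc, h3, mul_assoc, h2, ← mul_assoc]

theorem star_core (hTr : PartTr) (hz : ∀ g, z * g = g * z) (h2 : z * z = 1) {κ : Type} [Fintype κ]
    (V : Matrix κ κ (US G (WG G))) (hV : V * V = V) (Z1 : Finset (WG G))
    (hc : ∀ Z, Z1 ⊆ Z → ∀ i j, EZ Z * (V i j).1 = (V i j).1 * EZ Z)
    (h : MvN (V.map (D.Psi hz h2 1 (one_mul 1))) (V.map (D.Psi hz h2 (-1) (by norm_num)))) :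
    ∃ Z2 : Finset (WG G), Z1 ⊆ Z2 ∧ ∑ i, trZ Z2 (lz z * (V i i).1) = 0 := by
  have hidV : ∀ e he, V.map (D.Psi hz h2 e he) * V.map (D.Psi hz h2 e he) =
      V.map (D.Psi hz h2 e he) := by
    intro e he
    rw [← star_map_mul, hV]
  obtain ⟨Z2, h12, h3⟩ := hTr D.Γ (WG G) κ κ _ _ (hidV 1 (one_mul 1)) (hidV (-1) (by norm_num)) Z1
    (fun Z hZ i j => EZ_Psi D (hc Z hZ i j) 1) (fun Z hZ i j => EZ_Psi D (hc Z hZ i j) (-1)) h
  refine ⟨Z2, h12, ?_⟩
  have h4 := h3 Z2 (Finset.Subset.refl _)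
  have h5 : ∀ e he, ∑ i, trZ Z2 ((V.map (D.Psi hz h2 e he)) i i).1 =
      1 / 4 * ∑ i, trZ Z2 (V i i).1 + 1 / 4 * e * ∑ i, trZ Z2 (lz z * (V i i).1) := by
    intro e he
    rw [Finset.mul_sum, Finset.mul_sum, ← Finset.sum_add_distrib]
    exact Finset.sum_congr rfl fun i _ => trZ_Psi D Z2 e _
  rw [h5, h5] at h4
  linear_combination 2 * h4

end Fin

section Blocks

variable {R S : Type} [Ring R] [Ring S]

theorem bs_mul {ι κ : Type} [Fintype ι] [Fintype κ] (p p' : Matrix ι ι R) (q q' : Matrix κ κ R) :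
    bs p q * bs p' q' = bs (p * p') (q * q') := by
  unfold bs
  rw [Matrix.fromBlocks_multiply]
  simp

theorem bs_idem {ι κ : Type} [Fintype ι] [Fintype κ] {p : Matrix ι ι R} {q : Matrix κ κ R}
    (hp : p * p = p) (hq : q * q = q) : bs p q * bs p q = bs p q := by
  rw [bs_mul, hp, hq]

theorem one_sub_idem {ι : Type} [Fintype ι] [DecidableEq ι] {q : Matrix ι ι R} (hq : q * q = q) :
    (1 - q) * (1 - q) = 1 - q := by
  rw [mul_sub, mul_one, sub_mul, one_mul, hq, sub_self, sub_zero]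

theorem map_sub_one' {ι : Type} [Fintype ι] [DecidableEq ι] (f : R →+* S) (q : Matrix ι ι R) :
    (1 - q).map f = 1 - q.map f := by
  rw [Matrix.map_sub _ (map_sub f), Matrix.map_one _ (map_zero f) (map_one f)]

theorem map_one' {ι : Type} [Fintype ι] [DecidableEq ι] (f : R →+* S) :
    (1 : Matrix ι ι R).map f = 1 := Matrix.map_one _ (map_zero f) (map_one f)

/-- transport of the relation of `PartK` -/
theorem mvn_transport {R' : Type} [Ring R'] {n m : ℕ} (g : R →+* R') (f0 : R →+* S) (f1 : R' →+* S)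
    (hfg : ∀ u, f1 (g u) = f0 u) (p q : Matrix (Fin n) (Fin n) R) (s : Matrix (Fin 1) (Fin 1) R')
    (h : MvN (bs (bs (p.map g) (1 - q.map g)) (1 : Matrix (Fin m) (Fin m) R'))
      (bs (bs s (1 : Matrix (Fin n) (Fin n) R')) (1 : Matrix (Fin m) (Fin m) R'))) :
    MvN ((bs (bs p (1 - q)) (1 : Matrix (Fin m) (Fin m) R)).map f0)
      (bs (bs (s.map f1) (1 : Matrix (Fin n) (Fin n) S)) (1 : Matrix (Fin m) (Fin m) S)) := by
  have h1 := h.map f1
  rw [bs_map, bs_map, bs_map, bs_map, map_sub_one', map_one', map_one'] at h1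
  rw [bs_map, bs_map, map_sub_one', map_one']
  have h2 : ∀ M : Matrix (Fin n) (Fin n) R, (M.map g).map f1 = M.map f0 := fun M =>
    Matrix.ext fun i j => hfg _
  rw [h2, h2] at h1
  exact h1

end Blocks

theorem star_abs {G : Type} [Group G] {z : G} {F : Finset G} (D : ClData G z F) (hTr : PartTr)
    (hz : ∀ g, z * g = g * z) (h2 : z * z = 1) (h3 : z ≠ 1)
    {B C : Type} [NonUnitalRing B] [Module ℂ B] [IsScalarTower ℂ B B] [SMulCommClass ℂ B B]
    [NonUnitalRing C] [Module ℂ C] [IsScalarTower ℂ C C] [SMulCommClass ℂ C C] (f : B →ₙₐ[ℂ] C)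
    (φ : ℝ≥0 → Unitization ℂ B →+* US G (WG G)) (ψ : Unitization ℂ C →+* US G (WG G))
    (hfg : ∀ u, ψ (umap f u) = φ 0 u)
    (hb : ∀ u, ∃ C : ℝ, ∀ t, ‖(φ t u).1‖ ≤ C) (hc : ∀ u, Continuous fun t => φ t u)
    (hφ : ∀ u, Tendsto (fun t => D.Pe (-1) * (D.q * (D.C * D.Lam (φ t u).1 -
      D.Lam (φ t u).1 * D.C)) * D.C) atTop (𝓝 0))
    (x : KCyc B) (s : C) (hs : s * s = s) (s' : HX G →L[ℂ] HX G)
    (hs' : (ψ (Unitization.inr s)).1 = s') (m : ℕ)
    (hm : MvN (bs (bs (x.map f).p (1 - (x.map f).q)) (1 : Matrix (Fin m) (Fin m) (Unitization ℂ C)))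
      (bs (bs (projCyc s hs).p (1 : Matrix (Fin x.n) (Fin x.n) (Unitization ℂ C)))
        (1 : Matrix (Fin m) (Fin m) (Unitization ℂ C))))
    (Z1 : Finset (WG G)) (hZ1 : ∀ Z, Z1 ⊆ Z → EZ Z * s' = s' ∧ s' * EZ Z = s') (Z : Finset (WG G))
    (hZ : Z1 ⊆ Z) : trZ Z (lz z * s') = 0 := by
  have hm2 := mvn_transport (m := m) (umap f).toRingHom (φ 0) ψ hfg x.p x.q (projCyc s hs).p hm
  set S1 : Matrix (Fin 1) (Fin 1) (US G (WG G)) := (projCyc s hs).p.map ψ with hS1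
  have hS1v : ∀ i j, (S1 i j).1 = s' := fun i j => hs'
  have hS1i : S1 * S1 = S1 := map_idem _ _ (projCyc s hs).hp
  set V := bs (bs S1 (1 : Matrix (Fin x.n) (Fin x.n) (US G (WG G))))
    (1 : Matrix (Fin m) (Fin m) (US G (WG G))) with hV
  have hVi : V * V = V := bs_idem (bs_idem hS1i (one_mul 1)) (one_mul 1)
  have hu : bs (bs x.p (1 - x.q)) (1 : Matrix (Fin m) (Fin m) (Unitization ℂ B)) *
      bs (bs x.p (1 - x.q)) (1 : Matrix (Fin m) (Fin m) (Unitization ℂ B)) =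
      bs (bs x.p (1 - x.q)) (1 : Matrix (Fin m) (Fin m) (Unitization ℂ B)) :=
    bs_idem (bs_idem x.hp (one_sub_idem x.hq)) (one_mul 1)
  have hmvn := psi_equiv D φ hb hc hφ hz h2 _ hu V hVi hm2
  have hcomm : ∀ Z, Z1 ⊆ Z → ∀ i j, EZ Z * (V i j).1 = (V i j).1 * EZ Z := by
    intro Z hZ i j
    have hs1 : EZ Z * s' = s' * EZ Z := (hZ1 Z hZ).1.trans (hZ1 Z hZ).2.symm
    have hone : ∀ (k : ℕ) (i j : Fin k), EZ Z * ((1 : Matrix (Fin k) (Fin k) (US G (WG G))) i j).1 =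
        ((1 : Matrix (Fin k) (Fin k) (US G (WG G))) i j).1 * EZ Z := by
      intro k i j
      by_cases hij : i = j
      · subst hij
        rw [Matrix.one_apply_eq]
        change EZ Z * 1 = 1 * EZ Z
        rw [mul_one, one_mul]
      · rw [Matrix.one_apply_ne hij]
        change EZ Z * 0 = 0 * EZ Z
        rw [mul_zero, zero_mul]
    have hzero : EZ Z * (0 : HX G →L[ℂ] HX G) = 0 * EZ Z := by rw [mul_zero, zero_mul]
    rcases i with (i | i) | i <;> rcases j with (j | j) | j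
    · change EZ Z * (S1 i j).1 = (S1 i j).1 * EZ Z
      rw [hS1v, hs1]
    · exact hzero
    · exact hzero
    · exact hzero
    · exact hone _ i j
    · exact hzero
    · exact hzero
    · exact hzero
    · exact hone _ i j
  obtain ⟨Z2, h12, hsum⟩ := star_core D hTr hz h2 V hVi Z1 hcomm hmvn
  have hone : ∀ (k : ℕ) (i : Fin k),
      trZ Z2 (lz z * ((1 : Matrix (Fin k) (Fin k) (US G (WG G))) i i).1) = 0 := by
    intro k i
    rw [Matrix.one_apply_eq]
    change trZ Z2 (lz z * 1) = 0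
    rw [mul_one, trZ_lz _ h3]
  have hsum2 : ∑ i, trZ Z2 (lz z * (V i i).1) = trZ Z2 (lz z * s') := by
    rw [Fintype.sum_sum_type, Fintype.sum_sum_type]
    have e1 : ∑ i : Fin 1, trZ Z2 (lz z * (V (Sum.inl (Sum.inl i)) (Sum.inl (Sum.inl i))).1) =
        trZ Z2 (lz z * s') := by
      rw [Fin.sum_univ_one]
      change trZ Z2 (lz z * (S1 0 0).1) = _
      rw [hS1v]
    have e2 : ∑ i : Fin x.n, trZ Z2 (lz z * (V (Sum.inl (Sum.inr i)) (Sum.inl (Sum.inr i))).1) =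
        0 := Finset.sum_eq_zero fun i _ => hone _ i
    have e3 : ∑ i : Fin m, trZ Z2 (lz z * (V (Sum.inr i) (Sum.inr i)).1) = 0 :=
      Finset.sum_eq_zero fun i _ => hone _ i
    rw [e1, e2, e3, add_zero, add_zero]
  rw [hsum2] at hsum
  have hs2 : s' * EZ Z1 = s' := (hZ1 Z1 (Finset.Subset.refl _)).2
  rw [trZ_corner hZ hs2, ← trZ_corner h12 hs2]
  exact hsum

section Abs2

variable {G : Type} [Group G] {z : G} {F : Finset G}
  {B : Type} [NonUnitalRing B] [Module ℂ B] [IsScalarTower ℂ B B] [SMulCommClass ℂ B B]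

/-- unital extension of a homomorphism to `US` -/
def phiG (g : B →ₙₐ[ℂ] US G (WG G)) : Unitization ℂ B →+* US G (WG G) :=
  (Unitization.lift g).toRingHom

theorem phiG_val (g : B →ₙₐ[ℂ] US G (WG G)) (u : Unitization ℂ B) :
    (phiG g u).1 = u.fst • (1 : HX G →L[ℂ] HX G) + (g u.snd).1 := by
  change (algebraMap ℂ (US G (WG G)) u.fst).1 + (g u.snd).1 = _
  congr 1

theorem star_abs2 (D : ClData G z F) (hTr : PartTr)
    (hz : ∀ g, z * g = g * z) (h2 : z * z = 1) (h3 : z ≠ 1)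
    {C : Type} [NonUnitalRing C] [Module ℂ C] [IsScalarTower ℂ C C] [SMulCommClass ℂ C C]
    (f : B →ₙₐ[ℂ] C) (g : ℝ≥0 → B →ₙₐ[ℂ] US G (WG G)) (h : C →ₙₐ[ℂ] US G (WG G))
    (hfg : ∀ b, (h (f b)).1 = (g 0 b).1)
    (hb : ∀ b, ∃ C : ℝ, ∀ t, ‖(g t b).1‖ ≤ C) (hc : ∀ b, Continuous fun t => (g t b).1)
    (hg : ∀ b, Tendsto (fun t => D.q * (D.C * D.Lam (g t b).1 -
      D.Lam (g t b).1 * D.C)) atTop (𝓝 0))
    (x : KCyc B) (s : C) (hs : s * s = s) (m : ℕ)
    (hm : MvN (bs (bs (x.map f).p (1 - (x.map f).q)) (1 : Matrix (Fin m) (Fin m) (Unitization ℂ C)))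
      (bs (bs (projCyc s hs).p (1 : Matrix (Fin x.n) (Fin x.n) (Unitization ℂ C)))
        (1 : Matrix (Fin m) (Fin m) (Unitization ℂ C))))
    (Z1 : Finset (WG G)) (hZ1 : ∀ Z, Z1 ⊆ Z → EZ Z * (h s).1 = (h s).1 ∧ (h s).1 * EZ Z = (h s).1)
    (Z : Finset (WG G)) (hZ : Z1 ⊆ Z) : trZ Z (lz z * (h s).1) = 0 := by
  refine star_abs D hTr hz h2 h3 f (fun t => phiG (g t)) (phiG h) ?_ ?_ ?_ ?_ x s hs (h s).1 ?_ m
    hm Z1 hZ1 Z hZ
  · intro u
    refine Subtype.ext ?_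
    rw [phiG_val, phiG_val, umap_fst, umap_snd, hfg]
  · intro u
    obtain ⟨C, hC⟩ := hb u.snd
    refine ⟨‖u.fst • (1 : HX G →L[ℂ] HX G)‖ + C, fun t => ?_⟩
    rw [phiG_val]
    exact (norm_add_le _ _).trans (by gcongr; exact hC t)
  · intro u
    refine continuous_induced_rng.2 ?_
    have h1 : (Subtype.val ∘ fun t => phiG (g t) u) =
        fun t => u.fst • (1 : HX G →L[ℂ] HX G) + (g t u.snd).1 := by
      funext t
      exact phiG_val (g t) u
    rw [h1]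
    exact continuous_const.add (hc u.snd)
  · intro u
    have h2 : ∀ t, D.q * (D.C * D.Lam (phiG (g t) u).1 - D.Lam (phiG (g t) u).1 * D.C) =
        D.q * (D.C * D.Lam (g t u.snd).1 - D.Lam (g t u.snd).1 * D.C) := by
      intro t
      rw [phiG_val, map_add, map_smul, map_one]
      congr 1
      rw [mul_add, add_mul, mul_smul_comm, mul_one, smul_mul_assoc, one_mul]
      abel
    simp only [h2]
    have h3 := ((hg u.snd).const_mul (D.Pe (-1))).mul_const D.C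
    rw [mul_zero, zero_mul] at h3
    exact h3
  · rw [phiG_val, Unitization.fst_inr, Unitization.snd_inr, zero_smul, zero_add]

/-- evaluation at `t` as a homomorphism to `US` -/
def gL (hR : PartRoe) (F : Finset G) (t : ℝ≥0) : Loc G F →ₙₐ[ℂ] US G (WG G) where
  toFun := fun b => ⟨b.1 t, hR G _ (loc_roeG b.2 t)⟩
  map_smul' := fun _ _ => rfl
  map_zero' := rfl
  map_add' := fun _ _ => rfl
  map_mul' := fun _ _ => rfl

/-- inclusion as a homomorphism to `US` -/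
def gR (hR : PartRoe) : RoeG G →ₙₐ[ℂ] US G (WG G) where
  toFun := fun T => ⟨T.1, hR G T.1 T.2⟩
  map_smul' := fun _ _ => rfl
  map_zero' := rfl
  map_add' := fun _ _ => rfl
  map_mul' := fun _ _ => rfl

end Abs2

theorem partStar (hCl : PartCl) (hTr : PartTr) (hR : PartRoe) (hK : PartK) : PartStar := by
  intro G _ z hz h2 h3 F h4 x s hs Z1 hZ1 hx Z hZ
  obtain ⟨D⟩ := exists_clData hCl hz h2 h3 h4
  induction x using Quot.ind with | mk x => ?_
  obtain ⟨m, hm⟩ := hK (RoeG G) (x.map (ev G F)) s hs hx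
  exact star_abs2 D hTr hz h2 h3 (ev G F) (gL hR F) (gR hR) (fun _ => rfl)
    (fun b => loc_bdd b.2) (fun b => loc_cont b.2)
    (fun b => loc_comm D.Lam D.C D.q D.norm_le D.qLam D.qC D.comm b.2) x s hs m hm Z1 hZ1 Z hZ

end

end P089.AM
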