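import Mathlib

/-!
# The Baum-Connes assembly map of a discrete group, in the localization algebra form

* `K0 S`: the group `K_0` (as a set) of a subalgebra `S` of a `ℂ`-algebra `R`;
* `Pt G`: rational points of the full simplex with vertex set `G`; `InP F`: the Rips complex
  `P_F(G)` (simplices: finite sets `s` with `g⁻¹ h ∈ F` for `g, h ∈ s`);
* `Ops G`: bounded operators of `ℓ²(G × Pt G × ℕ)`, the basis vector `(g, a, i)` sits at `g • a`;
* `Roe F`: the equivariant Roe algebra `C*(P_F(G))^G`;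
* `Loc F`: the equivariant localization algebra `C*_L(P_F(G))^G`;
* `assembly G`: evaluation at `0`, from `lim_F K_0(C*_L(P_F(G))^G)` to
  `K_0(C*(EG)^G) = K_0(C*_r(G))`.
-/

namespace P089.Asm

open scoped Classical NNReal

noncomputable section

/-! ### `K_0` -/

section K

variable {R R' : Type} [Ring R] [Algebra ℂ R] [Ring R'] [Algebra ℂ R']

/-- the entries lie in the unitization `ℂ ⊕ S` of `S` -/
def Over (S : Set R) {ι κ : Type} (a : Matrix ι κ (Unitization ℂ R)) : Prop :=
  ∀ i j, (a i j).snd ∈ S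

/-- (Murray-von Neumann) equivalence of idempotent matrices over `ℂ ⊕ S` -/
def MvN (S : Set R) {ι κ : Type} [Fintype ι] [Fintype κ] (p : Matrix ι ι (Unitization ℂ R))
    (q : Matrix κ κ (Unitization ℂ R)) : Prop :=
  ∃ (a : Matrix ι κ (Unitization ℂ R)) (b : Matrix κ ι (Unitization ℂ R)),
    Over S a ∧ Over S b ∧ a * b = p ∧ b * a = q

/-- block sum of matrices -/
def bs {ι κ : Type} (p : Matrix ι ι (Unitization ℂ R)) (q : Matrix κ κ (Unitization ℂ R)) :
    Matrix (ι ⊕ κ) (ι ⊕ κ) (Unitization ℂ R) := Matrix.fromBlocks p 0 0 q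

/-- formal difference `[p] - [q]` of idempotent matrices over `ℂ ⊕ S` with the same scalar
part -/
structure KCyc (S : Set R) where
  n : ℕ
  p : Matrix (Fin n) (Fin n) (Unitization ℂ R)
  q : Matrix (Fin n) (Fin n) (Unitization ℂ R)
  hp : p * p = p
  hq : q * q = q
  hpS : Over S p
  hqS : Over S q
  hs : ∀ i j, (p i j).fst = (q i j).fst

/-- `[p] - [q] = [p'] - [q']` in `K_0(ℂ ⊕ S)` -/
def KRel {S : Set R} (x y : KCyc S) : Prop :=
  ∃ (m : ℕ) (r : Matrix (Fin m) (Fin m) (Unitization ℂ R)), r * r = r ∧ Over S r ∧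
    MvN S (bs (bs x.p y.q) r) (bs (bs y.p x.q) r)

/-- `K_0(S)`, the kernel of `K_0(ℂ ⊕ S) → K_0(ℂ)` -/
def K0 (S : Set R) : Type := Quot (KRel (S := S))

/-- the unital extension `c + a ↦ c + f a` of a homomorphism `f` -/
def um (f : R →ₐ[ℂ] R') (a : Unitization ℂ R) : Unitization ℂ R' :=
  Unitization.inl a.fst + Unitization.inr (f a.snd)

theorem um_fst (f : R →ₐ[ℂ] R') (a : Unitization ℂ R) : (um f a).fst = a.fst := by
  unfold um
  rw [Unitization.fst_add, Unitization.fst_inl, Unitization.fst_inr, add_zero]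

theorem um_snd (f : R →ₐ[ℂ] R') (a : Unitization ℂ R) : (um f a).snd = f a.snd := by
  unfold um
  rw [Unitization.snd_add, Unitization.snd_inl, Unitization.snd_inr, zero_add]

theorem um_zero (f : R →ₐ[ℂ] R') : um f 0 = 0 := by
  refine Unitization.ext ?_ ?_
  · rw [um_fst]; rfl
  · rw [um_snd, Unitization.snd_zero, map_zero]; rfl

theorem um_add (f : R →ₐ[ℂ] R') (a b : Unitization ℂ R) : um f (a + b) = um f a + um f b := by
  refine Unitization.ext ?_ ?_
  · rw [um_fst, Unitization.fst_add, Unitization.fst_add, um_fst, um_fst]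
  · rw [um_snd, Unitization.snd_add, Unitization.snd_add, um_snd, um_snd, map_add]

theorem um_mul (f : R →ₐ[ℂ] R') (a b : Unitization ℂ R) : um f (a * b) = um f a * um f b := by
  refine Unitization.ext ?_ ?_
  · rw [um_fst, Unitization.fst_mul, Unitization.fst_mul, um_fst, um_fst]
  · rw [um_snd, Unitization.snd_mul, Unitization.snd_mul, um_snd, um_snd, um_fst, um_fst,
      map_add, map_add, map_smul, map_smul, map_mul]

theorem map_mul_um (f : R →ₐ[ℂ] R') {ι κ μ : Type} [Fintype κ]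
    (a : Matrix ι κ (Unitization ℂ R)) (b : Matrix κ μ (Unitization ℂ R)) :
    (a * b).map (um f) = a.map (um f) * b.map (um f) := by
  refine Matrix.ext fun i j => ?_
  have hsum : ∀ (s : Finset κ) (g : κ → Unitization ℂ R),
      um f (∑ k ∈ s, g k) = ∑ k ∈ s, um f (g k) := by
    intro s g
    induction s using Finset.induction_on with
    | empty => rw [Finset.sum_empty, Finset.sum_empty, um_zero]
    | insert k s hk ih => rw [Finset.sum_insert hk, Finset.sum_insert hk, um_add, ih]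
  rw [Matrix.map_apply, Matrix.mul_apply, Matrix.mul_apply, hsum]
  refine Finset.sum_congr rfl fun k _ => ?_
  rw [um_mul]
  rfl

theorem over_um {f : R →ₐ[ℂ] R'} {S : Set R} {S' : Set R'} (h : ∀ a ∈ S, f a ∈ S') {ι κ : Type}
    {a : Matrix ι κ (Unitization ℂ R)} (ha : Over S a) : Over S' (a.map (um f)) := by
  intro i j
  rw [Matrix.map_apply, um_snd]
  exact h _ (ha i j)

/-- the cycle `[f p] - [f q]` -/
def KCyc.map {S : Set R} {S' : Set R'} (f : R →ₐ[ℂ] R') (h : ∀ a ∈ S, f a ∈ S')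
    (x : KCyc S) : KCyc S' where
  n := x.n
  p := x.p.map (um f)
  q := x.q.map (um f)
  hp := by rw [← map_mul_um, x.hp]
  hq := by rw [← map_mul_um, x.hq]
  hpS := over_um h x.hpS
  hqS := over_um h x.hqS
  hs i j := by
    rw [Matrix.map_apply, Matrix.map_apply, um_fst, um_fst]
    exact x.hs i j

theorem bs_um (f : R →ₐ[ℂ] R') {ι κ : Type} (p : Matrix ι ι (Unitization ℂ R))
    (q : Matrix κ κ (Unitization ℂ R)) :
    (bs p q).map (um f) = bs (p.map (um f)) (q.map (um f)) := by
  unfold bs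
  rw [Matrix.fromBlocks_map, Matrix.map_zero _ (um_zero f), Matrix.map_zero _ (um_zero f)]

theorem KRel.map {S : Set R} {S' : Set R'} (f : R →ₐ[ℂ] R') (h : ∀ a ∈ S, f a ∈ S')
    {x y : KCyc S} (hxy : KRel x y) : KRel (x.map f h) (y.map f h) := by
  obtain ⟨m, r, hr, hrS, a, b, ha, hb, hab, hba⟩ := hxy
  refine ⟨m, r.map (um f), ?_, over_um h hrS, a.map (um f), b.map (um f), over_um h ha,
    over_um h hb, ?_, ?_⟩
  · rw [← map_mul_um, hr]
  · refine (map_mul_um f a b).symm.trans ?_
    rw [hab, bs_um, bs_um]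
    rfl
  · refine (map_mul_um f b a).symm.trans ?_
    rw [hba, bs_um, bs_um]
    rfl

/-- functoriality of `K_0` -/
def K0map {S : Set R} {S' : Set R'} (f : R →ₐ[ℂ] R') (h : ∀ a ∈ S, f a ∈ S') : K0 S → K0 S' :=
  Quot.map (KCyc.map f h) fun _ _ => KRel.map f h

end K

/-! ### operators on `ℓ²` of a set -/

section Ops

/-- the Hilbert space `ℓ²(I)` -/
def L2 (I : Type) : Type := lp (fun _ : I => ℂ) 2

@[instance] def l2Group (I : Type) : NormedAddCommGroup (L2 I) :=
  (inferInstance : NormedAddCommGroup (lp (fun _ : I => ℂ) 2))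

@[instance] def l2Space (I : Type) : NormedSpace ℂ (L2 I) :=
  (inferInstance : NormedSpace ℂ (lp (fun _ : I => ℂ) 2))

/-- the algebra of bounded operators on `ℓ²(I)` -/
def Op (I : Type) : Type := L2 I →L[ℂ] L2 I

@[instance] def opRing (I : Type) : NormedRing (Op I) :=
  (inferInstance : NormedRing (L2 I →L[ℂ] L2 I))

@[instance] def opAlgebra (I : Type) : NormedAlgebra ℂ (Op I) :=
  (inferInstance : NormedAlgebra ℂ (L2 I →L[ℂ] L2 I))

/-- an operator as a function -/
def Op.fn {I : Type} (T : Op I) : L2 I → L2 I := DFunLike.coe (F := L2 I →L[ℂ] L2 I) T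

/-- basis vector -/
def bv {I : Type} (i : I) : L2 I := lp.single 2 i (1 : ℂ)

/-- coordinate of a vector -/
def co {I : Type} (ξ : L2 I) (i : I) : ℂ := (show lp (fun _ : I => ℂ) 2 from ξ) i

/-- matrix entry of an operator -/
def ent {I : Type} (T : Op I) (i j : I) : ℂ := co (T.fn (bv j)) i

/-- the operator is compact -/
def Cpt {I : Type} (T : Op I) : Prop := IsCompactOperator T.fn

end Ops

/-! ### Rips complexes, Roe algebras, localization algebras -/

section Rips

/-- rational points of the full simplex with vertex set `G`: finitely supported probability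
measures on `G` with rational values -/
def Pt (G : Type) : Type := {x : G →₀ ℚ // (∀ g, 0 ≤ x g) ∧ ∑ g ∈ x.support, x g = 1}

variable {G : Type} [Group G]

/-- left translation of points -/
def tr (g : G) (x : Pt G) : Pt G :=
  ⟨Finsupp.equivMapDomain (Equiv.mulLeft g) x.1, fun h => by
    rw [Finsupp.equivMapDomain_apply]; exact x.2.1 _, by
    refine Eq.trans ?_ x.2.2
    refine Finset.sum_bij' (fun h _ => g⁻¹ * h) (fun h _ => g * h) ?_ ?_ ?_ ?_ ?_
    · intro h hh
      rw [Finsupp.mem_support_iff, Finsupp.equivMapDomain_apply] at hh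
      rw [Finsupp.mem_support_iff]
      exact hh
    · intro h hh
      rw [Finsupp.mem_support_iff, Finsupp.equivMapDomain_apply]
      rw [Finsupp.mem_support_iff] at hh
      simpa using hh
    · intro h _; exact mul_inv_cancel_left g h
    · intro h _; exact inv_mul_cancel_left g h
    · intro h _
      rw [Finsupp.equivMapDomain_apply]
      rfl⟩

/-- `x` lies in the Rips complex `P_F(G)` -/
def InP (F : Finset G) (x : Pt G) : Prop := ∀ g h, x.1 g ≠ 0 → x.1 h ≠ 0 → g⁻¹ * h ∈ F

/-- `ℓ¹`-distance of points (barycentric coordinates) -/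
def dist1 (x y : Pt G) : ℝ := ∑ g ∈ x.1.support ∪ y.1.support, |((x.1 g : ℚ) : ℝ) - (y.1 g : ℚ)|

/-- the basis of the module `ℓ²(G) ⊗ ℓ²(Pt G) ⊗ ℓ²(ℕ)` -/
abbrev Bas (G : Type) : Type := G × (Pt G × ℕ)

/-- position of the basis vector `(g, a, i)` -/
def pos (y : Bas G) : Pt G := tr y.1 y.2.1

/-- `T` commutes with the action of `G` -/
def Equi (T : Op (Bas G)) : Prop :=
  ∀ (g : G) (y y' : Bas G), ent T (g * y.1, y.2) (g * y'.1, y'.2) = ent T y y'

/-- `T` lives on the Rips complex `P_F(G)` -/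
def SuppIn (F : Finset G) (T : Op (Bas G)) : Prop :=
  ∀ y y', ent T y y' ≠ 0 → InP F (pos y) ∧ InP F (pos y')

/-- `T` has finite propagation -/
def FinProp (T : Op (Bas G)) : Prop :=
  ∃ K : Finset G, ∀ y y', ent T y y' ≠ 0 → ∃ g h, (pos y).1 g ≠ 0 ∧ (pos y').1 h ≠ 0 ∧ g⁻¹ * h ∈ K

/-- `T` is locally compact: `χ T` and `T χ` are compact for `χ` the characteristic function of
the star of any vertex `g` -/
def LocComp (T : Op (Bas G)) : Prop :=
  ∀ g : G, (∃ S, Cpt S ∧ ∀ y y', ent S y y' = if (pos y).1 g ≠ 0 then ent T y y' else 0) ∧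
    ∃ S, Cpt S ∧ ∀ y y', ent S y y' = if (pos y').1 g ≠ 0 then ent T y y' else 0

/-- `T` has propagation less than `ε` -/
def PropLt (ε : ℝ) (T : Op (Bas G)) : Prop :=
  ∀ y y', ent T y y' ≠ 0 → dist1 (pos y) (pos y') < ε

/-- the equivariant, locally compact operators of finite propagation on `P_F(G)` -/
def RoeSet (F : Finset G) : Set (Op (Bas G)) :=
  {T | Equi T ∧ SuppIn F T ∧ FinProp T ∧ LocComp T}

/-- the equivariant Roe algebra `C*(P_F(G))^G` -/
def Roe (F : Finset G) : Set (Op (Bas G)) :=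
  closure (NonUnitalAlgebra.adjoin ℂ (RoeSet F))

/-- the equivariant Roe algebra of the union of the `P_F(G)`, isomorphic to `C*_r(G) ⊗ K` -/
def RoeG (G : Type) [Group G] : Set (Op (Bas G)) :=
  closure (NonUnitalAlgebra.adjoin ℂ {T | ∃ F : Finset G, T ∈ RoeSet F})

/-- bounded uniformly continuous paths in the Roe algebra with propagation tending to `0` -/
def LocSet (F : Finset G) : Set (ℝ≥0 → Op (Bas G)) :=
  {b | (∃ C : ℝ, ∀ t, ‖b t‖ ≤ C) ∧ UniformContinuous b ∧ (∀ t, b t ∈ Roe F) ∧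
    ∀ ε : ℝ, 0 < ε → ∃ t0 : ℝ≥0, ∀ t, t0 ≤ t → PropLt ε (b t)}

/-- the equivariant localization algebra `C*_L(P_F(G))^G`: closure of the algebra generated by
`LocSet F` for the norm `sup_t ‖b t‖` -/
def Loc (F : Finset G) : Set (ℝ≥0 → Op (Bas G)) :=
  {b | ∀ ε : ℝ, 0 < ε → ∃ c ∈ NonUnitalAlgebra.adjoin ℂ (LocSet F), ∀ t, ‖b t - c t‖ ≤ ε}

theorem adjoin_ev {F : Finset G} {c : ℝ≥0 → Op (Bas G)}
    (hc : c ∈ NonUnitalAlgebra.adjoin ℂ (LocSet F)) :
    c 0 ∈ (NonUnitalAlgebra.adjoin ℂ (RoeSet F)).topologicalClosure := by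
  induction hc using NonUnitalAlgebra.adjoin_induction with
  | mem b hb => exact hb.2.2.1 0
  | zero => exact zero_mem _
  | add b c _ _ hb hc => exact add_mem hb hc
  | mul b c _ _ hb hc => exact mul_mem hb hc
  | smul r b _ hb => exact SMulMemClass.smul_mem r hb

/-- evaluation at `0` maps the localization algebra to the Roe algebra -/
theorem ev_mem (F : Finset G) (b : ℝ≥0 → Op (Bas G)) (hb : b ∈ Loc F) :
    Pi.evalAlgHom ℂ (fun _ : ℝ≥0 => Op (Bas G)) 0 b ∈ RoeG G := by
  have h0 : b 0 ∈ closure (closure (NonUnitalAlgebra.adjoin ℂ (RoeSet F) : Set (Op (Bas G)))) := by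
    rw [Metric.mem_closure_iff]
    intro ε hε
    obtain ⟨c, hc, h⟩ := hb (ε / 2) (by positivity)
    refine ⟨c 0, adjoin_ev hc, ?_⟩
    rw [dist_eq_norm]
    exact (h 0).trans_lt (by linarith)
  rw [closure_closure] at h0
  refine closure_mono ?_ h0
  exact NonUnitalAlgebra.adjoin_mono fun T hT => ⟨F, hT⟩

/-- the assembly map `lim_F K_0(C*_L(P_F(G))^G) → K_0(C*_r(G))`, given by evaluation at `0`, on the
levels of the direct limit over the finite sets `F` -/
def assembly (G : Type) [Group G] : (Σ F : Finset G, K0 (Loc F)) → K0 (RoeG G) := fun x =>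
  K0map (Pi.evalAlgHom ℂ (fun _ : ℝ≥0 => Op (Bas G)) 0) (ev_mem x.1) x.2

end Rips

end

end P089.Asm
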