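import Vale.Agent.Lib.P089.AM.UDefs
import Vale.Agent.Lib.P089.AM.Ent

/-!
# P089 AM: the algebra `U` is closed
-/

namespace P089.AM

open scoped Classical NNReal

noncomputable section

variable {Γ W : Type} [Group Γ]

theorem EquiG.mul {S T : L2 (Γ × W) →L[ℂ] L2 (Γ × W)} (hS : EquiG S) (hT : EquiG T) :
    EquiG (S * T) := by
  intro g y y'
  have h1 := ent_mul_hasSum S T y y'
  have h2 := ent_mul_hasSum S T (g * y.1, y.2) (g * y'.1, y'.2)
  have h3 := (Equiv.hasSum_iff (Equiv.prodCongr (Equiv.mulLeft g) (Equiv.refl W))).2 h2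
  refine h3.unique ?_
  convert h1 using 1
  funext z
  exact congrArg₂ (· * ·) (hS g y z) (hT g z y')

theorem EquiG.add {S T : L2 (Γ × W) →L[ℂ] L2 (Γ × W)} (hS : EquiG S) (hT : EquiG T) :
    EquiG (S + T) := by
  intro g y y'
  rw [ent_add, ent_add, hS, hT]

theorem EquiG.smul_one (c : ℂ) : EquiG (c • (1 : L2 (Γ × W) →L[ℂ] L2 (Γ × W))) := by
  intro g y y'
  rw [ent_smul, ent_smul, ent_one, ent_one]
  by_cases h : y = y'
  · subst h
    rw [if_pos rfl, if_pos rfl]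
  · rw [if_neg h, if_neg fun h3 => h (shift_inj h3)]

theorem EquiG_closed : IsClosed {T : L2 (Γ × W) →L[ℂ] L2 (Γ × W) | EquiG T} := by
  have h : {T : L2 (Γ × W) →L[ℂ] L2 (Γ × W) | EquiG T} = ⋂ (g : Γ), ⋂ (y : Γ × W),
      ⋂ (y' : Γ × W), {S | ent S (g * y.1, y.2) (g * y'.1, y'.2) = ent S y y'} := by
    ext S
    simp only [Set.mem_iInter]
    rfl
  rw [h]
  exact isClosed_iInter fun g => isClosed_iInter fun y => isClosed_iInter fun y' =>
    isClosed_eq (ent_continuous _ _) (ent_continuous _ _)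

theorem EquiG_EZ (Z : Finset W) : EquiG (EZ Z : L2 (Γ × W) →L[ℂ] L2 (Γ × W)) := by
  intro g y y'
  unfold EZ
  rw [ent_cut, ent_cut]
  by_cases h : y ∈ {y : Γ × W | y.2 ∈ Z} ∧ y = y'
  · rw [if_pos h, if_pos]
    obtain ⟨h1, rfl⟩ := h
    exact ⟨h1, rfl⟩
  · rw [if_neg h, if_neg]
    rintro ⟨h1, h2⟩
    exact h ⟨h1, shift_inj h2⟩

theorem comm_mul_le {A : Type} [NormedRing A] (E S T : A) :
    ‖E * (S * T) - S * T * E‖ ≤ ‖E * S - S * E‖ * ‖T‖ + ‖S‖ * ‖E * T - T * E‖ := by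
  have h : E * (S * T) - S * T * E = (E * S - S * E) * T + S * (E * T - T * E) := by
    noncomm_ring
  rw [h]
  exact (norm_add_le _ _).trans (add_le_add (norm_mul_le _ _) (norm_mul_le _ _))

theorem inU_mul {S T : L2 (Γ × W) →L[ℂ] L2 (Γ × W)} (hS : InU S) (hT : InU T) : InU (S * T) := by
  refine ⟨hS.1.mul hT.1, fun ε hε => ?_⟩
  obtain ⟨Z1, h1⟩ := hS.2 (ε / (2 * (‖T‖ + 1))) (by positivity)
  obtain ⟨Z2, h2⟩ := hT.2 (ε / (2 * (‖S‖ + 1))) (by positivity)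
  refine ⟨Z1 ∪ Z2, fun Z hZ => ?_⟩
  have h3 := h1 Z (Finset.union_subset_left hZ)
  have h4 := h2 Z (Finset.union_subset_right hZ)
  refine (comm_mul_le (EZ Z) S T).trans ?_
  have h5 : ‖EZ Z * S - S * EZ Z‖ * ‖T‖ ≤ ε / (2 * (‖T‖ + 1)) * ‖T‖ :=
    mul_le_mul_of_nonneg_right h3 (norm_nonneg _)
  have h6 : ‖S‖ * ‖EZ Z * T - T * EZ Z‖ ≤ ‖S‖ * (ε / (2 * (‖S‖ + 1))) :=
    mul_le_mul_of_nonneg_left h4 (norm_nonneg _)
  have h7 : ε / (2 * (‖T‖ + 1)) * ‖T‖ ≤ ε / 2 := by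
    rw [div_mul_eq_mul_div, div_le_div_iff₀ (by positivity) (by positivity)]
    nlinarith [norm_nonneg T]
  have h8 : ‖S‖ * (ε / (2 * (‖S‖ + 1))) ≤ ε / 2 := by
    rw [mul_div_assoc', div_le_div_iff₀ (by positivity) (by positivity)]
    nlinarith [norm_nonneg S]
  linarith

theorem inU_add {S T : L2 (Γ × W) →L[ℂ] L2 (Γ × W)} (hS : InU S) (hT : InU T) : InU (S + T) := by
  refine ⟨hS.1.add hT.1, fun ε hε => ?_⟩
  obtain ⟨Z1, h1⟩ := hS.2 (ε / 2) (by positivity)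
  obtain ⟨Z2, h2⟩ := hT.2 (ε / 2) (by positivity)
  refine ⟨Z1 ∪ Z2, fun Z hZ => ?_⟩
  have h3 := h1 Z (Finset.union_subset_left hZ)
  have h4 := h2 Z (Finset.union_subset_right hZ)
  have h5 : EZ Z * (S + T) - (S + T) * EZ Z = (EZ Z * S - S * EZ Z) + (EZ Z * T - T * EZ Z) := by
    noncomm_ring
  rw [h5]
  refine (norm_add_le _ _).trans ?_
  linarith

theorem inU_smul (c : ℂ) : InU (c • (1 : L2 (Γ × W) →L[ℂ] L2 (Γ × W))) := by
  refine ⟨EquiG.smul_one c, fun ε hε => ⟨∅, fun Z _ => ?_⟩⟩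
  have h : (EZ Z : L2 (Γ × W) →L[ℂ] L2 (Γ × W)) * (c • 1) - (c • 1) * EZ Z = 0 := by
    rw [mul_smul_comm, smul_mul_assoc, mul_one, one_mul, sub_self]
  rw [h, norm_zero]
  exact hε.le

/-- the algebra of equivariant operators which asymptotically commute with the `EZ Z` -/
def US (Γ W : Type) [Group Γ] : Subalgebra ℂ (L2 (Γ × W) →L[ℂ] L2 (Γ × W)) where
  carrier := {T | InU T}
  mul_mem' := fun h h' => inU_mul h h'
  add_mem' := fun h h' => inU_add h h'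
  algebraMap_mem' := fun c => by
    rw [Algebra.algebraMap_eq_smul_one]
    exact inU_smul c

theorem mem_US {T : L2 (Γ × W) →L[ℂ] L2 (Γ × W)} : T ∈ US Γ W ↔ InU T := Iff.rfl

theorem US_closed : IsClosed (US Γ W : Set (L2 (Γ × W) →L[ℂ] L2 (Γ × W))) := by
  rw [← closure_subset_iff_isClosed]
  intro S hS
  have h1 : EquiG S := by
    have h2 : closure (US Γ W : Set (L2 (Γ × W) →L[ℂ] L2 (Γ × W))) ⊆
        {T : L2 (Γ × W) →L[ℂ] L2 (Γ × W) | EquiG T} :=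
      EquiG_closed.closure_subset_iff.2 fun T hT => hT.1
    exact h2 hS
  refine ⟨h1, fun ε hε => ?_⟩
  obtain ⟨T, hT, h3⟩ := Metric.mem_closure_iff.1 hS (ε / 4) (by positivity)
  rw [dist_eq_norm] at h3
  obtain ⟨Z0, h0⟩ := hT.2 (ε / 4) (by positivity)
  refine ⟨Z0, fun Z hZ => ?_⟩
  have h9 := h0 Z hZ
  have h4 : EZ Z * S - S * EZ Z = EZ Z * (S - T) + (EZ Z * T - T * EZ Z) - (S - T) * EZ Z := by
    noncomm_ring
  have h5 : ‖(EZ Z : L2 (Γ × W) →L[ℂ] L2 (Γ × W)) * (S - T)‖ ≤ ε / 4 := by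
    refine (norm_mul_le _ _).trans ?_
    have := mul_le_mul (norm_cut_le {y : Γ × W | y.2 ∈ Z}) h3.le (norm_nonneg _) zero_le_one
    unfold EZ
    linarith
  have h6 : ‖(S - T) * (EZ Z : L2 (Γ × W) →L[ℂ] L2 (Γ × W))‖ ≤ ε / 4 := by
    refine (norm_mul_le _ _).trans ?_
    have := mul_le_mul h3.le (norm_cut_le {y : Γ × W | y.2 ∈ Z}) (norm_nonneg _) (by positivity)
    unfold EZ
    linarith
  rw [h4]
  have h7 := norm_sub_le (EZ Z * (S - T) + (EZ Z * T - T * EZ Z)) ((S - T) * EZ Z)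
  have h8 := norm_add_le (EZ Z * (S - T)) (EZ Z * T - T * EZ Z)
  linarith

theorem EZ_comm (Z Z' : Finset W) :
    (EZ Z : L2 (Γ × W) →L[ℂ] L2 (Γ × W)) * EZ Z' = EZ Z' * EZ Z := by
  refine ent_ext fun y y' => ?_
  unfold EZ
  rw [ent_cut_mul, ent_mul_cut, ent_cut]
  by_cases h : y = y'
  · subst h
    rfl
  · simp [h]

theorem EZ_mem (Z : Finset W) : InU (EZ Z : L2 (Γ × W) →L[ℂ] L2 (Γ × W)) := by
  refine ⟨EquiG_EZ Z, fun ε hε => ⟨∅, fun Z' _ => ?_⟩⟩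
  rw [EZ_comm, sub_self, norm_zero]
  exact hε.le

theorem ent_lz (z : Γ) (y y' : Γ × W) :
    ent (lz z : L2 (Γ × W) →L[ℂ] L2 (Γ × W)) y y' =
      if (z⁻¹ * y.1, y.2) = y' then 1 else 0 := by
  unfold ent
  rw [lz_apply]
  by_cases h : (z⁻¹ * y.1, y.2) = y'
  · rw [if_pos h, h]
    exact single_self y'
  · rw [if_neg h]
    exact single_ne h

theorem EZ_lz (Z : Finset W) (z : Γ) :
    (EZ Z : L2 (Γ × W) →L[ℂ] L2 (Γ × W)) * lz z = lz z * EZ Z := by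
  refine ent_ext fun y y' => ?_
  unfold EZ
  rw [ent_cut_mul, ent_mul_cut, ent_lz]
  by_cases h : (z⁻¹ * y.1, y.2) = y'
  · subst h
    rfl
  · simp [h]

theorem lz_mem {z : Γ} (hz : ∀ g, z * g = g * z) : InU (lz z : L2 (Γ × W) →L[ℂ] L2 (Γ × W)) := by
  refine ⟨fun g y y' => ?_, fun ε hε => ⟨∅, fun Z _ => ?_⟩⟩
  · rw [ent_lz, ent_lz]
    have h1 : z⁻¹ * (g * y.1) = g * (z⁻¹ * y.1) := by
      have h2 : z⁻¹ * g = g * z⁻¹ := by
        rw [inv_mul_eq_iff_eq_mul, ← mul_assoc, hz g, mul_assoc, mul_inv_cancel, mul_one]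
      rw [← mul_assoc, h2, mul_assoc]
    by_cases h : (z⁻¹ * y.1, y.2) = y'
    · subst h
      rw [if_pos rfl, if_pos]
      exact Prod.ext h1 rfl
    · rw [if_neg h, if_neg]
      intro h3
      have h4 : ((g * (z⁻¹ * y.1), y.2) : Γ × W) = (z⁻¹ * (g * y.1), y.2) := Prod.ext h1.symm rfl
      exact h (shift_inj (g := g) (y := (z⁻¹ * y.1, y.2)) (h4.trans h3))
  · rw [EZ_lz, sub_self, norm_zero]
    exact hε.le

/-- equivariant operators commute with left translations -/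
theorem lz_comm {T : L2 (Γ × W) →L[ℂ] L2 (Γ × W)} (hT : EquiG T) (z : Γ) : lz z * T = T * lz z := by
  refine ent_ext fun y y' => ?_
  have h1 : ent (lz z * T) y y' = ent T (z⁻¹ * y.1, y.2) y' := rfl
  have h2 : ent (T * lz z) y y' = ent T y (z * y'.1, y'.2) := by
    have h3 := ent_mul_hasSum T (lz z) y y'
    have h4 : HasSum (fun x => ent T y x * ent (lz z) x y')
        (ent T y (z * y'.1, y'.2) * ent (lz z) (z * y'.1, y'.2) y') := by
      refine hasSum_single (z * y'.1, y'.2) fun x hx => ?_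
      rw [ent_lz, if_neg, mul_zero]
      rintro rfl
      exact hx (Prod.ext (by simp) rfl)
    rw [h3.unique h4, ent_lz, if_pos, mul_one]
    exact Prod.ext (by simp) rfl
  rw [h1, h2]
  have h5 := hT z (z⁻¹ * y.1, y.2) y'
  rw [← h5]
  simp

end

end P089.AM
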