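import Vale.Agent.Lib.P089.AM.Defs

/-!
# P089 AM: equivariant operators on `ℓ²(Γ × W)`; definitions

`Γ` acts on the left on the first factor.
-/

namespace P089.AM

open scoped Classical NNReal

noncomputable section

variable {Γ W : Type} [Group Γ]

/-- equivariance for left translation in the first factor -/
def EquiG (T : L2 (Γ × W) →L[ℂ] L2 (Γ × W)) : Prop :=
  ∀ (g : Γ) (y y' : Γ × W), ent T (g * y.1, y.2) (g * y'.1, y'.2) = ent T y y'

/-- the projection onto `ℓ²(Γ × Z)` -/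
def EZ (Z : Finset W) : L2 (Γ × W) →L[ℂ] L2 (Γ × W) := cut {y | y.2 ∈ Z}

/-- equivariant operators which asymptotically commute with the `EZ Z` -/
def InU (T : L2 (Γ × W) →L[ℂ] L2 (Γ × W)) : Prop :=
  EquiG T ∧ ∀ ε : ℝ, 0 < ε → ∃ Z0 : Finset W, ∀ Z, Z0 ⊆ Z → ‖EZ Z * T - T * EZ Z‖ ≤ ε

/-- trace of the corner `EZ Z` -/
def trZ (Z : Finset W) (T : L2 (Γ × W) →L[ℂ] L2 (Γ × W)) : ℂ :=
  ∑ w ∈ Z, ent T (1, w) (1, w)

theorem mem_comp {I : Type} (e : I ≃ I) (ξ : L2 I) : Memℓp (fun i => ξ (e i)) 2 := by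
  have hp : 0 < (2 : ENNReal).toReal := by norm_num
  have h1 : Summable fun i => ‖ξ i‖ ^ (2 : ENNReal).toReal := (lp.memℓp ξ).summable hp
  exact memℓp_gen (h1.comp_injective e.injective)

theorem norm_comp' {I : Type} (e : I ≃ I) (ξ : L2 I) :
    ‖(⟨fun h => ξ (e h), mem_comp e ξ⟩ : L2 I)‖ = ‖ξ‖ := by
  have hp : 0 < (2 : ENNReal).toReal := by norm_num
  rw [lp.norm_eq_tsum_rpow hp, lp.norm_eq_tsum_rpow hp]
  congr 1
  exact Equiv.tsum_eq e fun i => ‖ξ i‖ ^ (2 : ENNReal).toReal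

/-- permutation of the coordinates `(permOp e ξ) i = ξ (e i)` -/
def permOp {I : Type} (e : I ≃ I) : L2 I →L[ℂ] L2 I :=
  LinearMap.mkContinuous
    { toFun := fun ξ => ⟨fun i => ξ (e i), mem_comp e ξ⟩
      map_add' := fun _ _ => rfl
      map_smul' := fun _ _ => rfl } 1
    (fun ξ => by rw [one_mul]; exact (norm_comp' e ξ).le)

theorem permOp_apply {I : Type} (e : I ≃ I) (ξ : L2 I) (i : I) : permOp e ξ i = ξ (e i) := rfl

/-- left translation `(lz z ξ)(g, w) = ξ (z⁻¹ g, w)` -/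
def lz (z : Γ) : L2 (Γ × W) →L[ℂ] L2 (Γ × W) :=
  permOp (Equiv.prodCongr (Equiv.mulLeft z⁻¹) (Equiv.refl W))

theorem lz_apply (z : Γ) (ξ : L2 (Γ × W)) (y : Γ × W) : lz z ξ y = ξ (z⁻¹ * y.1, y.2) := rfl

end

end P089.AM
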